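import Vale.Agent.P011.One.AFrame

/-!
The centralizer of a symmetric square root, as a division algebra with involution of the second
kind over a quadratic extension of the base field.
-/

open NumberField IsDedekindDomain Polynomial Module

set_option linter.unusedSectionVars false

namespace Vale.Agent.P011.Pow

open Vale.Agent.P011.Arith Vale.Agent.P011.Even Vale.Agent.P011.Two Vale.Agent.P011.One

section field

variable {R D : Type} [Field R] [DivisionRing D] [Algebra R D] {t : D} {a : R}
  (ht : t * t = algebraMap R D a)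

theorem Lt2_comm {x y : D} (hx : x ∈ Lt2 R ht) (hy : y ∈ Lt2 R ht) : x * y = y * x := by
  obtain ⟨u, v, rfl⟩ := hx
  obtain ⟨u', v', rfl⟩ := hy
  have h1 : ∀ c : R, t * algebraMap R D c = algebraMap R D c * t := fun c =>
    (Algebra.commutes c t).symm
  have h2 : ∀ c : R, ∀ y : D, algebraMap R D c * y = y * algebraMap R D c := fun c y =>
    Algebra.commutes c y
  have h3 : Commute (algebraMap R D u + algebraMap R D v * t)
      (algebraMap R D u' + algebraMap R D v' * t) := by
    have c1 : ∀ (c : R) (y : D), Commute (algebraMap R D c) y := h2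
    have c2 : ∀ (c : R) (y : D), Commute y (algebraMap R D c) := fun c y => (h2 c y).symm
    exact (((c1 _ _).add_right (c1 _ _)).add_left (((c2 _ _).mul_left (c2 _ _)).add_right
      (((c1 _ _).mul_left ((c2 _ _).mul_right (Commute.refl t))))))
  exact h3

end field

section types

variable {R D : Type} [Field R] [DivisionRing D] [Algebra R D] {t : D} {a : R}

/-- The field `R + R t`. -/
def FL (ht : t * t = algebraMap R D a) : Type := Lt2 R ht

/-- The elements commuting with `t`. -/
def CT (ht : t * t = algebraMap R D a) : Type := Subalgebra.centralizer R (Lt2 R ht : Set D)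

variable (ht : t * t = algebraMap R D a)

instance ringFL : Ring (FL ht) := inferInstanceAs (Ring (Lt2 R ht))

instance ringCT : Ring (CT ht) :=
  inferInstanceAs (Ring (Subalgebra.centralizer R (Lt2 R ht : Set D)))

noncomputable instance fieldFL : Field (FL ht) :=
  { ringFL ht with
    mul_comm := fun x y => Subtype.ext (Lt2_comm ht x.2 y.2)
    inv := fun x => ⟨(x.1 : D)⁻¹, Lt2_inv ht x.2⟩
    exists_pair_ne := ⟨0, 1, fun h => zero_ne_one (α := D) (congrArg Subtype.val h)⟩
    mul_inv_cancel := fun x hx => by
      apply Subtype.ext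
      exact mul_inv_cancel₀ (fun h => hx (Subtype.ext h))
    inv_zero := Subtype.ext inv_zero
    nnqsmul := _
    nnqsmul_def := fun _ _ => rfl
    qsmul := _
    qsmul_def := fun _ _ => rfl }

noncomputable instance divCT : DivisionRing (CT ht) :=
  { ringCT ht with
    inv := fun x => ⟨(x.1 : D)⁻¹, by
      rw [Subalgebra.mem_centralizer_iff]
      intro y hy
      have h := (Subalgebra.mem_centralizer_iff R).mp x.2 y hy
      exact (Commute.inv_right₀ (show Commute y (x.1 : D) from h))⟩
    exists_pair_ne := ⟨0, 1, fun h => zero_ne_one (α := D) (congrArg Subtype.val h)⟩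
    mul_inv_cancel := fun x hx => by
      apply Subtype.ext
      exact mul_inv_cancel₀ (fun h => hx (Subtype.ext h))
    inv_zero := Subtype.ext inv_zero
    nnqsmul := _
    nnqsmul_def := fun _ _ => rfl
    qsmul := _
    qsmul_def := fun _ _ => rfl }

instance : Algebra R (FL ht) := inferInstanceAs (Algebra R (Lt2 R ht))

instance : Algebra R (CT ht) :=
  inferInstanceAs (Algebra R (Subalgebra.centralizer R (Lt2 R ht : Set D)))

/-- The inclusion of the field. -/
def fv : FL ht →+* D where
  toFun x := x.1
  map_one' := rfl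
  map_mul' _ _ := rfl
  map_zero' := rfl
  map_add' _ _ := rfl

/-- The inclusion of the centralizer. -/
def cv : CT ht →+* D where
  toFun x := x.1
  map_one' := rfl
  map_mul' _ _ := rfl
  map_zero' := rfl
  map_add' _ _ := rfl

theorem fv_inj : Function.Injective (fv ht) := Subtype.val_injective

theorem cv_inj : Function.Injective (cv ht) := Subtype.val_injective

theorem fv_alg (c : R) : fv ht (algebraMap R (FL ht) c) = algebraMap R D c := rfl

theorem cv_alg (c : R) : cv ht (algebraMap R (CT ht) c) = algebraMap R D c := rfl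

theorem fv_mem (x : FL ht) : ∃ u v : R, fv ht x = algebraMap R D u + algebraMap R D v * t := x.2

theorem exists_fv {x : D} (hx : ∃ u v : R, x = algebraMap R D u + algebraMap R D v * t) :
    ∃ y : FL ht, fv ht y = x := ⟨⟨x, hx⟩, rfl⟩

theorem mem_cL {x : D} :
    x ∈ Subalgebra.centralizer R (Lt2 R ht : Set D) ↔ x * t = t * x := by
  rw [Subalgebra.mem_centralizer_iff]
  constructor
  · intro h
    exact (h t ⟨0, 1, by rw [map_zero, map_one, one_mul, zero_add]⟩).symm
  · rintro h _ ⟨u, v, rfl⟩
    rw [add_mul, mul_add, mul_assoc, ← h, Algebra.commutes, ← mul_assoc, ← mul_assoc,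
      Algebra.commutes v x]

theorem cv_comm (x : CT ht) : cv ht x * t = t * cv ht x := (mem_cL ht).mp x.2

theorem exists_cv {x : D} (hx : x * t = t * x) : ∃ y : CT ht, cv ht y = x :=
  ⟨⟨x, (mem_cL ht).mpr hx⟩, rfl⟩

/-- The inclusion of the field in the centralizer. -/
noncomputable def fc : FL ht →+* CT ht where
  toFun x := ⟨fv ht x, (mem_cL ht).mpr (Lt2_comm ht x.2
    ⟨0, 1, by rw [map_zero, map_one, one_mul, zero_add]⟩)⟩
  map_one' := rfl
  map_mul' _ _ := rfl
  map_zero' := rfl
  map_add' _ _ := rfl

theorem cv_fc (x : FL ht) : cv ht (fc ht x) = fv ht x := rfl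

theorem fv_cv_comm (x : FL ht) (y : CT ht) : fv ht x * cv ht y = cv ht y * fv ht x := by
  have := (Subalgebra.mem_centralizer_iff R).mp y.2 (fv ht x) x.2
  exact this

noncomputable instance : Algebra (FL ht) (CT ht) :=
  (fc ht).toAlgebra' fun x y => cv_inj ht (by
    rw [map_mul, map_mul, cv_fc]
    exact fv_cv_comm ht x y)

theorem cv_algF (x : FL ht) : cv ht (algebraMap (FL ht) (CT ht) x) = fv ht x := rfl

instance : IsScalarTower R (FL ht) (CT ht) := IsScalarTower.of_algebraMap_eq fun _ => rfl

theorem cv_smul (x : FL ht) (y : CT ht) : cv ht (x • y) = fv ht x * cv ht y := by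
  rw [Algebra.smul_def, map_mul, cv_algF]

theorem finrank_FL (hnt : ∀ c : R, algebraMap R D c ≠ t) : finrank R (FL ht) = 2 :=
  finrank_Lt2 ht hnt

section fin

variable [FiniteDimensional R D] [Algebra.IsCentral R D]

instance : FiniteDimensional R (CT ht) :=
  inferInstanceAs (FiniteDimensional R (Subalgebra.centralizer R (Lt2 R ht : Set D)))

instance : FiniteDimensional (FL ht) (CT ht) := Module.Finite.of_restrictScalars_finite R _ _

theorem finrank_CT (hnt : ∀ c : R, algebraMap R D c ≠ t) :
    2 * finrank R (CT ht) = finrank R D := by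
  have h1 := T2.finrank_centralizer (K := R) (Lt2 R ht)
  rw [finrank_Lt2 ht hnt] at h1
  exact h1

theorem finrank_FC (hnt : ∀ c : R, algebraMap R D c ≠ t) {m : ℕ}
    (hdeg : finrank R D = (2 * m) ^ 2) : finrank (FL ht) (CT ht) = m ^ 2 := by
  have h1 := finrank_CT ht hnt
  have h2 := Module.finrank_mul_finrank R (FL ht) (CT ht)
  rw [finrank_FL ht hnt] at h2
  rw [hdeg] at h1
  have h3 : (2 * m) ^ 2 = 4 * m ^ 2 := by ring
  omega

/-- The double centralizer theorem. -/
theorem mem_of_double (hnt : ∀ c : R, algebraMap R D c ≠ t) {x : D}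
    (hx : ∀ y : D, y * t = t * y → x * y = y * x) : x ∈ Lt2 R ht := by
  obtain ⟨C, hC⟩ : ∃ C, C = Subalgebra.centralizer R (Lt2 R ht : Set D) := ⟨_, rfl⟩
  have h1 := T2.finrank_centralizer (K := R) (Lt2 R ht)
  have h2 := T2.finrank_centralizer (K := R) C
  rw [← hC] at h1
  rw [finrank_Lt2 ht hnt] at h1
  have h0 : 0 < finrank R D := Module.finrank_pos
  have h3 : finrank R (Subalgebra.centralizer R (C : Set D)) = 2 := by
    have h4 : 0 < finrank R C := by
      rcases Nat.eq_zero_or_pos (finrank R C) with h | h
      · rw [h] at h1; omega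
      · exact h
    have h5 : finrank R C * finrank R (Subalgebra.centralizer R (C : Set D)) =
        finrank R C * 2 := by rw [h2, ← h1, mul_comm]
    exact Nat.eq_of_mul_eq_mul_left h4 h5
  have hle : Lt2 R ht ≤ Subalgebra.centralizer R (C : Set D) := by
    intro y hy
    rw [Subalgebra.mem_centralizer_iff]
    intro c hc
    rw [hC] at hc
    exact ((Subalgebra.mem_centralizer_iff R).mp hc y hy).symm
  have heq : Subalgebra.toSubmodule (Lt2 R ht) =
      Subalgebra.toSubmodule (Subalgebra.centralizer R (C : Set D)) :=
    Submodule.eq_of_le_of_finrank_eq hle (by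
      change finrank R (Lt2 R ht) = finrank R (Subalgebra.centralizer R (C : Set D))
      rw [finrank_Lt2 ht hnt, h3])
  have hxC : x ∈ Subalgebra.toSubmodule (Subalgebra.centralizer R (C : Set D)) := by
    rw [Subalgebra.mem_toSubmodule, Subalgebra.mem_centralizer_iff]
    intro c hc
    rw [hC] at hc
    exact (hx c ((mem_cL ht).mp hc)).symm
  rw [← heq] at hxC
  exact hxC

theorem cen_CT (hnt : ∀ c : R, algebraMap R D c ≠ t) : Algebra.IsCentral (FL ht) (CT ht) := by
  refine ⟨fun x hx => ?_⟩
  rw [Subalgebra.mem_center_iff] at hx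
  have h1 : cv ht x ∈ Lt2 R ht := mem_of_double ht hnt fun y hy => by
    obtain ⟨y', rfl⟩ := exists_cv ht hy
    rw [← map_mul, ← map_mul, hx]
  rw [Algebra.mem_bot]
  exact ⟨⟨cv ht x, h1⟩, cv_inj ht rfl⟩

end fin

end types

section two

variable {k K D : Type} [Field k] [NumberField k] [Field K] [StarRing K]
    [DivisionRing D] [StarRing D] [Algebra k K] [Algebra k D] [Algebra K D] [IsScalarTower k K D]
    {d : kˣ} {s : K} {t : D} {a : k} (ht : t * t = algebraMap k D a)

theorem htK (K : Type) [Field K] [Algebra k K] [Algebra K D] [IsScalarTower k K D]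
    {t : D} {a : k} (ht : t * t = algebraMap k D a) :
    t * t = algebraMap K D (algebraMap k K a) := by
  rw [ht, IsScalarTower.algebraMap_apply k K D]

theorem mem_LK {x : D} (hx : x ∈ Lt2 k ht) : x ∈ Lt2 K (htK K ht) := by
  obtain ⟨u, v, rfl⟩ := hx
  exact ⟨algebraMap k K u, algebraMap k K v, by
    rw [IsScalarTower.algebraMap_apply k K D, IsScalarTower.algebraMap_apply k K D v]⟩

/-- The inclusion of the small field in the big one. -/
noncomputable def ff : FL ht →+* FL (htK K ht) where
  toFun x := ⟨fv ht x, mem_LK ht x.2⟩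
  map_one' := rfl
  map_mul' _ _ := rfl
  map_zero' := rfl
  map_add' _ _ := rfl

theorem fv_ff (x : FL ht) : fv (htK K ht) (ff ht x) = fv ht x := rfl

noncomputable instance : Algebra (FL ht) (FL (htK K ht)) := (ff ht).toAlgebra

noncomputable instance : Algebra (FL ht) (CT (htK K ht)) :=
  ((fc (htK K ht)).comp (ff ht)).toAlgebra' fun x y => cv_inj _ (by
    rw [map_mul, map_mul]
    exact fv_cv_comm (htK K ht) (ff ht x) y)

instance : IsScalarTower (FL ht) (FL (htK K ht)) (CT (htK K ht)) :=
  IsScalarTower.of_algebraMap_eq fun _ => rfl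

theorem cv_algL (x : FL ht) : cv (htK K ht) (algebraMap (FL ht) (CT (htK K ht)) x) = fv ht x := rfl

theorem fv_algL (x : FL ht) : fv (htK K ht) (algebraMap (FL ht) (FL (htK K ht)) x) = fv ht x := rfl

theorem algLK (c : k) : algebraMap K (FL (htK K ht)) (algebraMap k K c) =
    algebraMap (FL ht) (FL (htK K ht)) (algebraMap k (FL ht) c) := fv_inj _ (by
  rw [fv_algL, fv_alg, fv_alg, IsScalarTower.algebraMap_apply k K D])

/-- The involution of the centralizer. -/
@[reducible] def starCT (hts : star t = t) : StarRing (CT (htK K ht)) where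
  star x := ⟨star (x.1 : D), (mem_cL _).mpr (by
    have h := cv_comm (htK K ht) x
    have h2 := congrArg star h
    rw [star_mul, star_mul, hts] at h2
    exact h2.symm)⟩
  star_involutive x := cv_inj _ (star_star (x.1 : D))
  star_mul x y := cv_inj _ (star_mul (x.1 : D) y.1)
  star_add x y := cv_inj _ (star_add (x.1 : D) y.1)

/-- The involution of the big field. -/
@[reducible] def starFL (hS : Setting k K D d s) (hts : star t = t) :
    StarRing (FL (htK K ht)) where
  star x := ⟨star (x.1 : D), star_mem_Lt2 hS hts (htK K ht) x.2⟩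
  star_involutive x := fv_inj _ (star_star (x.1 : D))
  star_mul x y := fv_inj _ (star_mul (x.1 : D) y.1)
  star_add x y := fv_inj _ (star_add (x.1 : D) y.1)

theorem star_algk (hS : Setting k K D d s) (c : k) :
    star (algebraMap k D c) = algebraMap k D c := by
  rw [IsScalarTower.algebraMap_apply k K D, star_algK hS, (hS.fix _).mpr ⟨c, rfl⟩]

theorem setting_CT (hS : Setting k K D d s) (ha : ¬ IsSquare a)
    (had : ¬ IsSquare (a * d)) (hts : star t = t) :
    letI := starCT (K := K) ht hts
    letI := starFL ht hS hts
    haveI : Module.Finite k (FL ht) := Module.finite_of_finrank_pos (by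
      rw [finrank_FL ht fun c hc => ha ⟨c, (algebraMap k D).injective (by
        rw [← ht, ← hc, map_mul])⟩]
      exact two_pos)
    letI : NumberField (FL ht) := NumberField.of_module_finite k (FL ht)
    Setting (FL ht) (FL (htK K ht)) (CT (htK K ht)) (inc k (FL ht) d)
      (algebraMap K (FL (htK K ht)) s) := by
  have hnt : ∀ c : k, algebraMap k D c ≠ t := fun c hc => ha ⟨c, (algebraMap k D).injective (by
        rw [← ht, ← hc, map_mul])⟩
  have ha0 : a ≠ 0 := fun h => ha ⟨0, by rw [h, mul_zero]⟩
  have hntK : ∀ c : K, algebraMap K D c ≠ t :=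
    Xa_ne hS (a := Units.mk0 a ha0) ha ⟨hts, ht⟩
  have := hS.fin
  have := hS.cen
  let i1 := starCT (K := K) ht hts
  let i2 := starFL ht hS hts
  have i3 : Module.Finite k (FL ht) := Module.finite_of_finrank_pos (by
      rw [finrank_FL ht hnt]
      exact two_pos)
  have i4 : NumberField (FL ht) := NumberField.of_module_finite k (FL ht)
  refine
    { sq := ?_
      star_s := ?_
      ns := ?_
      fix := ?_
      rank := ?_
      fin := ?_
      cen := ?_
      star_smul := ?_ }
  · rw [← map_pow, hS.sq]
    exact algLK ht d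
  · apply fv_inj
    have h1 : star (algebraMap K D s) = -algebraMap K D s := by
      rw [star_algK hS, hS.star_s, map_neg]
    rw [map_neg, fv_alg]
    exact h1
  · rintro ⟨x, hx⟩
    obtain ⟨u, v, huv⟩ := fv_mem ht x
    have h1 : algebraMap k D d = fv ht x * fv ht x := by
      rw [← map_mul, ← hx]
      rfl
    have h2 : lt2 k t ((d : k), 0) = lt2 k t (u * u + v * v * a, 2 * u * v) := by
      rw [lt2_apply, lt2_apply]
      change algebraMap k D d + algebraMap k D 0 * t =
        algebraMap k D (u * u + v * v * a) + algebraMap k D (2 * u * v) * t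
      rw [map_zero, zero_mul, add_zero, h1, huv, map_add, map_mul, map_mul, map_mul, map_mul,
        map_mul, ← ht, map_ofNat]
      have c1 : t * algebraMap k D u = algebraMap k D u * t := (Algebra.commutes _ _).symm
      have c2 : t * algebraMap k D v = algebraMap k D v * t := (Algebra.commutes _ _).symm
      have c3 : algebraMap k D v * algebraMap k D u = algebraMap k D u * algebraMap k D v := by
        rw [← map_mul, mul_comm, map_mul]
      generalize algebraMap k D u = U at c1 c3 ⊢
      generalize algebraMap k D v = V at c2 c3 ⊢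
      calc (U + V * t) * (U + V * t) = U * U + U * V * t + V * (t * U) + V * (t * V) * t := by
            noncomm_ring
        _ = U * U + U * V * t + V * U * t + V * V * (t * t) := by
            rw [c1, c2]; noncomm_ring
        _ = U * U + V * V * (t * t) + 2 * U * V * t := by
            rw [c3]; noncomm_ring
    have h3 := lt2_inj hnt h2
    have h4 : (d : k) = u * u + v * v * a := congrArg Prod.fst h3
    have h5 : 0 = 2 * u * v := congrArg Prod.snd h3
    rcases mul_eq_zero.mp h5.symm with h6 | h6
    · have hu : u = 0 := (mul_eq_zero.mp h6).resolve_left two_ne_zero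
      apply had
      refine ⟨a * v, ?_⟩
      rw [h4, hu]
      ring
    · apply hS.ns
      refine ⟨u, ?_⟩
      rw [h4, h6]
      ring
  · intro x
    constructor
    · intro hx
      have hx' : star (fv (htK K ht) x) = fv (htK K ht) x := congrArg (fv (htK K ht)) hx
      obtain ⟨y, hy⟩ := exists_fv ht (sym_Lt2 hS hts (htK K ht) hntK x.2 hx')
      exact ⟨y, fv_inj _ hy⟩
    · rintro ⟨y, rfl⟩
      apply fv_inj
      obtain ⟨u, v, huv⟩ := fv_mem ht y
      change star (fv ht y) = fv ht y
      have c2 : t * algebraMap k D v = algebraMap k D v * t := (Algebra.commutes _ _).symm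
      rw [huv, star_add, star_mul, hts, star_algk hS, star_algk hS, c2]
  · let _ : Algebra k (FL (htK K ht)) :=
      ((algebraMap K (FL (htK K ht))).comp (algebraMap k K)).toAlgebra
    have : IsScalarTower k K (FL (htK K ht)) := IsScalarTower.of_algebraMap_eq fun _ => rfl
    have : IsScalarTower k (FL ht) (FL (htK K ht)) :=
      IsScalarTower.of_algebraMap_eq fun x => algLK ht x
    have h1 := Module.finrank_mul_finrank k (FL ht) (FL (htK K ht))
    have h2 := Module.finrank_mul_finrank k K (FL (htK K ht))
    rw [finrank_FL ht hnt] at h1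
    rw [hS.rank, finrank_FL (htK K ht) hntK] at h2
    omega
  · infer_instance
  · exact cen_CT _ hntK
  · intro x y
    apply cv_inj
    have h1 : star (fv (htK K ht) x * cv (htK K ht) y) =
        star (fv (htK K ht) x) * star (cv (htK K ht) y) := by
      rw [star_mul]
      exact (fv_cv_comm (htK K ht) (star x) (star y)).symm
    rw [cv_smul]
    refine Eq.trans ?_ h1
    exact congrArg star (cv_smul (htK K ht) x y)

/-- The centralizer of a symmetric square root, as a division algebra with involution of the
second kind over a quadratic extension. -/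
theorem exists_cent (hS : Setting k K D d s) {a : kˣ} (ha : ¬ IsSquare (a : k))
    (had : ¬ IsSquare ((a * d : kˣ) : k)) {m : ℕ} (hdeg : finrank K D = (2 * m) ^ 2)
    (ht : t ∈ Xa D a) :
    ∃ (L : Type) (_ : Field L) (_ : NumberField L) (_ : Algebra k L)
      (K' : Type) (_ : Field K') (_ : StarRing K') (_ : NumberField K') (_ : Algebra K K')
      (C : Type) (_ : DivisionRing C) (_ : StarRing C)
      (_ : Algebra L K') (_ : Algebra L C) (_ : Algebra K' C) (_ : IsScalarTower L K' C)
      (T : L) (j : C →+* D),
      Setting L K' C (inc k L d) (algebraMap K K' s) ∧ finrank K' C = m ^ 2 ∧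
      finrank k L = 2 ∧ finrank K K' = 2 ∧ T * T = algebraMap k L a ∧
      (∀ l : L, ∃ u v : k, l = algebraMap k L u + algebraMap k L v * T) ∧
      (∀ c : k, algebraMap K K' (algebraMap k K c) = algebraMap L K' (algebraMap k L c)) ∧
      Function.Injective j ∧ (∀ x, j (star x) = star (j x)) ∧
      (∀ y, y * t = t * y ↔ ∃ x, j x = y) ∧
      j (algebraMap L C T) = t ∧
      (∀ c : K, j (algebraMap K' C (algebraMap K K' c)) = algebraMap K D c) := by
  have hnt : ∀ c : k, algebraMap k D c ≠ t := fun c hc => ha ⟨c, (algebraMap k D).injective (by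
        rw [← ht.2, ← hc, map_mul])⟩
  have hntK : ∀ c : K, algebraMap K D c ≠ t := Xa_ne hS ha ht
  have := hS.fin
  have := hS.cen
  have i3 : Module.Finite k (FL ht.2) := Module.finite_of_finrank_pos (by
      rw [finrank_FL ht.2 hnt]
      exact two_pos)
  have i4 : NumberField (FL ht.2) := NumberField.of_module_finite k (FL ht.2)
  have i7 : Module.Finite k K := Module.finite_of_finrank_pos (by
    rw [hS.rank]
    exact two_pos)
  have hK : NumberField K := NumberField.of_module_finite k K
  have i5 : Module.Finite K (FL (htK K ht.2)) := Module.finite_of_finrank_pos (by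
      rw [finrank_FL (htK K ht.2) hntK]
      exact two_pos)
  have i6 : NumberField (FL (htK K ht.2)) := NumberField.of_module_finite K (FL (htK K ht.2))
  obtain ⟨T, hT⟩ := exists_fv ht.2 (x := t) ⟨0, 1, by rw [map_zero, map_one, one_mul, zero_add]⟩
  refine ⟨FL ht.2, inferInstance, i4, inferInstance, FL (htK K ht.2), inferInstance,
    starFL ht.2 hS ht.1, i6, inferInstance, CT (htK K ht.2), inferInstance,
    starCT (K := K) ht.2 ht.1, inferInstance, inferInstance, inferInstance,
    IsScalarTower.of_algebraMap_eq fun _ => rfl,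
    T, cv (htK K ht.2), setting_CT ht.2 hS ha had ht.1, finrank_FC _ hntK hdeg,
    finrank_FL ht.2 hnt, finrank_FL _ hntK, ?_, ?_, algLK ht.2, cv_inj _, fun x => rfl, ?_, hT, ?_⟩
  · apply fv_inj
    rw [map_mul, hT]
    exact ht.2
  · intro l
    obtain ⟨u, v, h⟩ := fv_mem ht.2 l
    refine ⟨u, v, fv_inj _ ?_⟩
    rw [h, map_add, map_mul, hT]
    rfl
  · intro y
    constructor
    · exact exists_cv _
    · rintro ⟨x, rfl⟩
      exact cv_comm _ x
  · intro c
    rfl

end two

end Vale.Agent.P011.Pow
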