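import Vale.Agent.P011.One.SplitLT
import Vale.Agent.P011.One.TwoSplit
import Vale.Agent.P011.Pow.Cent

/-!
The places at which the centralizer of a square root remains a division algebra.
-/

open NumberField IsDedekindDomain Polynomial Module TensorProduct

set_option linter.unusedSectionVars false

namespace Vale.Agent.P011.Pow

open Vale.Agent.P011.Arith Vale.Agent.P011.Even Vale.Agent.P011.Two Vale.Agent.P011.One
open Vale.Agent.P011.W (Spl HasNrd hasNrd_iff hasNrd_of_det Nice norm_pl_lt norm_pl_le)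

section spl

/-- An anticommuting element. -/
theorem exists_anti {K D : Type} [Field K] [DivisionRing D] [Algebra K D]
    {t : D} {a : K} (htt : t * t = algebraMap K D a) {y : D} (hy : y * t ≠ t * y) :
    ∃ g : D, g ≠ 0 ∧ g * t = -(t * g) := by
  refine ⟨y * t - t * y, sub_ne_zero.mpr hy, ?_⟩
  have h1 : y * (t * t) = (t * t) * y := by rw [htt, Algebra.commutes]
  calc (y * t - t * y) * t = y * (t * t) - t * y * t := by noncomm_ring
    _ = (t * t) * y - t * y * t := by rw [h1]
    _ = -(t * (y * t - t * y)) := by noncomm_ring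

/-- The eigenspaces of a square root which is conjugate to its opposite have equal dimensions. -/
theorem eigen_finrank {R : Type} [Field R] (h2 : (2 : R) ≠ 0) {V : Type} [AddCommGroup V]
    [Module R V] [FiniteDimensional R V] {m : ℕ} (hV : finrank R V = 2 * m) (A G : V →ₗ[R] V)
    {r : R} (hr : r ≠ 0) (hA : ∀ x, A (A x) = (r * r) • x) (hG : Function.Injective G)
    (hGA : ∀ x, G (A x) = -(A (G x))) :
    finrank R (LinearMap.ker (A - r • LinearMap.id)) = m := by
  have hmem : ∀ (c : R) (x : V), x ∈ LinearMap.ker (A - c • LinearMap.id) ↔ A x = c • x := by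
    intro c x
    rw [LinearMap.mem_ker, LinearMap.sub_apply, LinearMap.smul_apply, LinearMap.id_apply,
      sub_eq_zero]
  have key : ∀ c : R, finrank R (LinearMap.ker (A - c • LinearMap.id)) ≤
      finrank R (LinearMap.ker (A - (-c) • LinearMap.id)) := by
    intro c
    have h1 : ∀ x ∈ LinearMap.ker (A - c • LinearMap.id),
        G x ∈ LinearMap.ker (A - (-c) • LinearMap.id) := by
      intro x hx
      rw [hmem] at hx ⊢
      have h3 := hGA x
      rw [hx, map_smul] at h3
      rw [neg_smul, h3, neg_neg]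
    refine LinearMap.finrank_le_finrank_of_injective (f := G.restrict h1) ?_
    intro x y hxy
    have h4 := congrArg Subtype.val hxy
    exact Subtype.ext (hG h4)
  have e1 := key r
  have e2 := key (-r)
  rw [neg_neg] at e2
  have hc : IsCompl (LinearMap.ker (A - r • LinearMap.id))
      (LinearMap.ker (A - (-r) • LinearMap.id)) := by
    constructor
    · rw [Submodule.disjoint_def]
      intro x hx hx'
      rw [hmem] at hx hx'
      rw [hx, neg_smul] at hx'
      have h5 : (2 * r) • x = 0 := by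
        rw [two_mul, add_smul]
        nth_rewrite 1 [hx']
        exact neg_add_cancel _
      exact (smul_eq_zero.mp h5).resolve_left (mul_ne_zero h2 hr)
    · rw [codisjoint_iff, eq_top_iff]
      intro x _
      rw [Submodule.mem_sup]
      refine ⟨(2 * r)⁻¹ • (r • x + A x), ?_, (2 * r)⁻¹ • (r • x - A x), ?_, ?_⟩
      · rw [hmem, map_smul, map_add, map_smul, hA, smul_comm r]
        congr 1
        rw [smul_add, smul_smul, add_comm]
      · rw [hmem, map_smul, map_sub, map_smul, hA, smul_comm (-r)]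
        congr 1
        rw [smul_sub, neg_smul, neg_smul, smul_smul]
        abel
      · rw [← smul_add]
        have h6 : r • x + A x + (r • x - A x) = (2 * r) • x := by
          rw [two_mul, add_smul]
          abel
        rw [h6, smul_smul, inv_mul_cancel₀ (mul_ne_zero h2 hr), one_smul]
  have h7 := Submodule.finrank_add_eq_of_isCompl hc
  rw [hV] at h7
  omega

/-- **A splitting of the algebra gives a splitting of the centralizer.** -/
theorem spl_cent {K D K' C : Type} [Field K] [DivisionRing D] [Algebra K D] [Field K']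
    [Algebra K K'] [DivisionRing C] [Algebra K' C] {t : D} {a : K}
    (htt : t * t = algebraMap K D a) (ha : a ≠ 0) {y : D} (hy : y * t ≠ t * y) {T : K'}
    (hspan : ∀ l : K', ∃ u v : K, l = algebraMap K K' u + algebraMap K K' v * T)
    (j : C →+* D) (hcomm : ∀ x, j x * t = t * j x) (hT : j (algebraMap K' C T) = t)
    (hTT : T * T = algebraMap K K' a)
    (hj : ∀ c : K, j (algebraMap K' C (algebraMap K K' c)) = algebraMap K D c)
    {m : ℕ} {R : Type} [Field R] [CharZero R] (φ : K' →+* R)
    (h : Spl D (2 * m) (φ.comp (algebraMap K K'))) : Spl C m φ := by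
  obtain ⟨f, hf⟩ := h
  obtain ⟨g, hg0, hg⟩ := exists_anti htt hy
  obtain ⟨r, hr⟩ : ∃ r, r = φ T := ⟨_, rfl⟩
  have hrr : r * r = φ (algebraMap K K' a) := by rw [hr, ← map_mul, hTT]
  have hr0 : r ≠ 0 := by
    intro h0
    rw [h0, mul_zero] at hrr
    have h1 := (map_eq_zero φ).mp hrr.symm
    exact ha ((map_eq_zero (algebraMap K K')).mp h1)
  -- the linear maps
  let F : D →+* Module.End R (Fin (2 * m) → R) :=
    ((Matrix.toLinAlgEquiv' : Matrix (Fin (2 * m)) (Fin (2 * m)) R ≃ₐ[R] _) :
      Matrix (Fin (2 * m)) (Fin (2 * m)) R →+* Module.End R (Fin (2 * m) → R)).comp f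
  have hF : ∀ (c : K) (x : Fin (2 * m) → R), F (algebraMap K D c) x =
      φ (algebraMap K K' c) • x := by
    intro c x
    change Matrix.toLin' (f (algebraMap K D c)) x = _
    rw [hf, Matrix.toLin'_apply, Matrix.scalar_apply, ← Matrix.smul_one_eq_diagonal,
      Matrix.smul_mulVec, Matrix.one_mulVec]
    rfl
  have hFmul : ∀ (x y : D) (z : Fin (2 * m) → R), F (x * y) z = F x (F y z) := by
    intro x y z
    rw [map_mul]
    rfl
  have hrk := eigen_finrank (R := R) two_ne_zero (V := Fin (2 * m) → R) (m := m)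
    (by rw [Module.finrank_fin_fun]) (F t) (F g) hr0 (fun x => by
      rw [← hFmul, htt, hF, hrr]) (by
      intro x y hxy
      have h1 : F g⁻¹ (F g x) = F g⁻¹ (F g y) := by rw [hxy]
      rw [← hFmul, ← hFmul, inv_mul_cancel₀ hg0, map_one] at h1
      exact h1) (fun x => by
      rw [← hFmul, hg, map_neg, LinearMap.neg_apply, hFmul])
  obtain ⟨V, hV⟩ : ∃ V, V = LinearMap.ker (F t - r • LinearMap.id) := ⟨_, rfl⟩
  rw [← hV] at hrk
  have hmem : ∀ x, x ∈ V ↔ F t x = r • x := by
    intro x
    rw [hV, LinearMap.mem_ker, LinearMap.sub_apply, LinearMap.smul_apply, LinearMap.id_apply,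
      sub_eq_zero]
  have hst : ∀ (c : C) (x : Fin (2 * m) → R), x ∈ V → F (j c) x ∈ V := by
    intro c x hx
    rw [hmem] at hx ⊢
    rw [← hFmul, ← hcomm, hFmul, hx, map_smul]
  let P : C →+* Module.End R V :=
    { toFun := fun c => (F (j c)).restrict (hst c)
      map_one' := by
        ext x
        simp
      map_mul' := fun c c' => by
        ext x
        simp [map_mul]
      map_zero' := by
        ext x
        simp
      map_add' := fun c c' => by
        ext x
        simp }
  have hP : ∀ (c : C) (x : V), ((P c x : V) : Fin (2 * m) → R) = F (j c) x := fun _ _ => rfl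
  let b : Basis (Fin m) R V := Module.finBasisOfFinrankEq R V hrk
  let Q : Module.End R V ≃ₐ[R] Matrix (Fin m) (Fin m) R := LinearMap.toMatrixAlgEquiv b
  refine ⟨(Q : Module.End R V →+* Matrix (Fin m) (Fin m) R).comp P, fun c => ?_⟩
  have h2 : P (algebraMap K' C c) = φ c • (1 : Module.End R V) := by
    refine LinearMap.ext fun x => Subtype.ext ?_
    rw [hP]
    obtain ⟨u, v, rfl⟩ := hspan c
    rw [map_add, map_mul, map_add, map_mul, hj, hj, hT, map_add, LinearMap.add_apply, hF, hFmul,
      (hmem _).mp x.2, map_smul, hF, map_add, map_mul, ← hr]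
    change _ = (φ (algebraMap K K' u) + φ (algebraMap K K' v) * r) • (x : Fin (2 * m) → R)
    rw [add_smul, smul_comm, smul_smul]
  change Q (P (algebraMap K' C c)) = _
  rw [h2, map_smul, map_one, Matrix.scalar_apply, Matrix.smul_one_eq_diagonal]

end spl


section compl

variable {F E : Type} [Field F] [NumberField F] [Field E] [NumberField E] [Algebra F E]

/-- The continuous map of completions. -/
theorem completion_map_cont {w : HeightOneSpectrum (𝓞 E)} {v : HeightOneSpectrum (𝓞 F)}
    (h : w.asIdeal.comap (algebraMap (𝓞 F) (𝓞 E)) = v.asIdeal) :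
    ∃ g : v.adicCompletion F →+* w.adicCompletion E, Continuous g ∧
      ∀ x : F, g (algebraMap F _ x) = algebraMap E _ (algebraMap F E x) := by
  let _ : PseudoMetricSpace F :=
    PseudoMetricSpace.induced (algebraMap F (v.adicCompletion F)) inferInstance
  have hdist : ∀ x y : F, dist x y = dist (algebraMap F (v.adicCompletion F) x)
    (algebraMap F (v.adicCompletion F) y) := fun _ _ => rfl
  have ui : IsUniformInducing (algebraMap F (v.adicCompletion F)) := ⟨rfl⟩
  have dr : DenseRange (algebraMap F (v.adicCompletion F)) :=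
    HeightOneSpectrum.denseRange_algebraMap F v
  obtain ⟨e, he, hv⟩ := val_above h
  have hf : UniformContinuous ((algebraMap E (w.adicCompletion E)).comp (algebraMap F E)) := by
    rw [Metric.uniformContinuous_iff]
    intro ε hε
    let _ := nnf w
    obtain ⟨z, hz0, hz⟩ := NormedField.exists_norm_lt (w.adicCompletion E) hε
    have hz0' : z ≠ 0 := norm_pos_iff.mp hz0
    have hγ : (Valued.v z : Z0) ≠ 0 := (Valuation.ne_zero_iff _).mpr hz0'
    have hγ' : min (Valued.v z : Z0) 1 ≠ 0 := by
      rcases min_choice (Valued.v z : Z0) 1 with h1 | h1 <;> rw [h1]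
      · exact hγ
      · exact one_ne_zero
    obtain ⟨δ, hδ, hδ'⟩ := exists_radius v _ hγ'
    refine ⟨δ, hδ, fun {x y} hxy => ?_⟩
    rw [hdist, dist_eq_norm, ← map_sub] at hxy
    have h1 := hδ' _ hxy
    rw [dist_eq_norm, ← map_sub]
    refine lt_trans ?_ hz
    rw [norm_lt_iff, RingHom.comp_apply, valued_alg, hv]
    have h2 : v.valuation F (x - y) ≤ 1 := (h1.trans_le (min_le_right _ _)).le
    exact (pow_le_of_le_one zero_le h2 he).trans_lt (h1.trans_le (min_le_left _ _))
  refine ⟨IsDenseInducing.extendRingHom ui dr hf, ?_, fun x => ?_⟩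
  · exact (uniformContinuous_uniformly_extend ui dr hf).continuous
  · exact (ui.isDenseInducing dr).extend_eq hf.continuous x

/-- The completion of a quadratic extension. -/
theorem completion_span {w : HeightOneSpectrum (𝓞 E)} {v : HeightOneSpectrum (𝓞 F)}
    {g : v.adicCompletion F →+* w.adicCompletion E} (hg : Continuous g)
    (hgF : ∀ x : F, g (algebraMap F _ x) = algebraMap E _ (algebraMap F E x)) {T : E}
    (hspan : ∀ l : E, ∃ u v : F, l = algebraMap F E u + algebraMap F E v * T)
    (x : w.adicCompletion E) : ∃ y z : v.adicCompletion F,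
      x = g y + g z * algebraMap E _ T := by
  let _ := nnf v
  let _ : Module (v.adicCompletion F) (w.adicCompletion E) := g.toModule
  have hsm : ∀ (c : v.adicCompletion F) (x : w.adicCompletion E), c • x = g c * x :=
    fun _ _ => rfl
  have : ContinuousSMul (v.adicCompletion F) (w.adicCompletion E) :=
    ⟨(hg.comp continuous_fst).mul continuous_snd⟩
  let θ : w.adicCompletion E := algebraMap E _ T
  obtain ⟨V, hV⟩ : ∃ V, V = Submodule.span (v.adicCompletion F)
    ({1, θ} : Set (w.adicCompletion E)) := ⟨_, rfl⟩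
  have hfin : FiniteDimensional (v.adicCompletion F) V := by
    rw [hV]
    exact FiniteDimensional.span_of_finite _ (Set.toFinite _)
  have hcl : IsClosed (V : Set (w.adicCompletion E)) := V.closed_of_finiteDimensional
  have hE : ∀ l : E, algebraMap E (w.adicCompletion E) l ∈ V := by
    intro l
    obtain ⟨u, v', rfl⟩ := hspan l
    rw [map_add, map_mul, ← hgF, ← hgF, hV]
    rw [Submodule.mem_span_pair]
    exact ⟨algebraMap F _ u, algebraMap F _ v', by rw [hsm, hsm, mul_one]⟩
  have htop : (V : Set (w.adicCompletion E)) = Set.univ := by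
    rw [← hcl.closure_eq]
    refine Dense.closure_eq ?_
    refine Dense.mono ?_ (HeightOneSpectrum.denseRange_algebraMap E w)
    rintro _ ⟨l, rfl⟩
    exact hE l
  have hx : x ∈ V := by
    have : x ∈ (V : Set (w.adicCompletion E)) := by
      rw [htop]
      exact Set.mem_univ _
    exact this
  rw [hV, Submodule.mem_span_pair] at hx
  obtain ⟨y, z, hyz⟩ := hx
  exact ⟨y, z, by rw [← hyz, hsm, hsm, mul_one]⟩

/-- An embedding which is compatible with a place extends to the completion. -/
theorem exists_extend {w : HeightOneSpectrum (𝓞 E)} {R : Type} [NormedField R] [CompleteSpace R]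
    (ψ : E →+* R) (hle : ∀ y : E, w.valuation E y ≤ 1 → ‖ψ y‖ ≤ 1)
    (hlt : ∀ y : E, w.valuation E y < 1 → ‖ψ y‖ < 1) :
    ∃ g : w.adicCompletion E →+* R, ∀ x : E, g (algebraMap E _ x) = ψ x := by
  let _ : PseudoMetricSpace E :=
    PseudoMetricSpace.induced (algebraMap E (w.adicCompletion E)) inferInstance
  have hdist : ∀ x y : E, dist x y = dist (algebraMap E (w.adicCompletion E) x)
    (algebraMap E (w.adicCompletion E) y) := fun _ _ => rfl
  have ui : IsUniformInducing (algebraMap E (w.adicCompletion E)) := ⟨rfl⟩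
  have dr : DenseRange (algebraMap E (w.adicCompletion E)) :=
    HeightOneSpectrum.denseRange_algebraMap E w
  obtain ⟨π, hπ⟩ := w.valuation_exists_uniformizer E
  have hπ1 : w.valuation E π < 1 := by rw [hπ]; exact exp_neg_one_lt
  have hπ0 : π ≠ 0 := by
    rintro rfl
    rw [map_zero] at hπ
    exact WithZero.exp_ne_zero hπ.symm
  have hf : UniformContinuous ψ := by
    rw [Metric.uniformContinuous_iff]
    intro ε hε
    obtain ⟨N, hN⟩ := exists_pow_lt_of_lt_one hε (hlt π hπ1)
    obtain ⟨δ, hδ, hδ'⟩ := exists_radius w (w.valuation E (π ^ N))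
      ((Valuation.ne_zero_iff _).mpr (pow_ne_zero _ hπ0))
    refine ⟨δ, hδ, fun {x y} hxy => ?_⟩
    rw [hdist, dist_eq_norm, ← map_sub] at hxy
    have h1 := hδ' _ hxy
    rw [dist_eq_norm, ← map_sub]
    have h2 : w.valuation E ((x - y) / π ^ N) ≤ 1 := by
      rw [map_div₀]
      exact (div_le_one₀ (by
        rw [zero_lt_iff]
        exact (Valuation.ne_zero_iff _).mpr (pow_ne_zero _ hπ0))).mpr h1.le
    have h3 := hle _ h2
    have h4 : ψ (x - y) = ψ ((x - y) / π ^ N) * ψ π ^ N := by
      rw [← map_pow, ← map_mul, div_mul_cancel₀ _ (pow_ne_zero _ hπ0)]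
    rw [h4, norm_mul, norm_pow]
    exact (mul_le_of_le_one_left (pow_nonneg (norm_nonneg _) _) h3).trans_lt hN
  refine ⟨IsDenseInducing.extendRingHom ui dr hf, fun x => ?_⟩
  exact (ui.isDenseInducing dr).extend_eq hf.continuous x

end compl

section div

/-- A split algebra of degree at least two is not a division algebra. -/
theorem not_div_of_spl {K D : Type} [Field K] [DivisionRing D] [Algebra K D]
    [FiniteDimensional K D] {m : ℕ} (hm : 2 ≤ m) (hdeg : finrank K D = m ^ 2) {R : Type} [Field R]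
    [Algebra K R] (h : Spl D m (algebraMap K R)) :
    ¬ ∀ x : R ⊗[K] D, x ≠ 0 → IsUnit x := by
  intro hdiv
  obtain ⟨f⟩ := W.spl_iff.mp h
  let F : R ⊗[K] D →ₐ[R] Matrix (Fin m) (Fin m) R :=
    Algebra.TensorProduct.lift (Algebra.ofId R _) f fun _ _ => Algebra.commutes _ _
  have : NeZero m := ⟨by omega⟩
  have hinj : Function.Injective F := by
    rw [injective_iff_map_eq_zero]
    intro x hx
    by_contra hx0
    have h1 := (hdiv x hx0).map F
    rw [hx] at h1
    exact not_isUnit_zero h1
  have hfr : finrank R (R ⊗[K] D) = finrank R (Matrix (Fin m) (Fin m) R) := by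
    rw [Module.finrank_baseChange, hdeg, Module.finrank_matrix, Module.finrank_self,
      Fintype.card_fin]
    ring
  have hsurj : Function.Surjective F :=
    (LinearMap.injective_iff_surjective_of_finrank_eq_finrank (f := F.toLinearMap) hfr).mp hinj
  obtain ⟨i0, hi0⟩ : ∃ i : Fin m, i = ⟨0, by omega⟩ := ⟨_, rfl⟩
  obtain ⟨i1, hi1⟩ : ∃ i : Fin m, i = ⟨1, by omega⟩ := ⟨_, rfl⟩
  have hne : i0 ≠ i1 := by
    rw [hi0, hi1]
    intro h2
    have := congrArg Fin.val h2
    simp at this
  obtain ⟨x, hx⟩ := hsurj (Matrix.single i0 i1 1)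
  have hx0 : x ≠ 0 := by
    rintro rfl
    rw [map_zero] at hx
    have h3 := congrFun (congrFun hx i0) i1
    rw [Matrix.single_apply_same] at h3
    exact zero_ne_one h3
  have h4 : x * x = 0 := by
    apply hinj
    rw [map_mul, hx, map_zero, Matrix.single_mul_single_of_ne _ _ _ _ hne.symm]
  have h5 := (hdiv x hx0)
  have h6 : x = 0 := h5.mul_left_cancel (by rw [h4, mul_zero])
  exact hx0 h6

end div

section units

/-- A finite dimensional subring of a division algebra. -/
theorem unit_of_inj {R A B : Type} [Field R] [Ring A] [Algebra R A] [FiniteDimensional R A]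
    [Ring B] (J : A →+* B) (hJ : Function.Injective J) (hB : ∀ x : B, x ≠ 0 → IsUnit x) (x : A)
    (hx : x ≠ 0) : IsUnit x := by
  have hu : IsUnit (J x) := hB _ ((map_ne_zero_iff J hJ).mpr hx)
  have hinj : Function.Injective (LinearMap.mulLeft R x) := by
    rw [← LinearMap.ker_eq_bot, LinearMap.ker_eq_bot']
    intro y hy
    rw [LinearMap.mulLeft_apply] at hy
    have h1 := congrArg J hy
    rw [map_mul, map_zero] at h1
    have h2 := hu.mul_left_cancel (h1.trans (mul_zero _).symm)
    exact (map_eq_zero_iff J hJ).mp h2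
  obtain ⟨y, hy⟩ := (LinearMap.injective_iff_surjective.mp hinj) 1
  rw [LinearMap.mulLeft_apply] at hy
  refine ⟨⟨x, y, hy, ?_⟩, rfl⟩
  apply hJ
  rw [map_mul, map_one]
  have h3 : J x * J y = 1 := by rw [← map_mul, hy, map_one]
  obtain ⟨u, hu'⟩ := hu
  rw [← hu'] at h3 ⊢
  rw [← Units.inv_eq_of_mul_eq_one_right h3]
  exact u.inv_mul

theorem unit_of_surj {A X : Type} [Ring A] [Ring X] (Θ : A →+* X) (hΘ : Function.Surjective Θ)
    (hA : ∀ x : A, x ≠ 0 → IsUnit x) (x : X) (hx : x ≠ 0) : IsUnit x := by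
  obtain ⟨y, rfl⟩ := hΘ x
  exact (hA y (by rintro rfl; exact hx (map_zero Θ))).map Θ

/-- The centralizer in a local division algebra is a division algebra. -/
theorem div_up_core {K D K' C F E : Type} [Field K] [DivisionRing D] [Algebra K D] [Field K']
    [Algebra K K'] [FiniteDimensional K K'] [DivisionRing C] [Algebra K' C]
    [FiniteDimensional K' C] [Field F] [Field E] [Algebra K F] [Algebra K' E] (g : F →+* E)
    (hg : ∀ c : K, g (algebraMap K F c) = algebraMap K' E (algebraMap K K' c)) {T : K'}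
    (hE : ∀ x : E, ∃ y z : F, x = g y + g z * algebraMap K' E T) (j : C →+* D)
    (hinj : Function.Injective j)
    (hj : ∀ c : K, j (algebraMap K' C (algebraMap K K' c)) = algebraMap K D c)
    (hdiv : ∀ x : F ⊗[K] D, x ≠ 0 → IsUnit x) (x : E ⊗[K'] C) (hx : x ≠ 0) : IsUnit x := by
  let _ : Algebra K C := ((algebraMap K' C).comp (algebraMap K K')).toAlgebra' fun c x =>
    Algebra.commutes (algebraMap K K' c) x
  have : IsScalarTower K K' C := IsScalarTower.of_algebraMap_eq fun _ => rfl
  have : FiniteDimensional K C := Module.Finite.trans K' C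
  let _ : Algebra K (E ⊗[K'] C) := ((algebraMap K' (E ⊗[K'] C)).comp
    (algebraMap K K')).toAlgebra' fun c x => Algebra.commutes (algebraMap K K' c) x
  have halg : ∀ c : K, algebraMap K (E ⊗[K'] C) c = algebraMap K' E (algebraMap K K' c) ⊗ₜ 1 :=
    fun _ => rfl
  let f1 : F →ₐ[K] E ⊗[K'] C :=
    { (Algebra.TensorProduct.includeLeftRingHom : E →+* E ⊗[K'] C).comp g with
      commutes' := fun c => by
        rw [halg, ← hg]
        rfl }
  have hf1 : ∀ y, f1 y = g y ⊗ₜ 1 := fun _ => rfl
  let f2 : C →ₐ[K] E ⊗[K'] C :=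
    { (Algebra.TensorProduct.includeRight : C →ₐ[K'] E ⊗[K'] C).toRingHom with
      commutes' := fun c => by
        change (Algebra.TensorProduct.includeRight : C →ₐ[K'] E ⊗[K'] C)
          (algebraMap K' C (algebraMap K K' c)) = _
        rw [AlgHom.commutes]
        rfl }
  have hf2 : ∀ y, f2 y = 1 ⊗ₜ y := fun _ => rfl
  let Θ : F ⊗[K] C →ₐ[K] E ⊗[K'] C := Algebra.TensorProduct.lift f1 f2 fun y z => by
    rw [hf1, hf2, Commute, SemiconjBy, Algebra.TensorProduct.tmul_mul_tmul,
      Algebra.TensorProduct.tmul_mul_tmul, mul_one, one_mul, mul_one, one_mul]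
  have hΘ : ∀ y z, Θ (y ⊗ₜ z) = g y ⊗ₜ z := by
    intro y z
    change Algebra.TensorProduct.lift f1 f2 _ _ = _
    rw [Algebra.TensorProduct.lift_tmul, hf1, hf2, Algebra.TensorProduct.tmul_mul_tmul, mul_one,
      one_mul]
  have hsurj : Function.Surjective Θ := by
    intro x
    induction x using TensorProduct.induction_on with
    | zero => exact ⟨0, map_zero _⟩
    | tmul e c =>
      obtain ⟨y, z, rfl⟩ := hE e
      refine ⟨y ⊗ₜ c + z ⊗ₜ (algebraMap K' C T * c), ?_⟩
      rw [map_add, hΘ, hΘ, add_tmul, ← Algebra.smul_def, ← smul_tmul, Algebra.smul_def, mul_comm]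
    | add x y hx hy =>
      obtain ⟨x', rfl⟩ := hx
      obtain ⟨y', rfl⟩ := hy
      exact ⟨x' + y', map_add _ _ _⟩
  let jK : C →ₐ[K] D := { j with commutes' := hj }
  let J : F ⊗[K] C →ₐ[F] F ⊗[K] D := Algebra.TensorProduct.map (AlgHom.id F F) jK
  have hJ : Function.Injective J := by
    have h1 := Module.Flat.lTensor_preserves_injective_linearMap (M := F) jK.toLinearMap hinj
    exact h1
  exact unit_of_surj (Θ : F ⊗[K] C →+* E ⊗[K'] C) hsurj
    (unit_of_inj (R := F) (J : F ⊗[K] C →+* F ⊗[K] D) hJ hdiv) x hx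

/-- Homomorphisms from a tensor product. -/
theorem exists_lift_ring {K A B X : Type} [Field K] [Ring A] [Ring B] [Algebra K A] [Algebra K B]
    [Ring X] (f1 : A →+* X) (f2 : B →+* X)
    (h12 : ∀ c, f1 (algebraMap K A c) = f2 (algebraMap K B c))
    (hc : ∀ c x, f1 (algebraMap K A c) * x = x * f1 (algebraMap K A c))
    (hcomm : ∀ a b, Commute (f1 a) (f2 b)) :
    ∃ Θ : A ⊗[K] B →+* X, ∀ a b, Θ (a ⊗ₜ b) = f1 a * f2 b := by
  let _ : Algebra K X := (f1.comp (algebraMap K A)).toAlgebra' hc
  let g1 : A →ₐ[K] X := { f1 with commutes' := fun c => rfl }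
  let g2 : B →ₐ[K] X := { f2 with commutes' := fun c => (h12 c).symm }
  refine ⟨(Algebra.TensorProduct.lift g1 g2 hcomm : A ⊗[K] B →ₐ[K] X), fun a b => ?_⟩
  change Algebra.TensorProduct.lift g1 g2 hcomm (a ⊗ₜ b) = _
  rw [Algebra.TensorProduct.lift_tmul]
  rfl

/-- The opposite algebra. -/
theorem div_anti {K D F E : Type} [Field K] [StarRing K] [DivisionRing D] [StarRing D]
    [Algebra K D] [StarModule K D] [Field F] [Field E] [Algebra K F] [Algebra K E] (g : F →+* E)
    (hgs : Function.Surjective g)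
    (hg : ∀ c : K, g (algebraMap K F c) = algebraMap K E (star c))
    (hdiv : ∀ x : F ⊗[K] D, x ≠ 0 → IsUnit x) (x : E ⊗[K] D) (hx : x ≠ 0) : IsUnit x := by
  let f1 : F →+* (E ⊗[K] D)ᵐᵒᵖ :=
    { toFun := fun y => MulOpposite.op (g y ⊗ₜ 1)
      map_one' := by
        rw [map_one]
        rfl
      map_zero' := by rw [map_zero, zero_tmul, MulOpposite.op_zero]
      map_mul' := fun a b => by
        rw [← MulOpposite.op_mul, Algebra.TensorProduct.tmul_mul_tmul, mul_one, map_mul,
          mul_comm (g a)]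
      map_add' := fun a b => by rw [map_add, add_tmul, MulOpposite.op_add] }
  have hf1 : ∀ y, f1 y = MulOpposite.op (g y ⊗ₜ 1) := fun _ => rfl
  let f2 : D →+* (E ⊗[K] D)ᵐᵒᵖ :=
    { toFun := fun y => MulOpposite.op (1 ⊗ₜ star y)
      map_one' := by
        rw [star_one]
        rfl
      map_zero' := by rw [star_zero, tmul_zero, MulOpposite.op_zero]
      map_mul' := fun a b => by
        rw [← MulOpposite.op_mul, Algebra.TensorProduct.tmul_mul_tmul, mul_one, star_mul]
      map_add' := fun a b => by rw [star_add, tmul_add, MulOpposite.op_add] }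
  have hf2 : ∀ y, f2 y = MulOpposite.op (1 ⊗ₜ star y) := fun _ => rfl
  have h1 : ∀ c : K, star (algebraMap K D c) = algebraMap K D (star c) := fun c => by
    rw [Algebra.algebraMap_eq_smul_one, star_smul, star_one, ← Algebra.algebraMap_eq_smul_one]
  have h0 : ∀ c : K, f1 (algebraMap K F c) =
      MulOpposite.op (algebraMap K (E ⊗[K] D) (star c)) := by
    intro c
    rw [hf1, hg]
    rfl
  obtain ⟨Θ, hΘ'⟩ := exists_lift_ring (K := K) f1 f2 (fun c => by
      rw [h0, hf2, h1]
      congr 1
      exact ((Algebra.TensorProduct.includeRight : D →ₐ[K] E ⊗[K] D).commutes (star c)).symm)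
    (fun c x => by
      rw [h0]
      apply MulOpposite.unop_injective
      rw [MulOpposite.unop_mul, MulOpposite.unop_mul, MulOpposite.unop_op, Algebra.commutes])
    (fun y z => by
      rw [hf1, hf2, Commute, SemiconjBy, ← MulOpposite.op_mul, ← MulOpposite.op_mul,
        Algebra.TensorProduct.tmul_mul_tmul,
        Algebra.TensorProduct.tmul_mul_tmul, mul_one, one_mul, mul_one, one_mul])
  have hΘ : ∀ y z, Θ (y ⊗ₜ z) = MulOpposite.op (g y ⊗ₜ star z) := by
    intro y z
    rw [hΘ', hf1, hf2, ← MulOpposite.op_mul, Algebra.TensorProduct.tmul_mul_tmul, mul_one,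
      one_mul]
  have hsurj' : ∀ x : E ⊗[K] D, ∃ y, Θ y = MulOpposite.op x := by
    intro x
    induction x using TensorProduct.induction_on with
    | zero => exact ⟨0, map_zero _⟩
    | tmul e c =>
      obtain ⟨y, rfl⟩ := hgs e
      exact ⟨y ⊗ₜ star c, by rw [hΘ, star_star]⟩
    | add x y hx hy =>
      obtain ⟨x', hx'⟩ := hx
      obtain ⟨y', hy'⟩ := hy
      exact ⟨x' + y', by rw [map_add, hx', hy', MulOpposite.op_add]⟩
  have hsurj : Function.Surjective Θ := fun x => hsurj' (MulOpposite.unop x)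
  have h2 := unit_of_surj Θ hsurj hdiv (MulOpposite.op x)
    (by rwa [ne_eq, MulOpposite.op_eq_zero_iff])
  exact h2.unop

end units

section places

variable {k K D : Type} [Field k] [NumberField k] [Field K] [NumberField K] [StarRing K]
  [DivisionRing D] [StarRing D] [Algebra k K] [Algebra k D] [Algebra K D] [IsScalarTower k K D]
  {d : kˣ} {s : K}

/-- The finite places of `k` above which `D` is not split. -/
def Ram (k K D : Type) [Field k] [NumberField k] [Field K] [NumberField K] [DivisionRing D]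
    [Algebra k K] [Algebra K D] (n : ℕ) : Set (HeightOneSpectrum (𝓞 k)) :=
  {v | ∃ w : HeightOneSpectrum (𝓞 K), w.asIdeal.comap (algebraMap (𝓞 k) (𝓞 K)) = v.asIdeal ∧
    ¬ Spl D n (algebraMap K (w.adicCompletion K))}

theorem below_finite {F E : Type} [Field F] [NumberField F] [Field E] [NumberField E]
    [Algebra F E] {S : Set (HeightOneSpectrum (𝓞 E))} (hS : S.Finite) :
    {v : HeightOneSpectrum (𝓞 F) | ∃ w ∈ S,
      w.asIdeal.comap (algebraMap (𝓞 F) (𝓞 E)) = v.asIdeal}.Finite := by
  have h1 : (Set.image (fun v : HeightOneSpectrum (𝓞 F) => v.asIdeal)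
      {v : HeightOneSpectrum (𝓞 F) | ∃ w ∈ S,
        w.asIdeal.comap (algebraMap (𝓞 F) (𝓞 E)) = v.asIdeal}).Finite := by
    refine (hS.image fun w => w.asIdeal.comap (algebraMap (𝓞 F) (𝓞 E))).subset ?_
    rintro _ ⟨v, ⟨w, hw, hwv⟩, rfl⟩
    exact ⟨w, hw, hwv⟩
  exact h1.of_finite_image (fun v _ v' _ h => HeightOneSpectrum.ext h)

/-- Almost all places split. -/
theorem ram_finite [FiniteDimensional K D] [Algebra.IsCentral K D] {n : ℕ} (hn : 0 < n)
    (hdeg : finrank K D = n ^ 2) : (Ram k K D n).Finite := by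
  obtain ⟨S, hSf, hS⟩ := W.spl_almost (F := K) (D := D) hn hdeg
  refine (below_finite (F := k) hSf).subset ?_
  rintro v ⟨w, hw, hns⟩
  refine ⟨w, ?_, hw⟩
  by_contra hwS
  apply hns
  have h1 := hS w hwS K w (by
    ext x
    rfl)
  exact h1

/-- The splitting of an algebra over every complete field, from the places. -/
theorem spl_of_not_ram {n : ℕ} {v : HeightOneSpectrum (𝓞 k)} (hv : v ∉ Ram k K D n)
    {w : HeightOneSpectrum (𝓞 K)} (hw : w.asIdeal.comap (algebraMap (𝓞 k) (𝓞 K)) = v.asIdeal)
    {R : Type} [NormedField R] [CompleteSpace R]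
    (ψ : K →+* R) (hle : ∀ y : K, w.valuation K y ≤ 1 → ‖ψ y‖ ≤ 1)
    (hlt : ∀ y : K, w.valuation K y < 1 → ‖ψ y‖ < 1) : Spl D n ψ := by
  have h1 : Spl D n (algebraMap K (w.adicCompletion K)) := by
    by_contra hcon
    exact hv ⟨w, hw, hcon⟩
  obtain ⟨g, hg⟩ := exists_extend ψ hle hlt
  have h2 := h1.comp g
  have h3 : g.comp (algebraMap K (w.adicCompletion K)) = ψ := RingHom.ext hg
  rwa [h3] at h2

/-- **The places of `Tdiv` are ramified.** -/
theorem tdiv_ram [FiniteDimensional K D] {n : ℕ} (hn : 2 ≤ n)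
    (hdeg : finrank K D = n ^ 2) {v : HeightOneSpectrum (𝓞 k)}
    (hv : (Sum.inl v : Pl k) ∈ Tdiv k K D) : v ∈ Ram k K D n := by
  obtain ⟨v', hv', φ, hdiv⟩ := hv
  obtain rfl : v = v' := Sum.inl_injective hv'
  by_contra hcon
  obtain ⟨w, hw, hle, hlt⟩ := exists_place_of_hom (φ : K →+* v.adicCompletion k) φ.commutes
  have h1 := spl_of_not_ram hcon hw (φ : K →+* v.adicCompletion k) hle hlt
  let _ : Algebra K (v.adicCompletion k) := (φ : K →+* v.adicCompletion k).toAlgebra
  exact not_div_of_spl hn hdeg h1 hdiv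

theorem tdiv_finite [FiniteDimensional K D] [Algebra.IsCentral K D] {n : ℕ} (hn : 2 ≤ n)
    (hdeg : finrank K D = n ^ 2) : (Tdiv k K D).Finite := by
  refine ((ram_finite (k := k) (by omega) hdeg).image Sum.inl).subset ?_
  intro p hp
  obtain ⟨v, hv, -⟩ := id hp
  rw [hv] at hp
  exact ⟨v, tdiv_ram hn hdeg hp, hv.symm⟩

section cent

variable {L K' C : Type} [Field L] [NumberField L] [Algebra k L] [Field K'] [StarRing K']
  [NumberField K'] [Algebra K K'] [DivisionRing C] [StarRing C] [Algebra L K'] [Algebra L C]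
  [Algebra K' C] [IsScalarTower L K' C] {T : L} {j : C →+* D} {t : D}

/-- **The centralizer remains a division algebra only over the ramified places** (uniformly in
the square root). -/
theorem tdiv_over [Algebra.IsCentral K D] [FiniteDimensional K' C] {m : ℕ} (hm : 2 ≤ m)
    (hdegC : finrank K' C = m ^ 2) {a : k} (ha : a ≠ 0)
    (hKK : finrank K K' = 2) (hTT : T * T = algebraMap k L a)
    (repK : ∀ l : K', ∃ u v : K, l = algebraMap K K' u + algebraMap K K' v * algebraMap L K' T)
    (hcompat : ∀ c : k, algebraMap K K' (algebraMap k K c) = algebraMap L K' (algebraMap k L c))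
    (hcomm : ∀ x, j x * t = t * j x) (hT : j (algebraMap L C T) = t)
    (hj : ∀ c : K, j (algebraMap K' C (algebraMap K K' c)) = algebraMap K D c)
    {w' : HeightOneSpectrum (𝓞 L)} (hw' : (Sum.inl w' : Pl L) ∈ Tdiv L K' C) :
    ∃ v ∈ Ram k K D (2 * m), w'.asIdeal.comap (algebraMap (𝓞 k) (𝓞 L)) = v.asIdeal := by
  obtain ⟨v', hv', φ, hdiv⟩ := hw'
  obtain rfl : w' = v' := Sum.inl_injective hv'
  obtain ⟨v, hv⟩ := exists_below (F := k) w'
  refine ⟨v, ?_, hv⟩
  by_contra hcon
  obtain ⟨w2, hw2, hle2, hlt2⟩ := exists_place_of_hom (φ : K' →+* w'.adicCompletion L) φ.commutes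
  obtain ⟨w, hw⟩ := exists_below (F := K) w2
  have hwv : w.asIdeal.comap (algebraMap (𝓞 k) (𝓞 K)) = v.asIdeal := by
    rw [← hw, ← hv, ← hw2, Ideal.comap_comap, Ideal.comap_comap]
    congr 1
    ext x
    exact hcompat x
  have h1 := spl_of_not_ram hcon hwv ((φ : K' →+* w'.adicCompletion L).comp (algebraMap K K'))
    (fun y hy => hle2 _ ((val_le_one_iff hw y).mpr hy))
    (fun y hy => hlt2 _ ((val_lt_one_iff hw y).mpr hy))
  have hT' : j (algebraMap K' C (algebraMap L K' T)) = t := by
    rw [← IsScalarTower.algebraMap_apply L K' C, hT]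
  have htt : t * t = algebraMap K D (algebraMap k K a) := by
    rw [← hT, ← map_mul, ← map_mul, hTT, IsScalarTower.algebraMap_apply L K' C, ← hcompat, hj]
  -- `t` is not central
  obtain ⟨y, hy⟩ : ∃ y : D, y * t ≠ t * y := by
    by_contra hcen
    push Not at hcen
    have h2 : t ∈ Subalgebra.center K D := by
      rw [Subalgebra.mem_center_iff]
      exact hcen
    rw [Algebra.IsCentral.center_eq_bot, Algebra.mem_bot] at h2
    obtain ⟨c, hc⟩ := h2
    have h3 : algebraMap K K' c = algebraMap L K' T := by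
      apply (algebraMap K' C).injective
      apply j.injective
      rw [hj, hT', hc]
    have h4 : (⊥ : Subalgebra K K') = ⊤ := by
      rw [eq_top_iff]
      intro l _
      obtain ⟨u, v', rfl⟩ := repK l
      rw [← h3, Algebra.mem_bot]
      exact ⟨u + v' * c, by rw [map_add, map_mul]⟩
    have h5 := Subalgebra.bot_eq_top_iff_finrank_eq_one.mp h4
    omega
  have h2 : Spl C m (φ : K' →+* w'.adicCompletion L) :=
    spl_cent htt ((_root_.map_ne_zero _).mpr ha) hy repK j hcomm hT'
      (by rw [← map_mul, hTT, hcompat]) hj _ h1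
  let _ : Algebra K' (w'.adicCompletion L) := (φ : K' →+* w'.adicCompletion L).toAlgebra
  exact not_div_of_spl hm hdegC h2 hdiv

/-- **The centralizer is a division algebra above the places of `Tdiv`.** -/
theorem tdiv_up [FiniteDimensional K' C] [FiniteDimensional K K'] (hS : Setting k K D d s)
    (hS' : Setting L K' C (inc k L d) (algebraMap K K' s))
    (repL : ∀ l : L, ∃ u v : k, l = algebraMap k L u + algebraMap k L v * T)
    (hcompat : ∀ c : k, algebraMap K K' (algebraMap k K c) = algebraMap L K' (algebraMap k L c))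
    (hj : ∀ c : K, j (algebraMap K' C (algebraMap K K' c)) = algebraMap K D c)
    {v : HeightOneSpectrum (𝓞 k)} (hv : (Sum.inl v : Pl k) ∈ Tdiv k K D)
    {w' : HeightOneSpectrum (𝓞 L)}
    (hw' : w'.asIdeal.comap (algebraMap (𝓞 k) (𝓞 L)) = v.asIdeal) :
    (Sum.inl w' : Pl L) ∈ Tdiv L K' C := by
  obtain ⟨v', hv', φ, hdiv⟩ := hv
  obtain rfl : v = v' := Sum.inl_injective hv'
  obtain ⟨g, hgc, hg⟩ := completion_map_cont hw'
  obtain ⟨φ', hφ'⟩ := exists_lift hS' (F := w'.adicCompletion L) (θ := g (φ s)) (by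
    rw [← map_pow, ← map_pow, hS.sq, AlgHom.commutes, hg]
    rfl)
  refine ⟨w', rfl, φ', ?_⟩
  have hk : ∀ c : K, g (φ c) = φ' (algebraMap K K' c) := by
    intro c
    obtain ⟨p, q, rfl⟩ := exists_coord hS c
    rw [map_add, map_mul, map_add, map_mul, AlgHom.commutes, AlgHom.commutes, hg, hg, map_add,
      map_mul, map_add, map_mul, hφ', hcompat, hcompat, AlgHom.commutes, AlgHom.commutes]
  let _ : Algebra K (v.adicCompletion k) := (φ : K →+* v.adicCompletion k).toAlgebra
  let _ : Algebra K' (w'.adicCompletion L) := (φ' : K' →+* w'.adicCompletion L).toAlgebra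
  exact div_up_core (K := K) (D := D) (K' := K') (C := C) (F := v.adicCompletion k)
    (E := w'.adicCompletion L) g hk (T := algebraMap L K' T) (fun x => by
      obtain ⟨y, z, hyz⟩ := completion_span hgc hg repL x
      refine ⟨y, z, ?_⟩
      rw [hyz]
      congr 2
      exact (φ'.commutes T).symm) j j.injective hj hdiv

end cent

/-- **The completions of `D` at the places above `Tdiv` are division algebras.** -/
theorem div_of_tdiv [StarModule K D] [FiniteDimensional K D] (hS : Setting k K D d s)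
    {v : HeightOneSpectrum (𝓞 k)} (hv : (Sum.inl v : Pl k) ∈ Tdiv k K D)
    {w : HeightOneSpectrum (𝓞 K)} (hw : w.asIdeal.comap (algebraMap (𝓞 k) (𝓞 K)) = v.asIdeal) :
    ∀ x : w.adicCompletion K ⊗[K] D, x ≠ 0 → IsUnit x := by
  obtain ⟨v', hv', φ, hdiv⟩ := hv
  obtain rfl : v = v' := Sum.inl_injective hv'
  obtain ⟨g, hgc, hg⟩ := completion_map_cont hw
  have hspan : ∀ l : K, ∃ u v : k, l = algebraMap k K u + algebraMap k K v * s :=
    fun l => exists_coord hS l
  have hsq : algebraMap K (w.adicCompletion K) s ^ 2 = g (φ s) ^ 2 := by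
    rw [← map_pow, ← map_pow, ← map_pow, hS.sq, AlgHom.commutes, hg]
  have hs : algebraMap K (w.adicCompletion K) s = g (φ s) ∨
      algebraMap K (w.adicCompletion K) s = -g (φ s) := sq_eq_sq_iff_eq_or_eq_neg.mp hsq
  have hsurj : Function.Surjective g := by
    intro x
    obtain ⟨y, z, rfl⟩ := completion_span hgc hg hspan x
    rcases hs with h | h
    · exact ⟨y + z * φ s, by rw [map_add, map_mul, h]⟩
    · exact ⟨y - z * φ s, by rw [map_sub, map_mul, h, mul_neg, sub_eq_add_neg]⟩
  let _ : Algebra K (v.adicCompletion k) := (φ : K →+* v.adicCompletion k).toAlgebra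
  rcases hs with h | h
  · have hk : ∀ c : K, g (φ c) = algebraMap K (w.adicCompletion K) c := by
      intro c
      obtain ⟨p, q, rfl⟩ := exists_coord hS c
      rw [map_add, map_mul, map_add, map_mul, AlgHom.commutes, AlgHom.commutes, hg, hg, map_add,
        map_mul, h]
    exact div_up_core (K := K) (D := D) (K' := K) (C := D) (F := v.adicCompletion k)
      (E := w.adicCompletion K) g hk (T := 0) (fun x => by
        obtain ⟨y, rfl⟩ := hsurj x
        exact ⟨y, 0, by rw [map_zero, zero_mul, add_zero]⟩) (RingHom.id D) Function.injective_id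
        (fun _ => rfl) hdiv
  · refine div_anti (F := v.adicCompletion k) g hsurj (fun c => ?_) hdiv
    obtain ⟨p, q, rfl⟩ := exists_coord hS c
    have h1 : ∀ c : k, star (algebraMap k K c) = algebraMap k K c := fun c =>
      (hS.fix _).mpr ⟨c, rfl⟩
    change g (φ _) = _
    rw [map_add, map_mul, map_add, map_mul, AlgHom.commutes, AlgHom.commutes, hg, hg, star_add,
      star_mul', h1, h1, hS.star_s, map_add, map_mul, map_neg, h, neg_neg]

/-- The converse: a division algebra over one completion gives a place of `Tdiv`. -/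
theorem tdiv_of_div [FiniteDimensional K D] (hS : Setting k K D d s)
    {v : HeightOneSpectrum (𝓞 k)} (hv : d ∈ LS (v.valuation k))
    {w : HeightOneSpectrum (𝓞 K)} (hw : w.asIdeal.comap (algebraMap (𝓞 k) (𝓞 K)) = v.asIdeal)
    (hdiv : ∀ x : w.adicCompletion K ⊗[K] D, x ≠ 0 → IsUnit x) :
    (Sum.inl v : Pl k) ∈ Tdiv k K D := by
  obtain ⟨θ0, hθ0⟩ := (isSquare_iff v d).mpr hv
  obtain ⟨g, hgc, hg⟩ := completion_map_cont hw
  have hspan : ∀ l : K, ∃ u v : k, l = algebraMap k K u + algebraMap k K v * s :=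
    fun l => exists_coord hS l
  obtain ⟨θ, hθ, hgθ⟩ : ∃ θ : v.adicCompletion k, θ ^ 2 = algebraMap k _ (d : k) ∧
      g θ = algebraMap K (w.adicCompletion K) s := by
    have hsq : algebraMap K (w.adicCompletion K) s ^ 2 = g θ0 ^ 2 := by
      rw [← map_pow, ← map_pow, hS.sq, sq θ0, ← hθ0, hg]
    rcases sq_eq_sq_iff_eq_or_eq_neg.mp hsq with h | h
    · exact ⟨θ0, by rw [hθ0, sq], h.symm⟩
    · exact ⟨-θ0, by rw [hθ0, neg_sq, sq], by rw [map_neg, h]⟩
  obtain ⟨φ, hφ⟩ := exists_lift hS (F := v.adicCompletion k) hθ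
  have hk : ∀ c : K, g (φ c) = algebraMap K (w.adicCompletion K) c := by
    intro c
    obtain ⟨p, q, rfl⟩ := exists_coord hS c
    rw [map_add, map_mul, map_add, map_mul, AlgHom.commutes, AlgHom.commutes, hg, hg, map_add,
      map_mul, hφ, hgθ]
  have hsurj : Function.Surjective g := by
    intro x
    obtain ⟨y, z, rfl⟩ := completion_span hgc hg hspan x
    exact ⟨y + z * φ s, by rw [map_add, map_mul, hk]⟩
  let e := RingEquiv.ofBijective g ⟨g.injective, hsurj⟩
  have he : ∀ x, e x = g x := fun _ => rfl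
  refine ⟨v, rfl, φ, ?_⟩
  let _ : Algebra K (v.adicCompletion k) := (φ : K →+* v.adicCompletion k).toAlgebra
  exact div_up_core (K := K) (D := D) (K' := K) (C := D) (F := w.adicCompletion K)
    (E := v.adicCompletion k) (e.symm : w.adicCompletion K →+* v.adicCompletion k) (fun c => by
      change e.symm _ = φ c
      rw [RingEquiv.symm_apply_eq, he, hk]) (T := 0) (fun x => ⟨g x, 0, by
        rw [map_zero, zero_mul, add_zero]
        exact (e.symm_apply_apply x).symm⟩) (RingHom.id D) Function.injective_id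
      (fun _ => rfl) hdiv

/-- A place at which `a` is a square splits in the extension by the square root of `a`. -/
theorem ls_below {L : Type} [Field L] [NumberField L] [Algebra k L] {a : kˣ} {T : L}
    (hTT : T * T = algebraMap k L a)
    (repL : ∀ l : L, ∃ u v : k, l = algebraMap k L u + algebraMap k L v * T)
    {v : HeightOneSpectrum (𝓞 k)} (ha : a ∈ LS (v.valuation k)) {w' : HeightOneSpectrum (𝓞 L)}
    (hw' : w'.asIdeal.comap (algebraMap (𝓞 k) (𝓞 L)) = v.asIdeal) {b : kˣ}
    (hb : inc k L b ∈ LS (w'.valuation L)) : b ∈ LS (v.valuation k) := by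
  obtain ⟨c, hc⟩ := (isSquare_iff v a).mpr ha
  obtain ⟨g, hgc, hg⟩ := completion_map_cont hw'
  have hsq : algebraMap L (w'.adicCompletion L) T ^ 2 = g c ^ 2 := by
    rw [sq, ← map_mul, hTT, sq, ← map_mul, ← hc, hg]
  have hsurj : Function.Surjective g := by
    intro x
    obtain ⟨y, z, rfl⟩ := completion_span hgc hg repL x
    rcases sq_eq_sq_iff_eq_or_eq_neg.mp hsq with h | h
    · exact ⟨y + z * c, by rw [map_add, map_mul, h]⟩
    · exact ⟨y - z * c, by rw [map_sub, map_mul, h, mul_neg, sub_eq_add_neg]⟩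
  obtain ⟨z, hz⟩ := (isSquare_iff w' (inc k L b)).mpr hb
  obtain ⟨y, rfl⟩ := hsurj z
  refine (isSquare_iff v b).mp ⟨y, g.injective ?_⟩
  rw [map_mul, ← hz, hg]
  rfl

/-- The places of `Tdiv` of the centralizer. -/
theorem tdiv_ls {L K' C : Type} [Field L] [NumberField L] [Field K'] [StarRing K']
    [DivisionRing C] [StarRing C] [Algebra L K'] [Algebra L C] [Algebra K' C]
    {δ : Lˣ} {s' : K'} (hS' : Setting L K' C δ s')
    {w' : HeightOneSpectrum (𝓞 L)} (hw' : (Sum.inl w' : Pl L) ∈ Tdiv L K' C) :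
    δ ∈ LS (w'.valuation L) := by
  obtain ⟨v', hv', φ, -⟩ := hw'
  obtain rfl : w' = v' := Sum.inl_injective hv'
  refine (isSquare_iff w' δ).mp ⟨φ s', ?_⟩
  rw [← map_mul, ← sq, hS'.sq, AlgHom.commutes]

end places

end Vale.Agent.P011.Pow
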