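import Vale.Agent.P011.Pow.Ec
import Vale.Agent.P011.W.HermEl
import Vale.Agent.P011.Even.LocFin
import Vale.Agent.P011.Even.GFinish

/-!
Unitary elements with given reduced norm (Merkurjev's trick).
-/

open NumberField IsDedekindDomain Polynomial Module

namespace Vale.Agent.P011.Pow

open Vale.Agent.P011.Arith (Z0 Pl plAbv plAbv_lt plAbv_inr approx)
open Vale.Agent.P011.W Vale.Agent.P011.Even

section alg

variable {k K D : Type} [Field k] [NumberField k] [Field K] [StarRing K]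
    [DivisionRing D] [StarRing D] [Algebra k K] [Algebra k D] [Algebra K D] [IsScalarTower k K D]
    {d : kˣ} {s : K}

/-- The symmetric elements. -/
def symm (hS : Setting k K D d s) : Submodule k D where
  carrier := {x | star x = x}
  add_mem' := fun {x y} hx hy => by
    change star (x + y) = x + y
    rw [star_add, hx, hy]
  zero_mem' := star_zero D
  smul_mem' := fun c x hx => by
    change star (c • x) = c • x
    rw [Algebra.smul_def, star_mul, Even.star_alg hS, hx, Algebra.commutes]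

theorem mem_symm (hS : Setting k K D d s) {x : D} : x ∈ symm hS ↔ star x = x := Iff.rfl

omit [NumberField k] [Algebra k D] [IsScalarTower k K D] in
theorem star_sD (hS : Setting k K D d s) : star (algebraMap K D s) = -algebraMap K D s := by
  rw [hS.star_alg, hS.star_s, map_neg]

theorem le_symm (hS : Setting k K D d s) : finrank k D ≤ finrank k (symm hS) + finrank k (symm hS) := by
  have := hS.fin_k
  let S := algebraMap K D s
  have hS0 : S ≠ 0 := (_root_.map_ne_zero _).mpr hS.s_ne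
  have hcS : ∀ x : D, S * x = x * S := fun x => Algebra.commutes s x
  let e : (symm hS × symm hS) →ₗ[k] D :=
    { toFun := fun p => (p.1 : D) + S * p.2
      map_add' := fun p q => by
        change ((p.1 : D) + q.1) + S * ((p.2 : D) + q.2) = _
        rw [mul_add]; abel
      map_smul' := fun c p => by
        change (c • (p.1 : D)) + S * (c • (p.2 : D)) = c • ((p.1 : D) + S * p.2)
        rw [smul_add, mul_smul_comm] }
  have hchar : CharZero k := inferInstance
  have h2 : (2 : k) ≠ 0 := two_ne_zero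
  have hsurj : Function.Surjective e := by
    intro x
    have h1 : star ((2 : k)⁻¹ • (x + star x)) = (2 : k)⁻¹ • (x + star x) := by
      rw [Algebra.smul_def, star_mul, Even.star_alg hS, star_add, star_star, add_comm (star x),
        Algebra.commutes]
    have h3 : star ((2 : k)⁻¹ • ((x - star x) * S⁻¹)) = (2 : k)⁻¹ • ((x - star x) * S⁻¹) := by
      have h4 : star S⁻¹ = -S⁻¹ := by rw [star_inv₀, star_sD hS, inv_neg]
      have h5 : S⁻¹ * (x - star x) = (x - star x) * S⁻¹ := by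
        rw [inv_mul_eq_iff_eq_mul₀ hS0, ← mul_assoc, hcS, mul_assoc, mul_inv_cancel₀ hS0, mul_one]
      rw [Algebra.smul_def, star_mul, star_mul, Even.star_alg hS, h4, star_sub, star_star,
        neg_mul, ← mul_neg, neg_sub, h5, Algebra.commutes]
    refine ⟨(⟨_, h1⟩, ⟨_, h3⟩), ?_⟩
    change (2 : k)⁻¹ • (x + star x) + S * ((2 : k)⁻¹ • ((x - star x) * S⁻¹)) = x
    rw [mul_smul_comm, ← mul_assoc, hcS, mul_assoc, mul_inv_cancel₀ hS0, mul_one, ← smul_add,
      add_add_sub_cancel, ← two_smul k x, smul_smul, inv_mul_cancel₀ h2, one_smul]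
  have h := LinearMap.finrank_range_of_inj (f := (LinearMap.id : D →ₗ[k] D)) Function.injective_id
  calc finrank k D ≤ finrank k (symm hS × symm hS) := LinearMap.finrank_le_finrank_of_surjective hsurj
    _ = _ := finrank_prod

/-- Merkurjev's trick. -/
theorem exists_unitary (hS : Setting k K D d s) {Z : D} (hZ : Z ≠ 0) :
    ∃ q : D, q ≠ 0 ∧ star q = q ∧
      (Z * (q * (star Z)⁻¹ * q⁻¹)) * star (Z * (q * (star Z)⁻¹ * q⁻¹)) = 1 := by
  have := hS.fin_k
  let S := algebraMap K D s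
  have hS0 : S ≠ 0 := (_root_.map_ne_zero _).mpr hS.s_ne
  have hcS : ∀ x : D, S * x = x * S := fun x => Algebra.commutes s x
  have hstS : star S = -S := star_sD hS
  have hkc : ∀ (c : k) (x : D), algebraMap k D c * x = x * algebraMap k D c :=
    fun c x => Algebra.commutes c x
  let Φ : (symm hS × symm hS × k) →ₗ[k] D :=
    { toFun := fun p => Z * (p.1 : D) - p.2.1 - p.2.2 • S
      map_add' := fun p q => by
        change Z * ((p.1 : D) + q.1) - ((p.2.1 : D) + q.2.1) - (p.2.2 + q.2.2) • S = _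
        rw [mul_add, add_smul]; abel
      map_smul' := fun c p => by
        change Z * (c • (p.1 : D)) - c • (p.2.1 : D) - (c * p.2.2) • S =
          c • (Z * (p.1 : D) - p.2.1 - p.2.2 • S)
        rw [smul_sub, smul_sub, mul_smul_comm, mul_smul] }
  have hlt : finrank k D < finrank k (symm hS × symm hS × k) := by
    rw [finrank_prod, finrank_prod, finrank_self]
    have := le_symm hS
    omega
  have hker := LinearMap.ker_ne_bot_of_finrank_lt (f := Φ) hlt
  obtain ⟨⟨q, x, c⟩, hp, hp0⟩ := (Submodule.ne_bot_iff _).mp hker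
  have hp1 : Z * (q : D) - x - c • S = 0 := hp
  have hx : star (x : D) = x := x.2
  have hq : star (q : D) = q := q.2
  have hq0 : (q : D) ≠ 0 := by
    intro h0
    rw [h0, mul_zero, zero_sub, sub_eq_zero] at hp1
    have h1 : star (c • S) = -(c • S) := by
      rw [Algebra.smul_def, star_mul, Even.star_alg hS, hstS, neg_mul, hkc]
    have h2 : star (-(x : D)) = -x := by rw [star_neg, hx]
    rw [hp1, h1] at h2
    have h3 : c • S = 0 := by
      have h4 : (2 : k) • (c • S) = 0 := by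
        rw [two_smul]
        nth_rw 1 [← h2]
        exact neg_add_cancel _
      exact (smul_eq_zero.mp h4).resolve_left two_ne_zero
    have hc : c = 0 := (smul_eq_zero.mp h3).resolve_right hS0
    have hx0 : (x : D) = 0 := by
      rw [h3] at hp1
      exact neg_eq_zero.mp hp1
    apply hp0
    have hx' : x = 0 := Subtype.ext hx0
    have hq' : q = 0 := Subtype.ext h0
    rw [hq', hx', hc]
    rfl
  refine ⟨q, hq0, hq, ?_⟩
  obtain ⟨η, hη⟩ : ∃ η : D, η = Z * q := ⟨_, rfl⟩
  have hη0 : η ≠ 0 := by rw [hη]; exact mul_ne_zero hZ hq0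
  have hη1 : η = x + c • S := by
    rw [hη, ← sub_eq_zero, ← sub_sub]
    exact hp1
  have hηs : star η = x - c • S := by
    rw [hη1, star_add, hx, Algebra.smul_def, star_mul, Even.star_alg hS, hstS, neg_mul, ← hkc,
      ← sub_eq_add_neg]
  have hcom : η * star η = star η * η := by
    have h1 : (x : D) * (c • S) = (c • S) * x := by
      rw [mul_smul_comm, smul_mul_assoc, hcS]
    rw [hηs, hη1, add_mul, sub_mul, mul_sub, mul_sub, mul_add, mul_add, h1]
    abel
  have hηs0 : star η ≠ 0 := by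
    intro h0
    apply hη0
    rw [← star_star η, h0, star_zero]
  have hZs : star Z ≠ 0 := by
    intro h0
    apply hZ
    rw [← star_star Z, h0, star_zero]
  have hu : Z * (q * (star Z)⁻¹ * (q : D)⁻¹) = η * (star η)⁻¹ := by
    have h1 : star η = q * star Z := by rw [hη, star_mul, hq]
    rw [h1, mul_inv_rev, hη]
    simp only [mul_assoc]
  rw [hu, star_mul, star_inv₀, star_star]
  have h2 : (star η)⁻¹ * η⁻¹ = η⁻¹ * (star η)⁻¹ := by
    rw [← mul_inv_rev, ← mul_inv_rev, hcom]
  rw [mul_assoc, ← mul_assoc (star η)⁻¹, h2, mul_assoc, inv_mul_cancel₀ hηs0, mul_one,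
    mul_inv_cancel₀ hη0]

end alg

section nrd

variable {K D : Type} [Field K] [DivisionRing D] [Algebra K D] {n : ℕ}

theorem exists_nrd [CharZero K] [FiniteDimensional K D] [Algebra.IsCentral K D]
    (hD : finrank K D = n ^ 2) (x : D) : ∃ ν : K, HasNrd K n x ν := by
  obtain ⟨L, _, _, _, j, u, hL, rfl⟩ := exists_maxfield hD x
  exact ⟨_, hasNrd_norm hD hL j u⟩

theorem HasNrd.conj {x q : D} (hq : q ≠ 0) {ν : K} (h : HasNrd K n x ν) :
    HasNrd K n (q * x * q⁻¹) ν := by
  intro Ω _ _ f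
  have h1 : (f q).det * (f q⁻¹).det = 1 := by
    rw [← Matrix.det_mul, ← map_mul, mul_inv_cancel₀ hq, map_one, Matrix.det_one]
  rw [map_mul, map_mul, Matrix.det_mul, Matrix.det_mul, h, mul_right_comm, h1, one_mul]

theorem HasNrd.neg {x : D} {ν : K} (h : HasNrd K n x ν) :
    HasNrd K n (-x) ((-1) ^ n * ν) := by
  intro Ω _ _ f
  rw [map_neg, Matrix.det_neg, Fintype.card_fin, h, map_mul, map_pow, map_neg, map_one]

theorem HasNrd.ne_zero' [CharZero K] [FiniteDimensional K D] [Algebra.IsCentral K D]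
    (hD : finrank K D = n ^ 2) {x : D} (hx : x ≠ 0) {ν : K} (h : HasNrd K n x ν) : ν ≠ 0 := by
  obtain ⟨μ, hμ⟩ := exists_nrd hD x⁻¹
  have h1 := h.mul hμ
  rw [mul_inv_cancel₀ hx] at h1
  have h2 := HasNrd.unique hD h1 HasNrd.one
  rintro rfl
  rw [zero_mul] at h2
  exact zero_ne_one h2

/-- The reduced norm is ultrametric at the place `w`. -/
def Ult (K D : Type) [Field K] [NumberField K] [DivisionRing D] [Algebra K D] (n : ℕ)
    (w : HeightOneSpectrum (𝓞 K)) : Prop :=
  ∀ (x y : D) (a b c : K), HasNrd K n x a → HasNrd K n y b → HasNrd K n (x + y) c →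
    w.valuation K c ≤ max (w.valuation K a) (w.valuation K b)

end nrd

section main

variable {k K D : Type} [Field k] [NumberField k] [Field K] [NumberField K] [StarRing K]
    [DivisionRing D] [StarRing D] [Algebra k K] [Algebra k D] [Algebra K D] [IsScalarTower k K D]
    {d : kˣ} {s : K} {n : ℕ}

omit [NumberField K] in
/-- Merkurjev's trick with reduced norms. -/
theorem exists_unitary_nrd (hS : Setting k K D d s) (hD : finrank K D = n ^ 2) {Z : D} {ζ z : K}
    (hζ0 : ζ ≠ 0) (hζ : HasNrd K n Z ζ) (hz : HasNrd K n (Z - 1) z) :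
    ∃ A : D, (Z * A) * star (Z * A) = 1 ∧ HasNrd K n (Z * A) (ζ * (star ζ)⁻¹) ∧
      HasNrd K n A (star ζ)⁻¹ ∧ HasNrd K n (A - 1) ((-1) ^ n * star z * (star ζ)⁻¹) := by
  have := hS.fin
  have := hS.cen
  have hZ : Z ≠ 0 := hζ.ne_zero hD hζ0
  have hZs : star Z ≠ 0 := star_ne_zero.mpr hZ
  obtain ⟨q, hq0, hq, hu⟩ := exists_unitary hS hZ
  have h1 : HasNrd K n (star Z) (star ζ) := HasNrd.star hS.star_alg hζ
  have h2 : HasNrd K n (star Z)⁻¹ (star ζ)⁻¹ := h1.inv hZs
  have h3 : HasNrd K n (q * (star Z)⁻¹ * q⁻¹) (star ζ)⁻¹ := HasNrd.conj hq0 h2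
  refine ⟨q * (star Z)⁻¹ * q⁻¹, hu, hζ.mul h3, h3, ?_⟩
  have h4 : HasNrd K n (star (Z - 1)) (star z) := HasNrd.star hS.star_alg hz
  have e1 : (star Z)⁻¹ - 1 = -star (Z - 1) * (star Z)⁻¹ := by
    rw [star_sub, star_one, neg_sub, sub_mul, one_mul, mul_inv_cancel₀ hZs]
  have h5 : HasNrd K n ((star Z)⁻¹ - 1) ((-1) ^ n * star z * (star ζ)⁻¹) := by
    rw [e1]
    exact (HasNrd.neg h4).mul h2
  have e2 : q * (star Z)⁻¹ * q⁻¹ - 1 = q * ((star Z)⁻¹ - 1) * q⁻¹ := by
    rw [mul_sub, mul_one, sub_mul, mul_inv_cancel₀ hq0]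
  rw [e2]
  exact HasNrd.conj hq0 h5

omit [NumberField k] [NumberField K] [IsScalarTower k K D] [Algebra k D] in
/-- The involution as an automorphism. -/
theorem exists_starAut (hS : Setting k K D d s) : ∃ σ : K ≃ₐ[k] K, ∀ x, σ x = star x := by
  refine ⟨{ (starRingAut : K ≃+* K) with commutes' := fun c => ?_ }, fun x => rfl⟩
  exact (hS.fix _).mpr ⟨c, rfl⟩

omit [NumberField K] [StarRing K] in
theorem exists_lower [NumberField K] (T : Set (HeightOneSpectrum (𝓞 K))) (hT : T.Finite)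
    (γ : HeightOneSpectrum (𝓞 K) → Z0) (hγ : ∀ w, γ w ≠ 0) :
    ∃ γ₀ : Z0, γ₀ ≠ 0 ∧ γ₀ ≤ 1 ∧ ∀ w ∈ T, γ₀ ≤ γ w := by
  induction T, hT using Set.Finite.induction_on with
  | empty => exact ⟨1, one_ne_zero, le_rfl, fun w hw => absurd hw (Set.notMem_empty w)⟩
  | @insert w T _ _ ih =>
    obtain ⟨γ₀, h0, h1, h2⟩ := ih
    rcases le_total γ₀ (γ w) with h | h
    · refine ⟨γ₀, h0, h1, fun w' hw' => ?_⟩
      rcases hw' with rfl | hw'
      · exact h
      · exact h2 w' hw'
    · refine ⟨γ w, hγ w, h.trans h1, fun w' hw' => ?_⟩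
      rcases hw' with rfl | hw'
      · exact le_rfl
      · exact h.trans (h2 w' hw')

/-- Unitary elements with given reduced norm near `1` at places where the reduced norm is
ultrametric. -/
theorem nrd_near (hS : Setting k K D d s) {e : ℕ} (hD : finrank K D = (2 ^ e) ^ 2)
    (T : Set (HeightOneSpectrum (𝓞 K))) (hT : T.Finite) (hTu : ∀ w ∈ T, Ult K D (2 ^ e) w)
    (γ : HeightOneSpectrum (𝓞 K) → Z0) (hγ : ∀ w, γ w ≠ 0) :
    ∃ δ : HeightOneSpectrum (𝓞 K) → Z0, (∀ w, δ w ≠ 0) ∧ ∀ ν : K, ν * star ν = 1 →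
      (∀ φ : K →+* ℝ, Spl D (2 ^ e) φ ∨ 0 < φ ν) →
      (∀ w ∈ T, w.valuation K (ν - 1) < δ w ∧ w.valuation K (star ν - 1) < δ w) →
      ∃ (u : D) (z : K), u * star u = 1 ∧ HasNrd K (2 ^ e) u ν ∧ HasNrd K (2 ^ e) (u - 1) z ∧
        ∀ w ∈ T, w.valuation K z < γ w := by
  classical
  have := hS.fin
  have := hS.cen
  obtain ⟨σ, hσ⟩ := exists_starAut hS
  choose c hc _ using fun w : HeightOneSpectrum (𝓞 K) => Arith.exists_conj σ w
  have hc' : ∀ w x, (c w).valuation K x = w.valuation K (star x) := by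
    intro w x
    rw [← hc w (star x), hσ, star_star]
  obtain ⟨γ₀, hγ₀0, hγ₀1, hγ₀⟩ := exists_lower T hT γ hγ
  obtain ⟨δ₁, hδ₁0, hδ₁⟩ := eichler_near (D := D) Nat.prime_two hD (T ∪ c '' T)
    (hT.union (hT.image c)) (fun _ => γ₀) (fun _ => hγ₀0)
  have h20 : ∀ w : HeightOneSpectrum (𝓞 K), w.valuation K 2 ≠ 0 := fun w =>
    (Valuation.ne_zero_iff _).mpr two_ne_zero
  have h21 : ∀ w : HeightOneSpectrum (𝓞 K), w.valuation K 2 ≤ 1 := fun w =>
    e_val_nat_le (w.valuation K) 2
  have hmin : ∀ a b : Z0, a ≠ 0 → b ≠ 0 → min a b ≠ 0 := by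
    intro a b ha hb
    rcases min_choice a b with h | h <;> rw [h] <;> assumption
  refine ⟨fun w => min (min (δ₁ w) (δ₁ (c w))) 1 * w.valuation K 2,
    fun w => mul_ne_zero (hmin _ _ (hmin _ _ (hδ₁0 w) (hδ₁0 _)) one_ne_zero) (h20 w),
    fun ν hν hpos hνT => ?_⟩
  -- `ζ / star ζ = ν`
  obtain ⟨ζ, hζ0, hζν, hζpos, hζT⟩ : ∃ ζ : K, ζ ≠ 0 ∧ ζ * (star ζ)⁻¹ = ν ∧
      (∀ φ : K →+* ℝ, Spl D (2 ^ e) φ ∨ 0 < φ ζ) ∧
      ∀ w ∈ T, w.valuation K (ζ - 1) < min (min (δ₁ w) (δ₁ (c w))) 1 ∧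
        w.valuation K (star ζ - 1) < min (min (δ₁ w) (δ₁ (c w))) 1 := by
    by_cases hν1 : ν = -1
    · refine ⟨s, hS.s_ne, ?_, fun φ => ?_, fun w hw => ?_⟩
      · rw [hS.star_s, hν1, inv_neg, mul_neg, mul_inv_cancel₀ hS.s_ne]
      · rcases hpos φ with h | h
        · exact Or.inl h
        · exfalso
          rw [hν1, map_neg, map_one] at h
          linarith
      · exfalso
        have h1 := (hνT w hw).1
        have e1 : ν - 1 = -2 := by rw [hν1]; norm_num
        rw [e1, Valuation.map_neg] at h1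
        have h2 : min (min (δ₁ w) (δ₁ (c w))) 1 * w.valuation K 2 ≤ 1 * w.valuation K 2 :=
          mul_le_mul_left (min_le_right _ _) _
        rw [one_mul] at h2
        exact absurd (h1.trans_le h2) (lt_irrefl _)
    · have h1 : 1 + ν ≠ 0 := fun h => hν1 (by linear_combination h)
      have hν0 : ν ≠ 0 := left_ne_zero_of_mul_eq_one hν
      have h2 : star (2 : K) = 2 := star_ofNat 2
      have hsν : star ν = ν⁻¹ := eq_inv_of_mul_eq_one_right hν
      have hsζ : star ((1 + ν) / 2) = (1 + ν⁻¹) / 2 := by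
        rw [star_div₀, star_add, star_one, hsν, h2]
      refine ⟨(1 + ν) / 2, div_ne_zero h1 two_ne_zero, ?_, fun φ => ?_, fun w hw => ?_⟩
      · have h3 : (1 + ν⁻¹) / 2 = ((1 + ν) / 2) * ν⁻¹ := by
          rw [div_mul_eq_mul_div, add_mul, mul_inv_cancel₀ hν0, one_mul, add_comm]
        rw [hsζ, h3, mul_inv, inv_inv, ← mul_assoc,
          mul_inv_cancel₀ (div_ne_zero h1 two_ne_zero), one_mul]
      · rcases hpos φ with h | h
        · exact Or.inl h
        · right
          rw [map_div₀, map_add, map_one, map_ofNat]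
          linarith
      · have key : ∀ μ : K, w.valuation K (μ - 1) <
            min (min (δ₁ w) (δ₁ (c w))) 1 * w.valuation K 2 →
            w.valuation K ((1 + μ) / 2 - 1) < min (min (δ₁ w) (δ₁ (c w))) 1 := by
          intro μ hμ
          have e1 : (1 + μ) / 2 - 1 = (μ - 1) / 2 := by ring
          rw [e1, map_div₀]
          exact (div_lt_iff₀ (zero_lt_iff.mpr (h20 w))).mpr hμ
        refine ⟨key ν (hνT w hw).1, ?_⟩
        rw [hsζ, ← hsν]
        exact key _ (hνT w hw).2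
  obtain ⟨Z, z, hZ, hz, hzT⟩ := hδ₁ ζ hζ0 (fun _ => hζpos) (by
    rintro w (hw | ⟨w, hw, rfl⟩)
    · exact (hζT w hw).1.trans_le ((min_le_left _ _).trans (min_le_left _ _))
    · rw [hc', star_sub, star_one]
      exact (hζT w hw).2.trans_le ((min_le_left _ _).trans (min_le_right _ _)))
  obtain ⟨A, hu, h1, h2, h3⟩ := exists_unitary_nrd hS hD hζ0 hZ hz
  rw [hζν] at h1
  obtain ⟨z', hz'⟩ := exists_nrd (n := 2 ^ e) hD (Z * A - 1)
  refine ⟨Z * A, z', hu, h1, hz', fun w hw => ?_⟩
  have e1 : Z * A - 1 = (Z - 1) * A + (A - 1) := by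
    rw [sub_mul, one_mul]; abel
  rw [e1] at hz'
  have h4 := hTu w hw _ _ _ _ _ (hz.mul h2) h3 hz'
  have h5 : w.valuation K (star ζ) = 1 := by
    have h6 := (w.valuation K).map_one_add_of_lt (x := star ζ - 1)
      ((hζT w hw).2.trans_le (min_le_right _ _))
    rwa [add_sub_cancel] at h6
  have h6 : w.valuation K (z * (star ζ)⁻¹) < γ w := by
    rw [map_mul, map_inv₀, h5, inv_one, mul_one]
    exact (hzT w (Or.inl hw)).trans_le (hγ₀ w hw)
  have h7 : w.valuation K ((-1) ^ (2 ^ e) * star z * (star ζ)⁻¹) < γ w := by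
    rw [map_mul, map_mul, map_pow, Valuation.map_neg, map_one, one_pow, one_mul, map_inv₀, h5,
      inv_one, mul_one, ← hc']
    exact (hzT (c w) (Or.inr ⟨w, hw, rfl⟩)).trans_le (hγ₀ w hw)
  exact h4.trans_lt (max_lt h6 h7)

end main

end Vale.Agent.P011.Pow
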