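import Vale.Agent.P011.Pow.Av
import Vale.Agent.P011.Pow.NS
import Vale.Agent.P011.Pow.CentT

/-!
The reduced norm is ultrametric at the places where the algebra stays a division algebra.
-/

open NumberField IsDedekindDomain Module
open scoped TensorProduct

namespace Vale.Agent.P011.Pow

open Vale.Agent.P011.Arith Vale.Agent.P011.Even
open Vale.Agent.P011.W (HasNrd)
open Vale.Agent.P011.One (Tdiv)

theorem ult_of_div {K D : Type} [Field K] [NumberField K] [DivisionRing D] [Algebra K D]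
    [FiniteDimensional K D] [Algebra.IsCentral K D] {n : ℕ} (hdeg : finrank K D = n ^ 2)
    (w : HeightOneSpectrum (𝓞 K)) (hdiv : ∀ x : w.adicCompletion K ⊗[K] D, x ≠ 0 → IsUnit x) :
    Ult K D n w := by
  have hn : 0 < n := W.deg_pos hdeg
  let _ := nnf w
  have := isUltra w
  have h : DivF (w.adicCompletion K) K D := hdiv
  obtain ⟨g⟩ := P011S.exists_split (K := K) (D := D) hdeg (AlgebraicClosure K)
  have key : ∀ (x : D) (ρ : K), HasNrd K n x ρ → cvF (w.adicCompletion K) K x ^ n =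
      ‖algebraMap K (w.adicCompletion K) ρ‖ := fun x ρ hρ => by
    have h1 := P011S.SF.norm_eq_det_pow hn hdeg g x
    rw [hρ _ g, ← map_pow] at h1
    have h2 := (algebraMap K (AlgebraicClosure K)).injective h1
    obtain ⟨r, hr⟩ : ∃ r, r = ‖algebraMap K (w.adicCompletion K) ρ‖ := ⟨_, rfl⟩
    have hr0 : 0 ≤ r := by rw [hr]; exact norm_nonneg _
    rw [cvF, h2, map_pow, norm_pow, hdeg, ← hr, ← Real.rpow_natCast r n,
      ← Real.rpow_mul hr0, ← Real.rpow_natCast, ← Real.rpow_mul hr0]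
    have h3 : (n : ℝ) * (1 / ((n ^ 2 : ℕ) : ℝ)) * (n : ℝ) = 1 := by
      have : (n : ℝ) ≠ 0 := by positivity
      push_cast
      field_simp
    rw [h3, Real.rpow_one]
  intro x y a b c ha hb hc
  have h1 := cvF_add h x y
  have h2 : cvF (w.adicCompletion K) K (x + y) ^ n ≤
      max (cvF (w.adicCompletion K) K x ^ n) (cvF (w.adicCompletion K) K y ^ n) := by
    refine (pow_le_pow_left₀ (cvF_nonneg _) h1 n).trans ?_
    rcases max_choice (cvF (w.adicCompletion K) K x) (cvF (w.adicCompletion K) K y) with h3 | h3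
    · rw [h3]; exact le_max_left _ _
    · rw [h3]; exact le_max_right _ _
  rw [key _ _ ha, key _ _ hb, key _ _ hc] at h2
  rcases max_choice ‖algebraMap K (w.adicCompletion K) a‖
    ‖algebraMap K (w.adicCompletion K) b‖ with h3 | h3
  · rw [h3, norm_le_iff, valued_alg, valued_alg] at h2
    exact h2.trans (le_max_left _ _)
  · rw [h3, norm_le_iff, valued_alg, valued_alg] at h2
    exact h2.trans (le_max_right _ _)

section tdiv

variable {k K D : Type} [Field k] [NumberField k] [Field K] [NumberField K] [StarRing K]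
    [DivisionRing D] [StarRing D] [Algebra k K] [Algebra k D] [Algebra K D] [IsScalarTower k K D]
    {d : kˣ} {s : K} {n : ℕ}

theorem exists_min {ι : Type} {S : Set ι} (hS : S.Finite) (γ : ι → Z0) (hγ : ∀ i, γ i ≠ 0) :
    ∃ γ₀ : Z0, γ₀ ≠ 0 ∧ ∀ i ∈ S, γ₀ ≤ γ i := by
  classical
  induction S, hS using Set.Finite.induction_on with
  | empty => exact ⟨1, one_ne_zero, fun i hi => hi.elim⟩
  | @insert a S ha hS ih =>
    obtain ⟨γ₀, h0, h1⟩ := ih
    refine ⟨min (γ a) γ₀, ?_, fun i hi => ?_⟩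
    · rcases min_choice (γ a) γ₀ with h | h <;> rw [h]
      · exact hγ a
      · exact h0
    · rcases hi with rfl | hi
      · exact min_le_left _ _
      · exact (min_le_right _ _).trans (h1 i hi)

/-- The reduced norm is ultrametric above the places of `Tdiv`. -/
theorem ult_of_tdiv (hS : Setting k K D d s) (hdeg : finrank K D = n ^ 2)
    {v : HeightOneSpectrum (𝓞 k)} (hv : (Sum.inl v : Pl k) ∈ Tdiv k K D)
    {w : HeightOneSpectrum (𝓞 K)} (hw : Ab w v) : Ult K D n w := by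
  have := hS.fin
  have : StarModule K D := ⟨hS.star_smul⟩
  have := hS.cen
  exact ult_of_div hdeg w (div_of_tdiv hS hv hw)

/-- Closeness to one of a unitary element at a place of `Tdiv`, through its reduced norm at any
one place above. -/
theorem dn_tdiv (hS : Setting k K D d s) (hdeg : finrank K D = n ^ 2)
    {v : HeightOneSpectrum (𝓞 k)} (hv : (Sum.inl v : Pl k) ∈ Tdiv k K D)
    {M : ℕ} (B : Basis (Fin M) k D) {ε : ℝ} (hε : 0 < ε) :
    ∃ γ : Z0, γ ≠ 0 ∧ ∀ w : HeightOneSpectrum (𝓞 K), Ab w v → ∀ g : D, g * star g = 1 →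
      ∀ ρ : K, HasNrd K n (g - 1) ρ → w.valuation K ρ < γ → nm B (.inl v) (g - 1) < ε := by
  classical
  have := hS.fin
  have : StarModule K D := ⟨hS.star_smul⟩
  have key : ∀ w : HeightOneSpectrum (𝓞 K), ∃ γ : Z0, γ ≠ 0 ∧ (Ab w v → ∀ g : D,
      g * star g = 1 → ∀ ρ : K, HasNrd K n (g - 1) ρ → w.valuation K ρ < γ →
      nm B (.inl v) (g - 1) < ε) := fun w => by
    by_cases hw : Ab w v
    · obtain ⟨γ, h1, h2⟩ := dn_nrd hS hdeg (div_of_tdiv hS hv hw) hw B hε
      exact ⟨γ, h1, fun _ => h2⟩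
    · exact ⟨1, one_ne_zero, fun h => absurd h hw⟩
  choose γ hγ h using key
  obtain ⟨γ₀, h0, h1⟩ := exists_min (S := {w : HeightOneSpectrum (𝓞 K) | Ab w v})
    (above_finite v) γ hγ
  exact ⟨γ₀, h0, fun w hw g hg ρ hρ hlt => h w hw g hg ρ hρ (hlt.trans_le (h1 w hw))⟩

/-- The converse. -/
theorem nrd_small_tdiv (hS : Setting k K D d s) (hdeg : finrank K D = n ^ 2)
    {v : HeightOneSpectrum (𝓞 k)} (hv : (Sum.inl v : Pl k) ∈ Tdiv k K D)
    {M : ℕ} (B : Basis (Fin M) k D) {γ : Z0} (hγ : γ ≠ 0) :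
    ∃ δ : ℝ, 0 < δ ∧ ∀ x : D, nm B (.inl v) x < δ → ∀ w : HeightOneSpectrum (𝓞 K), Ab w v →
      ∀ ρ : K, HasNrd K n x ρ → w.valuation K ρ < γ := by
  classical
  have := hS.fin
  have : StarModule K D := ⟨hS.star_smul⟩
  have key : ∀ w : HeightOneSpectrum (𝓞 K), ∃ δ : ℝ, 0 < δ ∧ (Ab w v → ∀ x : D,
      nm B (.inl v) x < δ → ∀ ρ : K, HasNrd K n x ρ → w.valuation K ρ < γ) := fun w => by
    by_cases hw : Ab w v
    · obtain ⟨δ, h1, h2⟩ := nrd_small hS hdeg (div_of_tdiv hS hv hw) hw B hγ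
      exact ⟨δ, h1, fun _ => h2⟩
    · exact ⟨1, one_pos, fun h => absurd h hw⟩
  choose δ hδ h using key
  have hfin : {w : HeightOneSpectrum (𝓞 K) | Ab w v}.Finite := above_finite v
  obtain ⟨δ₀, h0, h1⟩ : ∃ δ₀ : ℝ, 0 < δ₀ ∧ ∀ w : HeightOneSpectrum (𝓞 K), Ab w v →
      δ₀ ≤ δ w := by
    rcases hfin.toFinset.eq_empty_or_nonempty with he | hne
    · refine ⟨1, one_pos, fun w hw => ?_⟩
      have h2 : w ∈ hfin.toFinset := by rw [Set.Finite.mem_toFinset]; exact hw
      rw [he] at h2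
      exact absurd h2 (Finset.notMem_empty w)
    · refine ⟨hfin.toFinset.inf' hne δ, ?_, fun w hw => ?_⟩
      · rw [Finset.lt_inf'_iff]
        exact fun w _ => hδ w
      · refine Finset.inf'_le _ ?_
        rw [Set.Finite.mem_toFinset]
        exact hw
  exact ⟨δ₀, h0, fun x hx w hw ρ hρ => h w hw x (hx.trans_le (h1 w hw)) ρ hρ⟩

end tdiv

end Vale.Agent.P011.Pow
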