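import Vale.Agent.P011.Even.Completion
import Vale.Agent.P011.Even.LocDivA
import Vale.Agent.P011.Even.GNorm
import Vale.Agent.P011.Even.GFinish
import Vale.Agent.P011.Bdl.B2
import Vale.Agent.P011.Even.Beta
import Vale.Agent.P011.W.Nrd

/-!
Absolute values on division algebras at the places where they stay division algebras.
-/

open NumberField IsDedekindDomain Module
open scoped TensorProduct

set_option linter.unusedSectionVars false

namespace Vale.Agent.P011.Pow

open Vale.Agent.P011.Arith Vale.Agent.P011.Even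

theorem norm_one_tmul {K D : Type} [Field K] [DivisionRing D] [Algebra K D]
    [FiniteDimensional K D] (L : Type) [Field L] [Algebra K L] (x : D) :
    Algebra.norm L ((1 : L) ⊗ₜ[K] x) = algebraMap K L (Algebra.norm K x) := by
  rw [Algebra.norm_apply, Algebra.norm_apply, ← LinearMap.det_baseChange]
  congr 1
  ext y
  simp

/-- Linear forms on a local division algebra are bounded. -/
theorem lin_bound (F : Type) [NontriviallyNormedField F] [IsUltrametricDist F] [CompleteSpace F]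
    {E : Type} [DivisionRing E] [Algebra F E] [FiniteDimensional F E] (L : E →ₗ[F] F) :
    ∃ C : ℝ, 0 < C ∧ ∀ x, ‖L x‖ ≤ C * LocDiv.nm F x := by
  let i1 : NormedDivisionRing E := LocDiv.ndr F
  let i2 : NormedSpace F E :=
    { norm_smul_le := fun c x => by
        change LocDiv.nm F (c • x) ≤ ‖c‖ * LocDiv.nm F x
        rw [Algebra.smul_def, LocDiv.nm_mul, LocDiv.nm_algebraMap] }
  obtain ⟨g, hg⟩ : ∃ g : E →L[F] F, ∀ x, g x = L x := ⟨LinearMap.toContinuousLinearMap L,
    fun x => rfl⟩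
  refine ⟨‖g‖ + 1, by positivity, fun x => ?_⟩
  rw [← hg]
  refine (g.le_opNorm x).trans ?_
  refine mul_le_mul_of_nonneg_right (by linarith) ?_
  exact LocDiv.nm_nonneg F x

section cvF

/-- The algebra `D` stays a division algebra over `F`. -/
def DivF (F K D : Type) [Field F] [Field K] [DivisionRing D] [Algebra K F] [Algebra K D] : Prop :=
  ∀ x : F ⊗[K] D, x ≠ 0 → IsUnit x

/-- The canonical absolute value. -/
noncomputable def cvF (F K : Type) {D : Type} [NormedField F] [Field K] [DivisionRing D]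
    [Algebra K F] [Algebra K D] (x : D) : ℝ :=
  ‖algebraMap K F (Algebra.norm K x)‖ ^ (1 / (finrank K D : ℝ))

variable {F K D : Type} [NontriviallyNormedField F] [IsUltrametricDist F] [CompleteSpace F]
  [Field K] [Algebra K F] [DivisionRing D] [Algebra K D] [FiniteDimensional K D]

theorem nontrivial_tensor (F K D : Type) [Field F] [Field K] [DivisionRing D] [Algebra K F]
    [Algebra K D] : Nontrivial (F ⊗[K] D) := by
  have h : Function.Injective (Algebra.TensorProduct.includeRight : D →ₐ[K] F ⊗[K] D) :=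
    Algebra.TensorProduct.includeRight_injective (algebraMap K F).injective
  exact h.nontrivial

/-- The local division algebra. -/
@[reducible] noncomputable def locDR {F K D : Type} [Field F] [Field K] [DivisionRing D]
    [Algebra K F] [Algebra K D] (h : DivF F K D) : DivisionRing (F ⊗[K] D) :=
  letI := nontrivial_tensor F K D
  DivisionRing.ofIsUnitOrEqZero fun x => (em (x = 0)).symm.imp (h x) id

theorem cvF_eq (h : DivF F K D) (x : D) :
    letI := locDR h
    cvF F K x = LocDiv.nm F ((1 : F) ⊗ₜ[K] x) := by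
  let _ := locDR h
  change _ = ‖Algebra.norm F ((1 : F) ⊗ₜ[K] x)‖ ^ (1 / (Module.finrank F (F ⊗[K] D) : ℝ))
  rw [cvF, norm_one_tmul, Module.finrank_baseChange]

theorem cvF_nonneg (x : D) : 0 ≤ cvF F K x := Real.rpow_nonneg (norm_nonneg _) _

theorem cvF_mul (x y : D) : cvF F K (x * y) = cvF F K x * cvF F K y := by
  rw [cvF, cvF, cvF, map_mul, map_mul, norm_mul, Real.mul_rpow (norm_nonneg _) (norm_nonneg _)]

theorem cvF_one : cvF F K (1 : D) = 1 := by
  rw [cvF, map_one, map_one, norm_one, Real.one_rpow]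

theorem cvF_zero : cvF F K (0 : D) = 0 := by
  have h : 0 < finrank K D := Module.finrank_pos
  rw [cvF, Algebra.norm_zero, map_zero, norm_zero, Real.zero_rpow]
  positivity

theorem cvF_pos {x : D} (hx : x ≠ 0) : 0 < cvF F K x := by
  refine lt_of_le_of_ne (cvF_nonneg x) fun h => ?_
  have h1 : cvF F K x * cvF F K x⁻¹ = 1 := by rw [← cvF_mul, mul_inv_cancel₀ hx, cvF_one]
  rw [← h, zero_mul] at h1
  exact zero_ne_one h1

theorem cvF_alg (c : K) : cvF F K (algebraMap K D c) = ‖algebraMap K F c‖ := by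
  have hE : 0 < Module.finrank K D := Module.finrank_pos
  have h : Algebra.norm K (algebraMap K D c) = c ^ Module.finrank K D := by
    rw [Algebra.norm_apply]
    have : Algebra.lmul K D (algebraMap K D c) = c • LinearMap.id := by
      ext x
      simp [Algebra.smul_def]
    change LinearMap.det (Algebra.lmul K D (algebraMap K D c)) = _
    rw [this, LinearMap.det_smul, LinearMap.det_id, mul_one]
  rw [cvF, h, map_pow, norm_pow, ← Real.rpow_natCast, ← Real.rpow_mul (norm_nonneg _)]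
  have : (Module.finrank K D : ℝ) * (1 / (Module.finrank K D : ℝ)) = 1 := by
    field_simp
  rw [this, Real.rpow_one]

theorem cvF_neg (x : D) : cvF F K (-x) = cvF F K x := by
  have h2 : cvF F K (-1 : D) = 1 := by
    have h3 := cvF_alg (F := F) (D := D) (-1 : K)
    rwa [map_neg, map_neg, map_one, map_one, norm_neg, norm_one] at h3
  rw [← neg_one_mul, cvF_mul, h2, one_mul]

theorem cvF_add (h : DivF F K D) (x y : D) :
    cvF F K (x + y) ≤ max (cvF F K x) (cvF F K y) := by
  let _ := locDR h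
  rw [cvF_eq h, cvF_eq h, cvF_eq h, TensorProduct.tmul_add]
  exact LocDiv.nm_add_le_max _ _ _

theorem cvF_sub (h : DivF F K D) (x y : D) :
    cvF F K (x - y) ≤ max (cvF F K x) (cvF F K y) := by
  rw [sub_eq_add_neg, ← cvF_neg y]
  exact cvF_add h _ _

theorem cvF_sum (h : DivF F K D) {ι : Type} (s : Finset ι) (f : ι → D) {C : ℝ} (hC : 0 ≤ C)
    (hf : ∀ i ∈ s, cvF F K (f i) ≤ C) : cvF F K (∑ i ∈ s, f i) ≤ C := by
  classical
  induction s using Finset.induction_on with
  | empty => rw [Finset.sum_empty, cvF_zero]; exact hC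
  | insert a s ha ih =>
    rw [Finset.sum_insert ha]
    exact (cvF_add h _ _).trans (max_le (hf a (Finset.mem_insert_self a s))
      (ih fun i hi => hf i (Finset.mem_insert_of_mem hi)))

theorem cvF_eq_of_lt (h : DivF F K D) {x y : D} (hxy : cvF F K (x - y) < cvF F K y) :
    cvF F K x = cvF F K y := by
  refine le_antisymm ?_ ?_
  · have h1 : x = (x - y) + y := by rw [sub_add_cancel]
    rw [h1]
    exact (cvF_add h _ _).trans (max_le hxy.le le_rfl)
  · by_contra hlt
    push Not at hlt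
    have h1 : y = x - (x - y) := by rw [sub_sub_cancel]
    have h2 : cvF F K y ≤ max (cvF F K x) (cvF F K (x - y)) := by
      conv_lhs => rw [h1]
      exact cvF_sub h _ _
    exact absurd h2 (not_le.mpr (max_lt hlt hxy))

/-- The canonical absolute value as an absolute value. -/
noncomputable def AvF (h : DivF F K D) : AbsoluteValue D ℝ where
  toFun := cvF F K
  map_mul' := cvF_mul
  nonneg' := cvF_nonneg
  eq_zero' x := ⟨fun h0 => by_contra fun hx => (cvF_pos hx).ne' h0, fun h0 => by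
    rw [h0, cvF_zero]⟩
  add_le' x y := (cvF_add h x y).trans (max_le_add_of_nonneg (cvF_nonneg x) (cvF_nonneg y))

/-- Linear forms are bounded. -/
theorem cvF_linear (h : DivF F K D) (Λ : D →ₗ[K] K) :
    ∃ C : ℝ, 0 < C ∧ ∀ x, ‖algebraMap K F (Λ x)‖ ≤ C * cvF F K x := by
  let _ := locDR h
  let L : F ⊗[K] D →ₗ[F] F :=
    (TensorProduct.AlgebraTensorModule.rid K F F).toLinearMap ∘ₗ Λ.baseChange F
  obtain ⟨C, hC, hL⟩ := lin_bound F L
  refine ⟨C, hC, fun x => ?_⟩
  have h1 := hL ((1 : F) ⊗ₜ[K] x)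
  have h2 : L ((1 : F) ⊗ₜ[K] x) = algebraMap K F (Λ x) := by
    change (TensorProduct.AlgebraTensorModule.rid K F F) (Λ.baseChange F ((1 : F) ⊗ₜ[K] x)) = _
    rw [LinearMap.baseChange_tmul, TensorProduct.AlgebraTensorModule.rid_tmul,
      Algebra.smul_def, mul_one]
  rw [h2] at h1
  rw [cvF_eq h]
  exact h1

end cvF

section setting

variable {k K D : Type} [Field k] [NumberField k] [Field K] [StarRing K]
    [DivisionRing D] [StarRing D] [Algebra k K] [Algebra k D] [Algebra K D] [IsScalarTower k K D]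
    {d : kˣ} {s : K} {F : Type} [NontriviallyNormedField F] [IsUltrametricDist F]
    [CompleteSpace F] [Algebra K F]

theorem s_ne_zero (hS : Setting k K D d s) : s ≠ 0 := by
  intro h1
  have h2 := hS.sq
  rw [h1, zero_pow two_ne_zero, eq_comm, map_eq_zero] at h2
  exact d.ne_zero h2

/-- The coordinates of an element of `K`. -/
theorem exists_pq (hS : Setting k K D d s) (c : K) : ∃ p q : k,
    algebraMap k K p = (c + star c) / 2 ∧ algebraMap k K q = (c - star c) / (2 * s) ∧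
    c = algebraMap k K p + algebraMap k K q * s := by
  have hcz : CharZero K := charZero_of_injective_algebraMap (algebraMap k K).injective
  have hs := s_ne_zero hS
  have h2 : (2 : K) ≠ 0 := two_ne_zero
  have hs2 : star (2 : K) = 2 := by
    have := (hS.fix 2).mpr ⟨2, map_ofNat _ 2⟩
    exact this
  obtain ⟨p, hp⟩ := (hS.fix ((c + star c) / 2)).mp (by
    rw [star_div₀, star_add, star_star, hs2, add_comm])
  obtain ⟨q, hq⟩ := (hS.fix ((c - star c) / (2 * s))).mp (by
    rw [star_div₀, star_sub, star_star, star_mul, hs2, hS.star_s, neg_mul, div_neg, neg_div',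
      neg_sub, mul_comm s])
  refine ⟨p, q, hp, hq, ?_⟩
  rw [hp, hq]
  field_simp
  ring

/-- Linear forms over the small field are bounded. -/
theorem form_bound (hS : Setting k K D d s) (h : DivF F K D) (β : D →ₗ[k] k) :
    ∃ C : ℝ, 0 < C ∧ ∀ x : D, ‖algebraMap K F (algebraMap k K (β x))‖ ≤
      C * (cvF F K x + cvF F K (star x)) := by
  classical
  have := hS.fin
  have hcz : CharZero K := charZero_of_injective_algebraMap (algebraMap k K).injective
  have hs := s_ne_zero hS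
  let b := Module.finBasis K D
  let Λ' : Fin (finrank K D) → (D →ₗ[K] K) := fun j =>
    { toFun := fun x => star (b.coord j (star x))
      map_add' := fun x y => by rw [star_add, map_add, star_add]
      map_smul' := fun c x => by
        rw [hS.star_smul, map_smul, smul_eq_mul, star_mul, star_star, RingHom.id_apply,
          smul_eq_mul, mul_comm] }
  have hΛ' : ∀ j x, Λ' j (star x) = star (b.coord j x) := fun j x => by
    change star (b.coord j (star (star x))) = _
    rw [star_star]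
  choose C hC hCb using fun j => cvF_linear (F := F) h (b.coord j)
  choose C' hC' hCb' using fun j => cvF_linear (F := F) h (Λ' j)
  have key : ∀ j, ∃ A : ℝ, 0 < A ∧ ∀ x : D,
      ‖algebraMap K F (algebraMap k K (β (b.coord j x • b j)))‖ ≤
      A * (cvF F K x + cvF F K (star x)) := by
    intro j
    obtain ⟨u, hu⟩ : ∃ u, u = ‖algebraMap K F 2‖ := ⟨_, rfl⟩
    obtain ⟨w, hw⟩ : ∃ w, w = ‖algebraMap K F (2 * s)‖ := ⟨_, rfl⟩
    have hu0 : 0 < u := by
      rw [hu]
      exact norm_pos_iff.mpr ((_root_.map_ne_zero _).mpr two_ne_zero)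
    have hw0 : 0 < w := by
      rw [hw]
      exact norm_pos_iff.mpr ((_root_.map_ne_zero _).mpr (mul_ne_zero two_ne_zero hs))
    obtain ⟨P, hP⟩ : ∃ P, P = ‖algebraMap K F (algebraMap k K (β (b j)))‖ := ⟨_, rfl⟩
    obtain ⟨Q, hQ⟩ : ∃ Q, Q = ‖algebraMap K F (algebraMap k K (β (s • b j)))‖ := ⟨_, rfl⟩
    have hP0 : 0 ≤ P := by rw [hP]; exact norm_nonneg _
    have hQ0 : 0 ≤ Q := by rw [hQ]; exact norm_nonneg _
    refine ⟨(C j + C' j) * (P / u + Q / w) + 1, ?_, fun x => ?_⟩
    · have := hC j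
      have := hC' j
      positivity
    obtain ⟨c, hc⟩ : ∃ c, c = b.coord j x := ⟨_, rfl⟩
    obtain ⟨p, q, hp, hq, hpq⟩ := exists_pq hS c
    have e1 : β (c • b j) = p * β (b j) + q * β (s • b j) := by
      have : c • b j = p • b j + q • (s • b j) := by
        conv_lhs => rw [hpq]
        rw [add_smul, mul_smul, algebraMap_smul, algebraMap_smul]
      rw [this, map_add, map_smul, map_smul, smul_eq_mul, smul_eq_mul]
    obtain ⟨X, hX⟩ : ∃ X, X = cvF F K x := ⟨_, rfl⟩
    obtain ⟨Y, hY⟩ : ∃ Y, Y = cvF F K (star x) := ⟨_, rfl⟩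
    have hX0 : 0 ≤ X := by rw [hX]; exact cvF_nonneg x
    have hY0 : 0 ≤ Y := by rw [hY]; exact cvF_nonneg _
    have b1 : ‖algebraMap K F c‖ ≤ C j * X := by rw [hc, hX]; exact hCb j x
    have b2 : ‖algebraMap K F (star c)‖ ≤ C' j * Y := by
      rw [hc, hY, ← hΛ']
      exact hCb' j (star x)
    have hs1 : ‖algebraMap K F c‖ + ‖algebraMap K F (star c)‖ ≤ (C j + C' j) * (X + Y) := by
      have h1 := hC j
      have h2 := hC' j
      nlinarith [mul_nonneg h1.le hY0, mul_nonneg h2.le hX0]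
    have ep : ‖algebraMap K F (algebraMap k K p)‖ ≤ (C j + C' j) * (X + Y) / u := by
      rw [hp, map_div₀, norm_div, ← hu,
        div_le_div_iff_of_pos_right hu0, map_add]
      exact (norm_add_le _ _).trans hs1
    have eq : ‖algebraMap K F (algebraMap k K q)‖ ≤ (C j + C' j) * (X + Y) / w := by
      rw [hq, map_div₀, norm_div, ← hw,
        div_le_div_iff_of_pos_right hw0, map_sub]
      exact (norm_sub_le _ _).trans hs1
    rw [← hc, e1, ← hX, ← hY, map_add, map_add]
    refine (norm_add_le _ _).trans ?_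
    rw [map_mul, map_mul, norm_mul, map_mul, map_mul, norm_mul, ← hP, ← hQ]
    have e2 : ‖algebraMap K F (algebraMap k K p)‖ * P ≤ (C j + C' j) * (X + Y) / u * P :=
      mul_le_mul_of_nonneg_right ep hP0
    have e3 : ‖algebraMap K F (algebraMap k K q)‖ * Q ≤ (C j + C' j) * (X + Y) / w * Q :=
      mul_le_mul_of_nonneg_right eq hQ0
    have e4 : ((C j + C' j) * (P / u + Q / w) + 1) * (X + Y) =
        (C j + C' j) * (X + Y) / u * P + (C j + C' j) * (X + Y) / w * Q + (X + Y) := by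
      field_simp
    rw [e4]
    linarith
  choose A hA hAb using key
  refine ⟨∑ j, A j + 1, ?_, fun x => ?_⟩
  · have := Finset.sum_nonneg fun (j : Fin (finrank K D)) (_ : j ∈ Finset.univ) => (hA j).le
    linarith
  have e1 : β x = ∑ j, β (b.coord j x • b j) := by
    conv_lhs => rw [← b.sum_repr x]
    rw [map_sum]
    rfl
  obtain ⟨Z, hZ⟩ : ∃ Z, Z = cvF F K x + cvF F K (star x) := ⟨_, rfl⟩
  have hZ0 : 0 ≤ Z := by rw [hZ]; exact add_nonneg (cvF_nonneg _) (cvF_nonneg _)
  rw [e1, map_sum, map_sum]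
  refine (norm_sum_le _ _).trans ?_
  refine (Finset.sum_le_sum fun j _ => hAb j x).trans ?_
  rw [← hZ, ← Finset.sum_mul]
  linarith

/-- Small elements for the canonical absolute value have small coordinates. -/
theorem dn_small (hS : Setting k K D d s) (h : DivF F K D) (v : HeightOneSpectrum (𝓞 k))
    (hv : ∀ ε : ℝ, 0 < ε → ∃ δ : ℝ, 0 < δ ∧ ∀ c : k, ‖algebraMap K F (algebraMap k K c)‖ < δ →
      plAbv (.inl v) c < ε) {M : ℕ} (B : Module.Basis (Fin M) k D)
    {ε : ℝ} (hε : 0 < ε) : ∃ δ : ℝ, 0 < δ ∧ ∀ x : D, cvF F K x < δ → cvF F K (star x) < δ →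
      nm B (.inl v) x < ε := by
  have := hS.fin
  choose A hA hAb using fun i => form_bound (F := F) hS h (B.coord i)
  obtain ⟨δ, hδ, hδ1⟩ := hv (ε / (M + 1)) (by positivity)
  obtain ⟨Z, hZ⟩ : ∃ Z, Z = ∑ i, A i + 1 := ⟨_, rfl⟩
  have hsA := Finset.sum_nonneg fun (j : Fin M) (_ : j ∈ Finset.univ) => (hA j).le
  have hZ0 : 0 < Z := by rw [hZ]; linarith
  refine ⟨δ / (2 * Z), by positivity, fun x h1 h2 => ?_⟩
  have h3 : ∀ i, plAbv (.inl v) (B.repr x i) ≤ ε / (M + 1) := fun i => by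
    refine (hδ1 _ ?_).le
    refine (hAb i x).trans_lt ?_
    have h4 : A i ≤ Z := by
      have := Finset.single_le_sum (f := A) (fun j _ => (hA j).le) (Finset.mem_univ i)
      rw [hZ]
      linarith
    have h5 : cvF F K x + cvF F K (star x) < δ / Z := by
      have : δ / Z = δ / (2 * Z) + δ / (2 * Z) := by field_simp; norm_num
      rw [this]
      exact add_lt_add h1 h2
    have h6 : 0 ≤ cvF F K x + cvF F K (star x) := add_nonneg (cvF_nonneg _) (cvF_nonneg _)
    calc A i * (cvF F K x + cvF F K (star x)) ≤ Z * (cvF F K x + cvF F K (star x)) :=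
          mul_le_mul_of_nonneg_right h4 h6
      _ < Z * (δ / Z) := mul_lt_mul_of_pos_left h5 hZ0
      _ = δ := by field_simp
  have h4 : nm B (.inl v) x ≤ ∑ _i : Fin M, ε / (M + 1) := Finset.sum_le_sum fun i _ => h3 i
  rw [Finset.sum_const, Finset.card_univ, Fintype.card_fin, nsmul_eq_mul] at h4
  refine h4.trans_lt ?_
  rw [mul_div_assoc', div_lt_iff₀ (by positivity)]
  nlinarith

/-- Elements with small coordinates are small for the canonical absolute value. -/
theorem cv_small (hS : Setting k K D d s) (h : DivF F K D) (v : HeightOneSpectrum (𝓞 k))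
    (hv : ∀ ε : ℝ, 0 < ε → ∃ δ : ℝ, 0 < δ ∧ ∀ c : k, plAbv (.inl v) c < δ →
      ‖algebraMap K F (algebraMap k K c)‖ < ε) {M : ℕ} (B : Module.Basis (Fin M) k D)
    {ε : ℝ} (hε : 0 < ε) : ∃ δ : ℝ, 0 < δ ∧ ∀ x : D, nm B (.inl v) x < δ → cvF F K x < ε := by
  classical
  have := hS.fin
  obtain ⟨Z, hZ⟩ : ∃ Z, Z = ∑ i, cvF F K (B i) + 1 := ⟨_, rfl⟩
  have hsA := Finset.sum_nonneg fun (j : Fin M) (_ : j ∈ Finset.univ) =>
    cvF_nonneg (F := F) (K := K) (B j)
  have hZ0 : 0 < Z := by rw [hZ]; linarith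
  obtain ⟨δ, hδ, hδ1⟩ := hv (ε / (2 * Z)) (by positivity)
  refine ⟨δ, hδ, fun x hx => ?_⟩
  have h1 : cvF F K x ≤ ε / 2 := by
    conv_lhs => rw [← B.sum_repr x]
    refine cvF_sum h _ _ (by positivity) fun i _ => ?_
    have e1 : cvF F K (B.repr x i • B i) =
        ‖algebraMap K F (algebraMap k K (B.repr x i))‖ * cvF F K (B i) := by
      rw [Algebra.smul_def, IsScalarTower.algebraMap_apply k K D, cvF_mul, cvF_alg]
    have e2 : plAbv (.inl v) (B.repr x i) < δ :=
      (Finset.single_le_sum (f := fun i => plAbv (.inl v) (B.repr x i))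
        (fun _ _ => AbsoluteValue.nonneg _ _) (Finset.mem_univ i)).trans_lt hx
    have e3 : cvF F K (B i) ≤ Z := by
      have := Finset.single_le_sum (f := fun i => cvF F K (B i))
        (fun j _ => cvF_nonneg (F := F) (K := K) (B j)) (Finset.mem_univ i)
      rw [hZ]
      linarith
    rw [e1]
    calc _ ≤ ε / (2 * Z) * Z := mul_le_mul (hδ1 _ e2).le e3 (cvF_nonneg _) (by positivity)
      _ = ε / 2 := by field_simp
  linarith

theorem cvF_star_sub (hS : Setting k K D d s) (h : DivF F K D) {g : D} (hg : g * star g = 1)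
    (hlt : cvF F K (g - 1) < 1) : cvF F K (star (g - 1)) = cvF F K (g - 1) := by
  have := hS.fin
  have hg0 : g ≠ 0 := by
    rintro rfl
    rw [zero_mul] at hg
    exact zero_ne_one hg
  have hg1 : cvF F K g = 1 := by
    rw [cvF_eq_of_lt h (y := 1) (by rw [cvF_one]; exact hlt), cvF_one]
  have hsg : star g = g⁻¹ := eq_inv_of_mul_eq_one_right hg
  have e2 : star (g - 1) = -(g⁻¹ * (g - 1)) := by
    rw [star_sub, star_one, hsg, mul_sub, inv_mul_cancel₀ hg0, mul_one, neg_sub]
  have e3 : cvF F K g⁻¹ = 1 := by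
    have e4 := cvF_mul (F := F) (K := K) g g⁻¹
    rw [mul_inv_cancel₀ hg0, cvF_one, hg1, one_mul] at e4
    exact e4.symm
  rw [e2, cvF_neg, cvF_mul, e3, one_mul]

/-- Unitary elements: closeness to one for the canonical absolute value. -/
theorem dn_unitary (hS : Setting k K D d s) (h : DivF F K D) (v : HeightOneSpectrum (𝓞 k))
    (hv : ∀ ε : ℝ, 0 < ε → ∃ δ : ℝ, 0 < δ ∧ ∀ c : k, ‖algebraMap K F (algebraMap k K c)‖ < δ →
      plAbv (.inl v) c < ε) {M : ℕ} (B : Module.Basis (Fin M) k D)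
    {ε : ℝ} (hε : 0 < ε) : ∃ δ : ℝ, 0 < δ ∧ ∀ g : D, g * star g = 1 → cvF F K (g - 1) < δ →
      nm B (.inl v) (g - 1) < ε := by
  obtain ⟨δ, hδ, hb⟩ := dn_small hS h v hv B hε
  refine ⟨min 1 δ, lt_min one_pos hδ, fun g hg hlt => ?_⟩
  rw [lt_min_iff] at hlt
  exact hb _ hlt.2 (by rw [cvF_star_sub hS h hg hlt.1]; exact hlt.2)

/-- The canonical absolute value in terms of the reduced norm. -/
theorem cvF_det (hS : Setting k K D d s) {n : ℕ} (hn : 0 < n) (hdeg : finrank K D = n ^ 2)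
    {Ω : Type} [Field Ω] [Algebra K Ω] (f : D →ₐ[K] Matrix (Fin n) (Fin n) Ω) {x : D} {ρ : K}
    (hρ : (f x).det = algebraMap K Ω ρ) :
    cvF F K x = ‖algebraMap K F ρ‖ ^ (1 / (n : ℝ)) := by
  have := hS.fin
  have := hS.cen
  have h1 := P011S.SF.norm_eq_det_pow hn hdeg f x
  rw [hρ, ← map_pow] at h1
  have h2 := (algebraMap K Ω).injective h1
  rw [cvF, h2, map_pow, norm_pow, hdeg, ← Real.rpow_natCast, ← Real.rpow_mul (norm_nonneg _)]
  congr 1
  have : (n : ℝ) ≠ 0 := by positivity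
  push_cast
  field_simp

end setting

section places

open Vale.Agent.P011.W (HasNrd)

variable {k K D : Type} [Field k] [NumberField k] [Field K] [NumberField K] [StarRing K]
    [DivisionRing D] [StarRing D] [Algebra k K] [Algebra k D] [Algebra K D] [IsScalarTower k K D]
    {d : kˣ} {s : K}

theorem exists_gamma (v : HeightOneSpectrum (𝓞 k)) {ε : ℝ} (hε : 0 < ε) :
    ∃ γ : Z0, γ ≠ 0 ∧ ∀ y : k, v.valuation k y < γ → plAbv (.inl v) y < ε := by
  let _ := nnf v
  obtain ⟨z, hz0, hz⟩ := NormedField.exists_norm_lt (v.adicCompletion k) hε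
  refine ⟨Valued.v z, fun h => ?_, fun y hy => ?_⟩
  · rw [norm_pos_iff] at hz0
    exact hz0 ((map_eq_zero _).mp h)
  · rw [← norm_algebraMap_eq]
    refine lt_trans ?_ hz
    rwa [norm_lt_iff, valued_alg]

theorem exists_delta (v : HeightOneSpectrum (𝓞 k)) {γ : Z0} (hγ : γ ≠ 0) :
    ∃ δ : ℝ, 0 < δ ∧ ∀ y : k, plAbv (.inl v) y < δ → v.valuation k y < γ := by
  obtain ⟨δ, hδ, h⟩ := exists_radius v γ hγ
  exact ⟨δ, hδ, fun y hy => h y (by rwa [norm_algebraMap_eq])⟩

theorem above_down {w : HeightOneSpectrum (𝓞 K)} {v : HeightOneSpectrum (𝓞 k)} (hw : Ab w v)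
    (ε : ℝ) (hε : 0 < ε) : ∃ δ : ℝ, 0 < δ ∧ ∀ c : k,
      ‖algebraMap K (w.adicCompletion K) (algebraMap k K c)‖ < δ → plAbv (.inl v) c < ε := by
  obtain ⟨e, he, hv⟩ := val_above hw
  obtain ⟨γ, hγ, h1⟩ := exists_gamma v hε
  obtain ⟨δ, hδ, h2⟩ := exists_radius w (γ ^ e) (pow_ne_zero e hγ)
  refine ⟨δ, hδ, fun c hc => h1 c ?_⟩
  have h3 := h2 _ hc
  rw [hv] at h3
  exact lt_of_pow_lt_pow_left₀ e zero_le h3

theorem above_up {w : HeightOneSpectrum (𝓞 K)} {v : HeightOneSpectrum (𝓞 k)} (hw : Ab w v)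
    (ε : ℝ) (hε : 0 < ε) : ∃ δ : ℝ, 0 < δ ∧ ∀ c : k, plAbv (.inl v) c < δ →
      ‖algebraMap K (w.adicCompletion K) (algebraMap k K c)‖ < ε := by
  obtain ⟨e, he, hv⟩ := val_above hw
  obtain ⟨γ, hγ, h1⟩ := exists_gamma w hε
  obtain ⟨δ, hδ, h2⟩ := exists_delta v (γ := min γ 1) (by
    rcases min_choice γ 1 with h | h <;> rw [h]
    · exact hγ
    · exact one_ne_zero)
  refine ⟨δ, hδ, fun c hc => ?_⟩
  rw [norm_algebraMap_eq]
  refine h1 _ ?_
  have h3 := lt_min_iff.mp (h2 c hc)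
  rw [hv]
  exact (pow_le_of_le_one zero_le h3.2.le he).trans_lt h3.1

/-- The absolute value of `D` at a finite place of `K` where `D` stays a division algebra. -/
theorem exists_av (hS : Setting k K D d s) {n : ℕ} (hdeg : finrank K D = n ^ 2)
    (w : HeightOneSpectrum (𝓞 K)) (hdiv : ∀ x : w.adicCompletion K ⊗[K] D, x ≠ 0 → IsUnit x) :
    ∃ A : AbsoluteValue D ℝ, (∀ x y, A (x + y) ≤ max (A x) (A y)) ∧
      (∀ c : K, A (algebraMap K D c) = plAbv (.inl w) c) ∧
      (∀ x ρ, HasNrd K n x ρ → A x ^ n = plAbv (.inl w) ρ) ∧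
      (∀ x y : D, A (x - y) < A y → A x = A y) ∧
      (∀ g : D, g * star g = 1 → A (g - 1) < 1 → A (star (g - 1)) = A (g - 1)) ∧
      ∀ v : HeightOneSpectrum (𝓞 k), Ab w v → ∀ (M : ℕ) (B : Module.Basis (Fin M) k D),
        (∀ ε : ℝ, 0 < ε → ∃ δ : ℝ, 0 < δ ∧ ∀ x : D, A x < δ → A (star x) < δ →
          nm B (.inl v) x < ε) ∧
        (∀ ε : ℝ, 0 < ε → ∃ δ : ℝ, 0 < δ ∧ ∀ g : D, g * star g = 1 → A (g - 1) < δ →
          nm B (.inl v) (g - 1) < ε) ∧
        (∀ ε : ℝ, 0 < ε → ∃ δ : ℝ, 0 < δ ∧ ∀ x : D, nm B (.inl v) x < δ → A x < ε) := by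
  have := hS.fin
  have := hS.cen
  have hn : 0 < n := W.deg_pos hdeg
  let _ := nnf w
  have := isUltra w
  have h : DivF (w.adicCompletion K) K D := hdiv
  refine ⟨AvF h, cvF_add h, fun c => ?_, fun x ρ hρ => ?_, fun x y hxy => cvF_eq_of_lt h hxy,
    fun g hg hlt => cvF_star_sub hS h hg hlt, fun v hwv M B => ⟨fun ε hε => ?_, fun ε hε => ?_,
    fun ε hε => ?_⟩⟩
  · exact (cvF_alg c).trans (norm_algebraMap_eq w c)
  · obtain ⟨g⟩ := P011S.exists_split (K := K) (D := D) hdeg (AlgebraicClosure K)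
    have h1 := cvF_det (F := w.adicCompletion K) hS hn hdeg g (hρ _ g)
    change cvF (w.adicCompletion K) K x ^ n = _
    rw [h1, ← Real.rpow_natCast, ← Real.rpow_mul (norm_nonneg _), norm_algebraMap_eq w ρ]
    have h2 : (1 / (n : ℝ)) * (n : ℝ) = 1 := by
      have : (n : ℝ) ≠ 0 := by positivity
      field_simp
    rw [h2, Real.rpow_one]
  · exact dn_small hS h v (above_down hwv) B hε
  · exact dn_unitary hS h v (above_down hwv) B hε
  · exact cv_small hS h v (above_up hwv) B hε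

/-- Closeness to one of a unitary element through its reduced norm. -/
theorem dn_nrd (hS : Setting k K D d s) {n : ℕ} (hdeg : finrank K D = n ^ 2)
    {w : HeightOneSpectrum (𝓞 K)} (hdiv : ∀ x : w.adicCompletion K ⊗[K] D, x ≠ 0 → IsUnit x)
    {v : HeightOneSpectrum (𝓞 k)} (hwv : Ab w v) {M : ℕ} (B : Module.Basis (Fin M) k D)
    {ε : ℝ} (hε : 0 < ε) : ∃ γ : Z0, γ ≠ 0 ∧ ∀ g : D, g * star g = 1 → ∀ ρ : K,
      HasNrd K n (g - 1) ρ → w.valuation K ρ < γ → nm B (.inl v) (g - 1) < ε := by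
  have := hS.fin
  have := hS.cen
  have hn : 0 < n := W.deg_pos hdeg
  obtain ⟨A, -, -, hA, -, -, hB⟩ := exists_av hS hdeg w hdiv
  obtain ⟨δ, hδ, h1⟩ := (hB v hwv M B).2.1 ε hε
  obtain ⟨γ, hγ, h2⟩ := exists_gamma w (ε := δ ^ n) (by positivity)
  refine ⟨γ, hγ, fun g hg ρ hρ hlt => h1 g hg ?_⟩
  have h3 := h2 ρ hlt
  rw [← hA _ _ hρ] at h3
  exact lt_of_pow_lt_pow_left₀ n hδ.le h3

/-- The converse. -/
theorem nrd_small (hS : Setting k K D d s) {n : ℕ} (hdeg : finrank K D = n ^ 2)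
    {w : HeightOneSpectrum (𝓞 K)} (hdiv : ∀ x : w.adicCompletion K ⊗[K] D, x ≠ 0 → IsUnit x)
    {v : HeightOneSpectrum (𝓞 k)} (hwv : Ab w v) {M : ℕ} (B : Module.Basis (Fin M) k D)
    {γ : Z0} (hγ : γ ≠ 0) : ∃ δ : ℝ, 0 < δ ∧ ∀ x : D, nm B (.inl v) x < δ → ∀ ρ : K,
      HasNrd K n x ρ → w.valuation K ρ < γ := by
  have := hS.fin
  have := hS.cen
  have hn : 0 < n := W.deg_pos hdeg
  obtain ⟨A, -, -, hA, -, -, hB⟩ := exists_av hS hdeg w hdiv
  obtain ⟨ε, hε, h1⟩ := exists_delta w hγ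
  obtain ⟨δ, hδ, h2⟩ := (hB v hwv M B).2.2 (min 1 ε) (lt_min one_pos hε)
  refine ⟨δ, hδ, fun x hx ρ hρ => h1 ρ ?_⟩
  have h3 := lt_min_iff.mp (h2 x hx)
  rw [← hA _ _ hρ]
  exact (pow_le_of_le_one (A.nonneg x) h3.1.le hn.ne').trans_lt h3.2

end places

end Vale.Agent.P011.Pow
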