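import Vale.Agent.P011.Pow.CentT
import Vale.Agent.P011.Even.LocModel

/-!
Symmetric square roots: the glue.
-/

open NumberField IsDedekindDomain Polynomial Module TensorProduct

set_option linter.unusedSectionVars false

namespace Vale.Agent.P011.Pow

open Vale.Agent.P011.Arith Vale.Agent.P011.Even Vale.Agent.P011.Two Vale.Agent.P011.One

variable {k K D : Type} [Field k] [NumberField k] [Field K] [NumberField K] [StarRing K]
  [DivisionRing D] [StarRing D] [Algebra k K] [Algebra k D] [Algebra K D] [IsScalarTower k K D]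
  {d : kˣ} {s : K}

/-- A ring containing a matrix ring has nonzero elements which are not units. -/
theorem not_div_of_matrix {L X : Type} [Field L] [Ring X] [Nontrivial X] {n : ℕ} (hn : 2 ≤ n)
    (Φ : Matrix (Fin n) (Fin n) L →+* X) : ¬ ∀ x : X, x ≠ 0 → IsUnit x := by
  intro hdiv
  let i₀ : Fin n := ⟨0, by omega⟩
  let i₁ : Fin n := ⟨1, by omega⟩
  have hne : i₁ ≠ i₀ := fun h => absurd (congrArg Fin.val h) one_ne_zero
  have hE : Φ (Matrix.single i₀ i₁ 1) = 0 := by
    by_contra h
    have h1 := hdiv _ h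
    apply h
    have h2 : Φ (Matrix.single i₀ i₁ 1) * Φ (Matrix.single i₀ i₁ 1) = 0 := by
      rw [← map_mul, Matrix.single_mul_single_of_ne _ _ _ _ hne, map_zero]
    exact (h1.mul_right_eq_zero).mp h2
  have h3 : ∀ i : Fin n, Φ (Matrix.single i i 1) = 0 := by
    intro i
    have h4 : (Matrix.single i i (1 : L)) =
        Matrix.single i i₀ 1 * Matrix.single i₀ i₁ 1 * Matrix.single i₁ i 1 := by
      rw [Matrix.single_mul_single_same, Matrix.single_mul_single_same, one_mul, one_mul]
    rw [h4, map_mul, map_mul, hE, mul_zero, zero_mul]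
  have h5 : (1 : Matrix (Fin n) (Fin n) L) = ∑ i, Matrix.single i i 1 := by
    ext a b
    rw [Matrix.sum_apply, Matrix.one_apply]
    simp only [Matrix.single_apply]
    by_cases hab : a = b
    · subst hab
      simp
    · rw [if_neg hab]
      symm
      apply Finset.sum_eq_zero
      intro i _
      rw [if_neg]
      rintro ⟨rfl, rfl⟩
      exact hab rfl
  have h6 : (1 : X) = 0 := by
    rw [← map_one Φ, h5, map_sum]
    exact Finset.sum_eq_zero fun i _ => h3 i
  exact one_ne_zero h6

/-- At a place above a nonsplit place the algebra is not a division algebra. -/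
theorem not_div_nonsplit (hS : Setting k K D d s) {n : ℕ} (hn : 2 ≤ n)
    (hdeg : finrank K D = n ^ 2) {v : HeightOneSpectrum (𝓞 k)} (hv : d ∉ LS (v.valuation k))
    {w : HeightOneSpectrum (𝓞 K)}
    (hw : w.asIdeal.comap (algebraMap (𝓞 k) (𝓞 K)) = v.asIdeal) :
    ¬ ∀ x : w.adicCompletion K ⊗[K] D, x ≠ 0 → IsUnit x := by
  have := hS.fin
  obtain ⟨L, _, _, _, ρ, -⟩ := exists_local_model hS hdeg v hv
  obtain ⟨g, -, hg⟩ := completion_map_cont hw
  have hnt : Nontrivial (w.adicCompletion K ⊗[K] D) := by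
    apply Module.nontrivial_of_finrank_pos (R := w.adicCompletion K)
    rw [Module.finrank_baseChange, hdeg]
    positivity
  obtain ⟨Θ, -⟩ := exists_lift_ring (K := k) (A := v.adicCompletion k) (B := D)
    (X := w.adicCompletion K ⊗[K] D)
    ((algebraMap (w.adicCompletion K) (w.adicCompletion K ⊗[K] D)).comp g)
    ((Algebra.TensorProduct.includeRight : D →ₐ[K] w.adicCompletion K ⊗[K] D) :
      D →+* w.adicCompletion K ⊗[K] D)
    (fun c => by
      rw [RingHom.comp_apply, hg, IsScalarTower.algebraMap_apply k K D]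
      exact ((IsScalarTower.algebraMap_apply K (w.adicCompletion K)
        (w.adicCompletion K ⊗[K] D) _).symm.trans
        ((Algebra.TensorProduct.includeRight : D →ₐ[K] w.adicCompletion K ⊗[K] D).commutes
          _).symm))
    (fun c x => Algebra.commutes (g (algebraMap k _ c)) x)
    (fun a b => Algebra.commutes (g a) _)
  exact not_div_of_matrix hn (Θ.comp (ρ.symm : Matrix (Fin n) (Fin n) L →+* _))

/-- Nonsquares at split places. -/
theorem not_isSquare_split (hS : Setting k K D d s) {v : HeightOneSpectrum (𝓞 k)}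
    (hv : d ∈ LS (v.valuation k)) {w : HeightOneSpectrum (𝓞 K)}
    (hw : w.asIdeal.comap (algebraMap (𝓞 k) (𝓞 K)) = v.asIdeal) {a : kˣ}
    (ha : a ∉ LS (v.valuation k)) :
    ¬ IsSquare (algebraMap K (w.adicCompletion K) (algebraMap k K a)) := by
  intro h
  apply ha
  refine ls_below (L := K) (T := s) (a := d) (by rw [← pow_two, hS.sq]) ?_ hv hw
    ((isSquare_iff w (inc k K a)).mp h)
  exact fun l => exists_coord hS l

/-- The glue: square roots in `D` and symmetric square roots. -/
theorem exists_sym_sqrt_of (hS : Setting k K D d s) {n : ℕ} (hn : 2 ≤ n)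
    (hdeg : finrank K D = n ^ 2)
    (h1 : ∀ a : K, (∀ w : HeightOneSpectrum (𝓞 K),
      (∀ x : w.adicCompletion K ⊗[K] D, x ≠ 0 → IsUnit x) →
        ¬ IsSquare (algebraMap K (w.adicCompletion K) a)) → ∃ x : D, x * x = algebraMap K D a)
    {S : Set (HeightOneSpectrum (𝓞 k))}
    (h2 : ∀ (a : kˣ) (x : D), x * x = algebraMap k D a → ¬ IsSquare (a : k) →
      ¬ IsSquare ((a * d : kˣ) : k) → (∀ φ : k →+* ℝ, φ d < 0 → 0 < φ a) →
      (∀ v ∈ S, d ∉ LS (v.valuation k) → a * d ∉ LS (v.valuation k)) → ∃ σ, σ ∈ Xa D a)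
    (a : kˣ) (ha : ¬ IsSquare (a : k)) (had : ¬ IsSquare ((a * d : kˣ) : k))
    (hreal : ∀ φ : k →+* ℝ, φ d < 0 → 0 < φ a)
    (hSa : ∀ v ∈ S, d ∉ LS (v.valuation k) → a * d ∉ LS (v.valuation k))
    (hT : ∀ v : HeightOneSpectrum (𝓞 k), (Sum.inl v : Pl k) ∈ Tdiv k K D →
      a ∉ LS (v.valuation k)) :
    ∃ σ, σ ∈ Xa D a := by
  have := hS.fin
  obtain ⟨x, hx⟩ := h1 (algebraMap k K a) (by
    intro w hdiv
    obtain ⟨v, hv⟩ := exists_below (F := k) w
    by_cases hd : d ∈ LS (v.valuation k)
    · exact not_isSquare_split hS hd hv (hT v (tdiv_of_div hS hd hv hdiv))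
    · exact absurd hdiv (not_div_nonsplit hS hn hdeg hd hv))
  exact h2 a x (by rw [hx, ← IsScalarTower.algebraMap_apply]) ha had hreal hSa

end Vale.Agent.P011.Pow
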