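import Vale.Agent.P011.One.AbY
import Vale.Agent.P011.Pow.ExSymSqrt

/-!
The choice of the first square root in the induction on the degree.
-/

open NumberField IsDedekindDomain Module TensorProduct

namespace Vale.Agent.P011.Pow

open Vale.Agent.P011.Arith Vale.Agent.P011.Even Vale.Agent.P011.One

variable {k : Type} [Field k] [NumberField k]

theorem not_isSquare_of_LS {a : kˣ} {v : HeightOneSpectrum (𝓞 k)} (h : a ∉ LS (v.valuation k)) :
    ¬ IsSquare (a : k) := by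
  rintro ⟨c, hc⟩
  apply h
  have hc0 : c ≠ 0 := by
    rintro rfl
    rw [mul_zero] at hc
    exact a.ne_zero hc
  have h1 : a = Units.mk0 c hc0 ^ 2 := Units.ext (by rw [hc, Units.val_pow_eq_pow_val,
    Units.val_mk0, pow_two])
  rw [h1]
  exact sq_mem_LS _

/-- A number with prescribed classes. -/
theorem exists_num (d : kˣ) {S : Set (HeightOneSpectrum (𝓞 k))}
    (hS : S.Finite) :
    ∃ a : kˣ, ¬ IsSquare (a : k) ∧ ¬ IsSquare ((a * d : kˣ) : k) ∧
      (∀ v ∈ S, a ∉ LS (v.valuation k) ∧ a * d ∉ LS (v.valuation k)) ∧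
      (∀ φ : k →+* ℝ, φ d < 0 → 0 < φ a) ∧ ∀ φ : k →+* ℝ, 0 < φ d → φ a < 0 := by
  classical
  obtain ⟨v₁⟩ := nonempty_prime (F := k)
  choose u hu hu' using fun v : HeightOneSpectrum (𝓞 k) => exists_class v d
  obtain ⟨a, h1, h2⟩ := weak_approx (hS.insert v₁).toFinset u
    (fun φ => if φ d < 0 then 1 else -1)
  have h3 : ∀ v ∈ insert v₁ S, a ∉ LS (v.valuation k) ∧ a * d ∉ LS (v.valuation k) := by
    intro v hv
    have h4 := h1 v ((Set.Finite.mem_toFinset _).mpr hv)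
    constructor
    · intro h
      have h5 := Subgroup.mul_mem _ (Subgroup.inv_mem _ h4) h
      rw [inv_div, div_mul_cancel] at h5
      exact hu v h5
    · intro h
      have h5 := Subgroup.mul_mem _ (Subgroup.inv_mem _ h4) h
      rw [inv_div, ← mul_assoc, div_mul_cancel, mul_comm] at h5
      exact hu' v h5
  have h4 := h3 v₁ (Set.mem_insert _ _)
  refine ⟨a, not_isSquare_of_LS h4.1, not_isSquare_of_LS h4.2,
    fun v hv => h3 v (Set.mem_insert_of_mem _ hv), ?_, ?_⟩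
  · intro φ hφ
    have := h2 φ
    rw [if_pos hφ] at this
    simpa using this
  · intro φ hφ
    have := h2 φ
    rw [if_neg hφ.not_gt] at this
    simpa using this

/-- The first square root. -/
theorem exists_base_of {K D : Type} [Field K] [NumberField K] [StarRing K]
    [DivisionRing D] [StarRing D] [Algebra k K] [Algebra k D] [Algebra K D] [IsScalarTower k K D]
    {d : kˣ} {s : K} (hS : Setting k K D d s) {n : ℕ} (hn : 2 ≤ n) (hdeg : finrank K D = n ^ 2)
    (h1 : ∀ a : K, (∀ w : HeightOneSpectrum (𝓞 K),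
      (∀ x : w.adicCompletion K ⊗[K] D, x ≠ 0 → IsUnit x) →
        ¬ IsSquare (algebraMap K (w.adicCompletion K) a)) → ∃ x : D, x * x = algebraMap K D a)
    {S : Set (HeightOneSpectrum (𝓞 k))} (hSf : S.Finite)
    (h2 : ∀ (a : kˣ) (x : D), x * x = algebraMap k D a → ¬ IsSquare (a : k) →
      ¬ IsSquare ((a * d : kˣ) : k) → (∀ φ : k →+* ℝ, φ d < 0 → 0 < φ a) →
      (∀ v ∈ S, d ∉ LS (v.valuation k) → a * d ∉ LS (v.valuation k)) → ∃ σ, σ ∈ Xa D a)
    {R : Set (HeightOneSpectrum (𝓞 k))} (hR : R.Finite) :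
    ∃ (a : kˣ) (t : D), t ∈ Xa D a ∧ ¬ IsSquare (a : k) ∧ ¬ IsSquare ((a * d : kˣ) : k) ∧
      (∀ v ∈ R ∪ Ram k K D n, a ∉ LS (v.valuation k) ∧ a * d ∉ LS (v.valuation k)) ∧
      (∀ φ : k →+* ℝ, φ d < 0 → 0 < φ a) ∧ ∀ φ : k →+* ℝ, 0 < φ d → φ a < 0 := by
  have := hS.fin
  have := hS.cen
  obtain ⟨a, ha, had, h3, h4, h5⟩ := exists_num d
    ((hR.union (ram_finite (k := k) (K := K) (D := D) (by omega) hdeg)).union hSf)
  obtain ⟨t, ht⟩ := exists_sym_sqrt_of hS hn hdeg h1 h2 a ha had h4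
    (fun v hv _ => (h3 v (Or.inr hv)).2)
    (fun v hv => (h3 v (Or.inl (Or.inr (tdiv_ram hn hdeg hv)))).1)
  exact ⟨a, t, ht, ha, had, fun v hv => h3 v (Or.inl hv), h4, h5⟩

end Vale.Agent.P011.Pow
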