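import Vale.Agent.P011.Pow.LQb

/-!
A local central division algebra of even degree does not stay division over a quadratic extension.
-/

open Module TensorProduct

namespace Vale.Agent.P011.Pow

open Vale.Agent.P011.Even.LocDiv Vale.Agent.P011.W

section

variable (k : Type) [NontriviallyNormedField k]

theorem nm_algHom {E E' : Type} [DivisionRing E] [Algebra k E] [FiniteDimensional k E]
    [DivisionRing E'] [Algebra k E'] [FiniteDimensional k E'] (f : E →ₐ[k] E') (x : E) :
    nm k (f x) = nm k x := by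
  rw [nm_eq_coeff, nm_eq_coeff, minpoly.algHom_eq f f.toRingHom.injective]

end

theorem exists_conj {R R' : Type} [Field R] [CharZero R] [Field R'] [Algebra R R']
    (hR' : finrank R R' = 2) : ∃ (τ : R' →ₐ[R] R') (z : R') (a : R), (∀ x, τ (τ x) = x) ∧
      z ≠ 0 ∧ τ z = -z ∧ z * z = algebraMap R R' a := by
  classical
  have hfd : FiniteDimensional R R' := Module.finite_of_finrank_pos (by rw [hR']; norm_num)
  have hq : Algebra.IsQuadraticExtension R R' := ⟨hR'⟩
  have hg : IsGalois R R' := inferInstance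
  have hc : Nat.card Gal(R'/R) = 2 := by rw [IsGalois.card_aut_eq_finrank, hR']
  have : Finite Gal(R'/R) := Nat.finite_of_card_ne_zero (by rw [hc]; norm_num)
  have hnt : Nontrivial Gal(R'/R) := Finite.one_lt_card_iff_nontrivial.mp (by rw [hc]; norm_num)
  obtain ⟨τ, hτ⟩ := exists_ne (1 : Gal(R'/R))
  have h2 : τ ^ 2 = 1 := by
    rw [← hc]
    exact pow_card_eq_one'
  have h2' : ∀ x, τ (τ x) = x := by
    intro x
    rw [← AlgEquiv.mul_apply, ← pow_two, h2]
    rfl
  obtain ⟨y, hy⟩ : ∃ y, τ y ≠ y := by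
    by_contra hcon
    push Not at hcon
    exact hτ (AlgEquiv.ext hcon)
  obtain ⟨a, ha⟩ : ∃ a, algebraMap R R' a = (y - τ y) * (y - τ y) := by
    have h3 : (y - τ y) * (y - τ y) ∈ (⊥ : IntermediateField R R') := by
      rw [IsGalois.mem_bot_iff_fixed]
      intro g
      have h4 : g = 1 ∨ g = τ := by
        by_contra hcon
        push Not at hcon
        have h5 : ({1, τ, g} : Finset Gal(R'/R)).card = 3 :=
          Finset.card_eq_three.mpr ⟨1, τ, g, hτ.symm, hcon.1.symm, hcon.2.symm, rfl⟩
        have : Fintype Gal(R'/R) := Fintype.ofFinite _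
        have h6 := Finset.card_le_univ ({1, τ, g} : Finset Gal(R'/R))
        rw [h5, ← Nat.card_eq_fintype_card, hc] at h6
        omega
      rcases h4 with rfl | rfl
      · rfl
      · rw [map_mul, map_sub, h2']
        ring
    obtain ⟨a, ha⟩ := IntermediateField.mem_bot.mp h3
    exact ⟨a, ha⟩
  refine ⟨τ, y - τ y, a, h2', sub_ne_zero.mpr hy.symm, ?_, ha.symm⟩
  change τ (y - τ y) = _
  rw [map_sub, h2']
  ring

/-- A local central division algebra of even degree does not stay division over a quadratic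
extension. -/
theorem lq {R : Type} [NontriviallyNormedField R] [IsUltrametricDist R] [ProperSpace R]
    [CharZero R] {Δ : Type} [DivisionRing Δ] [Algebra R Δ] [FiniteDimensional R Δ]
    [Algebra.IsCentral R Δ] {q : ℕ} (hq : finrank R Δ = q ^ 2) (h2 : Even q) {R' : Type}
    [Field R'] [Algebra R R'] (hR' : finrank R R' = 2) :
    ∃ x : R' ⊗[R] Δ, x ≠ 0 ∧ ¬ IsUnit x := by
  by_contra hcon
  push Not at hcon
  obtain ⟨h, rfl⟩ := h2
  rw [← two_mul] at hq
  have hh : 0 < h := by
    rcases Nat.eq_zero_or_pos h with rfl | h0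
    · have h1 : 0 < finrank R Δ := Module.finrank_pos
      rw [hq] at h1
      simp at h1
    · exact h0
  have hfd : FiniteDimensional R R' := Module.finite_of_finrank_pos (by rw [hR']; norm_num)
  have hnt : Nontrivial (R' ⊗[R] Δ) := inferInstance
  let _ : DivisionRing (R' ⊗[R] Δ) := DivisionRing.ofIsUnitOrEqZero fun x => by
    by_cases hx : x = 0
    · exact Or.inr hx
    · exact Or.inl (hcon x hx)
  have hfdA : FiniteDimensional R (R' ⊗[R] Δ) := inferInstance
  obtain ⟨τ, z, a, hτ, hz0, hτz, hza⟩ := exists_conj hR'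
  let _ : NormedDivisionRing Δ := ndr R
  let _ : NormedAlgebra R Δ :=
    { (inferInstance : Algebra R Δ) with
      norm_smul_le := fun c x => by
        change nm R (c • x) ≤ ‖c‖ * nm R x
        rw [Algebra.smul_def, nm_mul, nm_algebraMap] }
  have hUΔ : IsUltrametricDist Δ :=
    IsUltrametricDist.isUltrametricDist_of_forall_norm_add_le_max_norm
      (fun x y => nm_add_le_max R x y)
  let _ : NormedDivisionRing (R' ⊗[R] Δ) := ndr R
  let _ : NormedAlgebra R (R' ⊗[R] Δ) :=
    { (inferInstance : Algebra R (R' ⊗[R] Δ)) with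
      norm_smul_le := fun c x => by
        change nm R (c • x) ≤ ‖c‖ * nm R x
        rw [Algebra.smul_def, nm_mul, nm_algebraMap] }
  have hUA : IsUltrametricDist (R' ⊗[R] Δ) :=
    IsUltrametricDist.isUltrametricDist_of_forall_norm_add_le_max_norm
      (fun x y => nm_add_le_max R x y)
  let i : Δ →ₐ[R] R' ⊗[R] Δ := Algebra.TensorProduct.includeRight
  let σ : R' ⊗[R] Δ →ₐ[R] R' ⊗[R] Δ := Algebra.TensorProduct.map τ (AlgHom.id R Δ)
  have hσt : ∀ (x : R') (y : Δ), σ (x ⊗ₜ y) = τ x ⊗ₜ y := fun x y => rfl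
  refine LQ.lq_core (R := R) (A := R' ⊗[R] Δ) (Δ := Δ) i (fun x => nm_algHom R i x) σ
    (fun x => nm_algHom R σ x) ?_ (fun x => ?_) (z := z ⊗ₜ 1) ?_ ?_ ?_ (a := a) ?_ hh hq
  · intro x
    induction x using TensorProduct.induction_on with
    | zero => rw [map_zero, map_zero]
    | tmul x y => rw [hσt, hσt, hτ]
    | add x y hx hy => rw [map_add, map_add, hx, hy]
  · change σ (1 ⊗ₜ x) = 1 ⊗ₜ x
    rw [hσt, map_one]
  · intro h0
    have h1 : Function.Injective (fun y : R' => y ⊗ₜ[R] (1 : Δ)) := by
      have : Function.Injective (Algebra.TensorProduct.includeLeft : R' →ₐ[R] R' ⊗[R] Δ) :=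
        Algebra.TensorProduct.includeLeft_injective (algebraMap R Δ).injective
      exact this
    apply hz0
    apply h1
    simp only
    rw [h0, zero_tmul]
  · intro x
    induction x using TensorProduct.induction_on with
    | zero => rw [mul_zero, zero_mul]
    | tmul x y =>
      rw [Algebra.TensorProduct.tmul_mul_tmul, Algebra.TensorProduct.tmul_mul_tmul, mul_comm,
        one_mul, mul_one]
    | add x y hx hy => rw [mul_add, add_mul, hx, hy]
  · rw [hσt, hτz, neg_tmul]
  · rw [Algebra.TensorProduct.tmul_mul_tmul, hza, one_mul]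
    rw [Algebra.TensorProduct.algebraMap_apply]

end Vale.Agent.P011.Pow
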