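import Vale.Agent.P011.Pow.ExIdx
import Vale.Agent.P011.Pow.LQ

/-!
Square roots in division algebras of degree a power of two.
-/

open NumberField IsDedekindDomain Module TensorProduct

namespace Vale.Agent.P011.Pow

theorem lq_all : LQ := fun _ _ _ _ _ _ _ _ _ _ _ hq h2 _ _ _ hR' => lq hq h2 hR'

/-- (CL) The index is bounded by the local indices. -/
theorem index_dvd' {m : ℕ} {F : Type} [Field F] [NumberField F] {D : Type} [DivisionRing D]
    [Algebra F D] [FiniteDimensional F D] [Algebra.IsCentral F D] {j : ℕ}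
    (hD : finrank F D = (2 ^ j) ^ 2)
    (hloc : ∀ w : HeightOneSpectrum (𝓞 F), Idx D (2 ^ j) (algebraMap F (w.adicCompletion F)) m)
    (hreal : m = 0 → ∀ φ : F →+* ℝ, W.Spl D (2 ^ j) φ) : 2 ^ j ∣ 2 ^ m :=
  index_dvd lq_all m F D j hD hloc hreal

/-- (EX-i) Square roots in a division algebra of degree a power of two. -/
theorem exists_sqrt {F D : Type} [Field F] [NumberField F] [DivisionRing D]
    [Algebra F D] [FiniteDimensional F D] [Algebra.IsCentral F D] {e : ℕ} (he : 2 ≤ e)
    (hD : finrank F D = (2 ^ e) ^ 2) (a : F)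
    (ha : ∀ w : HeightOneSpectrum (𝓞 F), (∀ x : w.adicCompletion F ⊗[F] D, x ≠ 0 → IsUnit x) →
      ¬ IsSquare (algebraMap F (w.adicCompletion F) a)) : ∃ x : D, x * x = algebraMap F D a :=
  exists_sqrt' lq_all he hD a ha

end Vale.Agent.P011.Pow
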