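import Vale.Agent.P011.Two2.Tern
import Vale.Agent.P011.One.Theta

/-!
An element of a quadratic extension with prescribed norm class and signs.
-/

open NumberField IsDedekindDomain

namespace Vale.Agent.P011.Pow

open Vale.Agent.P011.Arith Vale.Agent.P011.Even

/-- An element of `k(√a)`, positive above the real places where `d` is negative, whose norm is in
the class of `ν` modulo the norms from `k(√d)`. -/
theorem exists_mu {k L : Type} [Field k] [NumberField k] [Field L] [NumberField L] [Algebra k L]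
    {d a ν : kˣ} (hd : ¬ IsSquare (d : k)) (ha : ¬ IsSquare (a : k)) {T : L}
    (hT : T * T = algebraMap k L a) (hrk : Module.finrank k L = 2)
    (hfin : ∀ v : HeightOneSpectrum (𝓞 k), a * d ∈ LS (v.valuation k) →
      ν ∈ NF d ⊔ LS (v.valuation k))
    (hreal : ∀ φ : k →+* ℝ, φ d < 0 → 0 < φ a ∧ 0 < φ ν) :
    ∃ μ : Lˣ, nrm k L μ * ν ∈ NF d ∧ ∀ ψ : L →+* ℝ, ψ (algebraMap k L d) < 0 → 0 < ψ μ := by
  obtain ⟨y, p, q, hy, hpq⟩ := Two2.ternary hd ν (a * d) (fun v hv h => hv (hfin v h))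
    (fun φ h1 h2 => absurd h2 (not_lt.mpr (hreal φ h1).2.le))
  have hT2 : T ^ 2 = algebraMap k L a := by rw [sq, hT]
  obtain ⟨σ, hσ⟩ := exists_sigma hrk ha hT2
  have hd0 : (d : k) ≠ 0 := d.ne_zero
  have hν0 : (ν : k) ≠ 0 := ν.ne_zero
  obtain ⟨n, hn⟩ : ∃ n : kˣ, (n : k) = p ^ 2 - d * q ^ 2 := ⟨Units.mk0 _ hpq, rfl⟩
  rw [Units.val_mul, ← hn] at hy
  have hya : y ^ 2 - a = -(ν * n) / d := by
    rw [eq_div_iff hd0]
    linear_combination -hy
  obtain ⟨lam, hlam⟩ := One.exists_sgn {φ : k →+* ℝ | 0 < φ y}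
  have hlam0 : (lam : k) ≠ 0 := lam.ne_zero
  obtain ⟨z, hz⟩ : ∃ z : L, z = algebraMap k L (lam * y) + algebraMap k L lam * T := ⟨_, rfl⟩
  have hzn : algebraMap k L (Algebra.norm k z) = algebraMap k L (lam ^ 2 * (y ^ 2 - a)) := by
    rw [One.norm_eq_mul hrk ha hT2 hσ, hz, sigma_coords hσ]
    simp only [map_mul, map_sub, map_pow]
    linear_combination (-(algebraMap k L lam ^ 2)) * hT2
  have hzn' : Algebra.norm k z = lam ^ 2 * (y ^ 2 - a) := (algebraMap k L).injective hzn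
  have hn0 : Algebra.norm k z ≠ 0 := by
    rw [hzn', hya]
    exact mul_ne_zero (pow_ne_zero 2 hlam0)
      (div_ne_zero (neg_ne_zero.mpr (mul_ne_zero hν0 n.ne_zero)) hd0)
  have hz0 : z ≠ 0 := by
    rintro rfl
    have hfd : FiniteDimensional k L := Module.finite_of_finrank_pos (by omega)
    exact hn0 (by rw [Algebra.norm_zero])
  refine ⟨Units.mk0 z hz0, ?_, fun ψ hψ => ?_⟩
  · have h1 : nrm k L (Units.mk0 z hz0) * ν = (lam * ν / d) ^ 2 * ((-d) * n) := by
      refine Units.ext ?_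
      rw [Units.val_mul, nrm_val, Units.val_mk0, hzn', hya]
      simp only [Units.val_mul, Units.val_pow_eq_pow_val, Units.val_div_eq_div_val, Units.val_neg]
      field_simp
    rw [h1]
    exact mul_mem (Sq_le_NF _ ⟨lam * ν / d, rfl⟩) (mul_mem (Sch.neg_mem_NF _) ⟨p, q, hn⟩)
  · obtain ⟨φ, hφ⟩ : ∃ φ : k →+* ℝ, φ = ψ.comp (algebraMap k L) := ⟨_, rfl⟩
    have hφ' : ∀ c : k, ψ (algebraMap k L c) = φ c := fun c => by rw [hφ]; rfl
    rw [hφ'] at hψ
    obtain ⟨h1, h2⟩ := hreal φ hψ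
    have h3 : 0 < φ n := by
      have h4 : 0 ≤ φ n := by
        rw [hn, map_sub, map_mul, map_pow, map_pow]
        nlinarith [sq_nonneg (φ p), sq_nonneg (φ q)]
      exact lt_of_le_of_ne h4 ((_root_.map_ne_zero φ).mpr n.ne_zero).symm
    have h5 : 0 < φ y ^ 2 - φ a := by
      have h6 := congrArg φ hya
      rw [map_sub, map_pow, map_div₀, map_neg, map_mul] at h6
      rw [h6]
      exact div_pos_of_neg_of_neg (neg_neg_of_pos (mul_pos h2 h3)) hψ
    have h6 : ψ T ^ 2 = φ a := by rw [← map_pow, hT2, hφ']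
    have h7 : ψ z = φ lam * (φ y + ψ T) := by
      rw [hz, map_add, map_mul, map_mul, map_mul, hφ', hφ']
      ring
    rw [Units.val_mk0, h7]
    by_cases h8 : 0 < φ y
    · have h9 : 0 < φ lam := (hlam φ).1 h8
      refine mul_pos h9 ?_
      have h10 := abs_lt_of_sq_lt_sq (a := ψ T) (b := φ y) (by rw [h6]; linarith) h8.le
      rw [abs_lt] at h10
      linarith
    · have h9 : φ lam < 0 := (hlam φ).2 h8
      refine mul_pos_of_neg_of_neg h9 ?_
      rw [not_lt] at h8
      have h10 := abs_lt_of_sq_lt_sq (a := ψ T) (b := -φ y) (by rw [h6, neg_sq]; linarith)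
        (by linarith)
      rw [abs_lt] at h10
      linarith

end Vale.Agent.P011.Pow
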