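import Vale.Agent.P011.Pow.MatLem
import Vale.Agent.P011.Two2.FinIso
import Vale.Agent.P011.Arith.LocalB
import Vale.Agent.P011.Arith.Hasse3

/-!
The class of the reduced norm of the symmetric elements `g` with `g * Y = star Y * g`, at almost
all nonsplit finite places.
-/

open Module Matrix NumberField IsDedekindDomain

set_option linter.unusedSectionVars false

namespace Vale.Agent.P011.Pow

open Vale.Agent.P011.Even Vale.Agent.P011.Arith Vale.Agent.P011.Two2

variable {k K D : Type} [Field k] [NumberField k] [Field K] [StarRing K]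
    [DivisionRing D] [StarRing D] [Algebra k K] [Algebra k D] [Algebra K D] [IsScalarTower k K D]
    {d : kˣ} {s : K} {n : ℕ}

theorem alg_s_ne (hS : Setting k K D d s) : algebraMap K D s ≠ 0 := by
  intro h
  have h3 : s = 0 := (algebraMap K D).injective (by rw [h, map_zero])
  have h4 := hS.sq
  rw [h3, zero_pow two_ne_zero] at h4
  have h5 : (d : k) = 0 := (algebraMap k K).injective (by rw [← h4, map_zero])
  exact d.ne_zero h5

theorem alg_s_star (hS : Setting k K D d s) :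
    star (algebraMap K D s) = -algebraMap K D s := by
  rw [hS.star_alg, hS.star_s, map_neg]

/-- An element anticommuting with `Y` and symmetric for the involution twisted by `g`. -/
theorem exists_twist (hS : Setting k K D d s) {b : kˣ} {Y g : D} (hY : Y * Y = algebraMap k D b)
    (hK : ∀ c : K, algebraMap K D c ≠ Y) (hg : star g = g) (hg0 : g ≠ 0)
    (h : g * Y = star Y * g) : ∃ j : D, j ≠ 0 ∧ j * Y = -(Y * j) ∧ star j * g = g * j := by
  have := hS.cen
  obtain ⟨z, hz0, hz⟩ := ML.exists_anti (fun x => Algebra.commutes (b : k) x) hY hK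
  have hinv : Y * g⁻¹ = g⁻¹ * star Y := by
    apply mul_left_cancel₀ hg0
    rw [← mul_assoc, h, mul_assoc, mul_inv_cancel₀ hg0, mul_one, ← mul_assoc, mul_inv_cancel₀ hg0,
      one_mul]
  have e1 : g⁻¹ * star z * g * Y = -(Y * (g⁻¹ * star z * g)) := by
    calc g⁻¹ * star z * g * Y = g⁻¹ * (star z * star Y) * g := by
          rw [mul_assoc, h]; simp only [mul_assoc]
      _ = g⁻¹ * star (Y * z) * g := by rw [star_mul]
      _ = -(g⁻¹ * star (z * Y) * g) := by rw [hz, star_neg, mul_neg, neg_mul, neg_neg]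
      _ = _ := by
        rw [star_mul, ← mul_assoc g⁻¹, ← hinv]
        simp only [mul_assoc]
  have e2 : star (g⁻¹ * star z * g) * g = g * z := by
    rw [star_mul, star_mul, star_star, hg, star_inv₀, hg, mul_assoc, mul_assoc,
      inv_mul_cancel₀ hg0, mul_one]
  have e3 : star z * g = g * (g⁻¹ * star z * g) := by
    rw [← mul_assoc, ← mul_assoc, mul_inv_cancel₀ hg0, one_mul]
  by_cases h0 : z + g⁻¹ * star z * g = 0
  · refine ⟨algebraMap K D s * z, mul_ne_zero (alg_s_ne hS) hz0, ?_, ?_⟩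
    · rw [mul_assoc, hz, mul_neg, ← mul_assoc, ← mul_assoc, Algebra.commutes]
    · have h1 : g⁻¹ * star z * g = -z := (neg_eq_of_add_eq_zero_right h0).symm
      rw [star_mul, alg_s_star hS, mul_neg, neg_mul, ← Algebra.commutes, mul_assoc, e3, h1, mul_neg,
        mul_neg, neg_neg, ← mul_assoc, ← mul_assoc, Algebra.commutes]
  · refine ⟨z + g⁻¹ * star z * g, h0, ?_, ?_⟩
    · rw [add_mul, hz, e1, mul_add, neg_add]
    · rw [star_add, add_mul, e2, e3, mul_add, add_comm]

/-- **The class at almost all nonsplit places.** -/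
theorem exists_ref (hS : Setting k K D d s) (hn : 0 < n) (hdeg : finrank K D = n ^ 2) {Ω : Type}
    [Field Ω] [Algebra K Ω] (f : D →ₐ[K] Matrix (Fin n) (Fin n) Ω) :
    ∃ S : Set (HeightOneSpectrum (𝓞 k)), S.Finite ∧ ∀ v ∉ S, d ∉ LS (v.valuation k) →
      ∀ (b : kˣ) (Y g : D), Y * Y = algebraMap k D b → (∀ c : K, algebraMap K D c ≠ Y) →
        b * d ∈ LS (v.valuation k) → star g = g → g ≠ 0 → g * Y = star Y * g → ∀ ν : kˣ,
        (f g).det = algebraMap K Ω (algebraMap k K ν) → ν ∈ NF d ⊔ LS (v.valuation k) := by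
  by_cases hex : ∃ (b : kˣ) (Y g : D), Y * Y = algebraMap k D b ∧
      (∀ c : K, algebraMap K D c ≠ Y) ∧ star g = g ∧ g ≠ 0 ∧ g * Y = star Y * g
  · obtain ⟨b₁, Y₁, g₁, hY₁, hK₁, hg₁, h0₁, h₁⟩ := hex
    obtain ⟨j, hj0, hjY, hjg⟩ := exists_twist hS hY₁ hK₁ hg₁ h0₁ h₁
    have hs0 := alg_s_ne hS
    -- the second reference
    have hY₂ : algebraMap K D s * Y₁ * (algebraMap K D s * Y₁) =
        algebraMap k D ((d * b₁ : kˣ) : k) := by
      rw [mul_assoc, ← mul_assoc Y₁, ← Algebra.commutes s Y₁, mul_assoc, hY₁, ← mul_assoc,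
        ← map_mul, ← pow_two, hS.sq, ← IsScalarTower.algebraMap_apply, Units.val_mul, map_mul]
    have hK₂ : ∀ c : K, algebraMap K D c ≠ algebraMap K D s * Y₁ := by
      intro c hc
      apply hK₁ (s⁻¹ * c)
      rw [map_mul, hc, ← mul_assoc, ← map_mul, inv_mul_cancel₀ (fun h => hs0 (by
        rw [h, map_zero])), map_one, one_mul]
    have hg₂ : star (g₁ * j) = g₁ * j := by rw [star_mul, hg₁, hjg]
    have h0₂ : g₁ * j ≠ 0 := mul_ne_zero h0₁ hj0
    have h₂ : g₁ * j * (algebraMap K D s * Y₁) = star (algebraMap K D s * Y₁) * (g₁ * j) := by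
      rw [star_mul, alg_s_star hS]
      calc g₁ * j * (algebraMap K D s * Y₁) = algebraMap K D s * (g₁ * (j * Y₁)) := by
            rw [← mul_assoc (g₁ * j), ← Algebra.commutes s (g₁ * j)]; simp only [mul_assoc]
        _ = -(algebraMap K D s * (g₁ * Y₁) * j) := by
            rw [hjY, mul_neg, mul_neg]; simp only [mul_assoc]
        _ = _ := by
            rw [h₁, mul_neg, neg_mul, ← Algebra.commutes s (star Y₁)]; simp only [mul_assoc]
    obtain ⟨ν₁, hν₁⟩ := exists_nrd_unit hS hn hdeg f hg₁ h0₁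
    obtain ⟨ν₂, hν₂⟩ := exists_nrd_unit hS hn hdeg f hg₂ h0₂
    have h20 : (2 : k) ≠ 0 := two_ne_zero
    refine ⟨{v | v.valuation k ((Units.mk0 (2 : k) h20 : kˣ) : k) ≠ 1} ∪
      {v | v.valuation k (d : k) ≠ 1} ∪ {v | v.valuation k (b₁ : k) ≠ 1} ∪
      {v | v.valuation k (ν₁ : k) ≠ 1} ∪ {v | v.valuation k (ν₂ : k) ≠ 1},
      ((((finite_ne_one _).union (finite_ne_one _)).union (finite_ne_one _)).union
        (finite_ne_one _)).union (finite_ne_one _), ?_⟩
    intro v hv hd b Y g hY hK hbd hg hg0 h ν hν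
    simp only [Set.mem_union, not_or, Set.mem_ofPred_eq, not_not] at hv
    obtain ⟨⟨⟨⟨v2, vd⟩, vb⟩, vν₁⟩, vν₂⟩ := hv
    have v2' : v.valuation k 2 = 1 := v2
    by_cases hb₁ : b₁ * d ∈ LS (v.valuation k)
    · have h5 := mat_lemma hS hn hdeg f hd hY hY₁ hK hK₁ hbd hb₁ hg hg₁ hg0 h0₁ h h₁ hν hν₁
      have h6 := unit_norm v v2' d ν₁ vd vν₁
      exact (Subgroup.mul_mem_cancel_right _ h6).mp h5
    · rw [mul_mem_LS_iff v2' vb vd] at hb₁
      have hb₁' : b₁ ∈ LS (v.valuation k) := by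
        by_contra h7
        exact hb₁ (iff_of_false h7 hd)
      have hb₂ : (d * b₁) * d ∈ LS (v.valuation k) := by
        have h8 : d * b₁ * d = b₁ * (d ^ 2) := by
          rw [pow_two]; exact Units.ext (by push_cast; ring)
        rw [h8]
        exact Subgroup.mul_mem _ hb₁' (Sq_le_LS _ ⟨d, rfl⟩)
      have h5 := mat_lemma hS hn hdeg f hd hY hY₂ hK hK₂ hbd hb₂ hg hg₂ hg0 h0₂ h h₂ hν hν₂
      have h6 := unit_norm v v2' d ν₂ vd vν₂
      exact (Subgroup.mul_mem_cancel_right _ h6).mp h5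
  · refine ⟨∅, Set.finite_empty, fun v _ _ b Y g hY hK _ hg hg0 h ν _ => ?_⟩
    exact (hex ⟨b, Y, g, hY, hK, hg, hg0, h⟩).elim

end Vale.Agent.P011.Pow
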