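import Vale.Agent.P011.Pow.MatLem
import Vale.Agent.P011.Two2.CongNear
import Vale.Agent.P011.U2.Near
import Vale.Agent.P011.RP.Universal
import Vale.Agent.P011.RP.Dense

/-!
Symmetric elements `g` with `g * x = star x * g`, where `x ^ 2 = a` is positive at the nonsplit
real places, with prescribed signatures.
-/

open Module Matrix Filter Topology
open scoped ComplexOrder

set_option linter.unusedSectionVars false

namespace Vale.Agent.P011.Pow

open Vale.Agent.P011.RP Vale.Agent.P011.Even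

namespace SX

/-- Matrices of square one are conjugate to real diagonal matrices. -/
theorem exists_diag {n : ℕ} {y : Matrix (Fin n) (Fin n) ℂ} (hy : y * y = 1) :
    ∃ (W : Matrix (Fin n) (Fin n) ℂ) (w : Fin n → ℝ), IsUnit W ∧
      W * y = Matrix.diagonal (fun i => (w i : ℂ)) * W := by
  have hidem : IsIdempotentElem (Matrix.toLin' ((2 : ℂ)⁻¹ • (1 + y))) := by
    have h1 : ((2 : ℂ)⁻¹ • (1 + y)) * ((2 : ℂ)⁻¹ • (1 + y)) = (2 : ℂ)⁻¹ • (1 + y) := by
      have h3 : (1 + y) * (1 + y) = (2 : ℂ) • (1 + y) := by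
        rw [add_mul, mul_add, mul_add, one_mul, one_mul, mul_one, hy, two_smul, add_comm y 1]
      rw [smul_mul_assoc, mul_smul_comm, h3, smul_smul, smul_smul]
      congr 1
      norm_num
    have h2 := Matrix.toLin'_mul ((2 : ℂ)⁻¹ • (1 + y)) ((2 : ℂ)⁻¹ • (1 + y))
    rw [h1] at h2
    exact h2.symm
  obtain ⟨m, hm⟩ : ∃ m, m = finrank ℂ (LinearMap.range (Matrix.toLin' ((2 : ℂ)⁻¹ • (1 + y)))) :=
    ⟨_, rfl⟩
  have hmn : m ≤ n := by
    rw [hm]
    have := Submodule.finrank_le (LinearMap.range (Matrix.toLin' ((2 : ℂ)⁻¹ • (1 + y))))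
    rwa [Module.finrank_fin_fun] at this
  obtain ⟨w, hw⟩ : ∃ w : Fin n → ℂ, ∀ i, w i = if (i : ℕ) < m then 1 else 0 :=
    ⟨fun i => if (i : ℕ) < m then 1 else 0, fun _ => rfl⟩
  have hww : ∀ i, w i * w i = w i := by
    intro i
    rw [hw]
    split_ifs <;> simp
  have hidem' : IsIdempotentElem (Matrix.toLin' (Matrix.diagonal w)) := by
    have h2 := Matrix.toLin'_mul (Matrix.diagonal w) (Matrix.diagonal w)
    rw [Matrix.diagonal_mul_diagonal] at h2
    simp only [hww] at h2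
    exact h2.symm
  have hrk : finrank ℂ (LinearMap.range (Matrix.toLin' (Matrix.diagonal w))) = m := by
    classical
    have h1 := Matrix.rank_diagonal w
    rw [Matrix.rank, ← Matrix.toLin'_apply'] at h1
    rw [h1, Fintype.card_subtype]
    have h2 : (Finset.univ.filter fun i => w i ≠ 0) = Finset.univ.filter fun i : Fin n =>
        (i : ℕ) < m := by
      ext i
      simp only [Finset.mem_filter, Finset.mem_univ, true_and]
      rw [hw]
      split_ifs with h <;> simp [h]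
    rw [h2, Fin.card_filter_val_lt, min_eq_right hmn]
  obtain ⟨φ, hφ⟩ := ML.proj_conj hidem hidem' (by rw [hrk, hm])
  obtain ⟨P, hP⟩ : ∃ P, P = LinearMap.toMatrix' (φ : (Fin n → ℂ) →ₗ[ℂ] (Fin n → ℂ)) := ⟨_, rfl⟩
  have hPv : ∀ x, P *ᵥ x = φ x := by
    intro x
    rw [hP, LinearMap.toMatrix'_mulVec]
    rfl
  have hφ' : ∀ x, P *ᵥ (((2 : ℂ)⁻¹ • (1 + y)) *ᵥ x) = (Matrix.diagonal w) *ᵥ (P *ᵥ x) := by
    intro x
    have := hφ x
    rw [Matrix.toLin'_apply, Matrix.toLin'_apply] at this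
    rw [hPv, hPv, this]
  have h2 : P * ((2 : ℂ)⁻¹ • (1 + y)) = Matrix.diagonal w * P := by
    apply Matrix.toLin'.injective
    refine LinearMap.ext fun x => ?_
    rw [Matrix.toLin'_apply, Matrix.toLin'_apply, ← Matrix.mulVec_mulVec, hφ',
      Matrix.mulVec_mulVec]
  refine ⟨P, fun i => 2 * (if (i : ℕ) < m then 1 else 0) - 1, ?_, ?_⟩
  · rw [hP, LinearMap.isUnit_toMatrix'_iff, Module.End.isUnit_iff]
    exact φ.bijective
  · have h3 : P + P * y = (2 : ℂ) • (Matrix.diagonal w * P) := by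
      rw [← h2, mul_smul_comm, smul_smul, mul_inv_cancel₀ two_ne_zero, one_smul, mul_add, mul_one]
    have h4 : Matrix.diagonal (fun i : Fin n => (((2 * (if (i : ℕ) < m then 1 else 0) - 1 : ℝ)) : ℂ)) =
        (2 : ℂ) • Matrix.diagonal w - 1 := by
      rw [← Matrix.diagonal_one, ← Matrix.diagonal_smul, Matrix.diagonal_sub]
      congr 1
      funext i
      simp only [Pi.smul_apply, smul_eq_mul, hw]
      split_ifs <;> push_cast <;> rfl
    rw [h4, sub_mul, one_mul, smul_mul_assoc, ← h3, add_sub_cancel_left]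

/-- The local target. -/
theorem exists_target {n : ℕ} {X C : Matrix (Fin n) (Fin n) ℂ} {r : ℝ} (hr : 0 < r)
    (hX : X * X = Matrix.scalar _ (r : ℂ)) (hC : Cᴴ = C) :
    ∃ M Q : Matrix (Fin n) (Fin n) ℂ, Mᴴ = M ∧ M * X = Xᴴ * M ∧ IsUnit Q ∧ Q * C * Qᴴ = M := by
  obtain ⟨q, hq⟩ : ∃ q, q = Real.sqrt r := ⟨_, rfl⟩
  have hqq : q * q = r := by rw [hq]; exact Real.mul_self_sqrt hr.le
  have hq0 : (q : ℂ) ≠ 0 := by
    intro h
    rw [Complex.ofReal_eq_zero] at h
    rw [h, mul_zero] at hqq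
    exact hr.ne hqq
  have hy : ((q : ℂ)⁻¹ • X) * ((q : ℂ)⁻¹ • X) = 1 := by
    rw [smul_mul_smul_comm, hX, Matrix.scalar_apply, ← Matrix.smul_one_eq_diagonal, smul_smul,
      ← hqq, Complex.ofReal_mul]
    have : (q : ℂ)⁻¹ * (q : ℂ)⁻¹ * (q * q) = 1 := by field_simp
    rw [this, one_smul]
  obtain ⟨W, w, hW, hWy⟩ := exists_diag hy
  have hWX : W * X = Matrix.diagonal (fun i => ((q * w i : ℝ) : ℂ)) * W := by
    have h1 : X = (q : ℂ) • ((q : ℂ)⁻¹ • X) := by rw [smul_smul, mul_inv_cancel₀ hq0, one_smul]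
    rw [h1, mul_smul_comm, hWy, ← smul_mul_assoc, ← Matrix.diagonal_smul]
    congr 2
    funext i
    simp
  have hCH : C.IsHermitian := hC
  obtain ⟨U, hU⟩ : ∃ U : Matrix (Fin n) (Fin n) ℂ, U = (hCH.eigenvectorUnitary : Matrix _ _ ℂ) :=
    ⟨_, rfl⟩
  have hU1 : Uᴴ * U = 1 := by
    rw [hU]; exact Matrix.mem_unitaryGroup_iff'.mp hCH.eigenvectorUnitary.2
  have hU2 : U * Uᴴ = 1 := by
    rw [hU]; exact Matrix.mem_unitaryGroup_iff.mp hCH.eigenvectorUnitary.2
  have hspec : Uᴴ * C * U = Matrix.diagonal (fun i => (hCH.eigenvalues i : ℂ)) := by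
    have h2 : C = U * Matrix.diagonal (fun i => (hCH.eigenvalues i : ℂ)) * Uᴴ := by
      rw [hU]; exact hCH.spectral_theorem
    calc Uᴴ * C * U = Uᴴ * (U * Matrix.diagonal (fun i => (hCH.eigenvalues i : ℂ)) * Uᴴ) * U := by
          rw [← h2]
      _ = (Uᴴ * U) * Matrix.diagonal (fun i => (hCH.eigenvalues i : ℂ)) * (Uᴴ * U) := by
          simp only [mul_assoc]
      _ = _ := by rw [hU1, one_mul, mul_one]
  obtain ⟨E, hE⟩ : ∃ E, E = Matrix.diagonal (fun i => (hCH.eigenvalues i : ℂ)) := ⟨_, rfl⟩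
  obtain ⟨J, hJ⟩ : ∃ J, J = Matrix.diagonal (fun i => ((q * w i : ℝ) : ℂ)) := ⟨_, rfl⟩
  have hEs : Eᴴ = E := by
    rw [hE, Matrix.diagonal_conjTranspose]
    congr 1
    funext i
    exact Complex.conj_ofReal _
  have hJs : Jᴴ = J := by
    rw [hJ, Matrix.diagonal_conjTranspose]
    congr 1
    funext i
    exact Complex.conj_ofReal _
  have hEJ : E * J = J * E := by
    rw [hE, hJ, Matrix.diagonal_mul_diagonal, Matrix.diagonal_mul_diagonal]
    congr 1
    funext i
    exact mul_comm _ _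
  rw [← hJ] at hWX
  rw [← hE] at hspec
  refine ⟨Wᴴ * E * W, Wᴴ * Uᴴ, ?_, ?_, ?_, ?_⟩
  · rw [Matrix.conjTranspose_mul, Matrix.conjTranspose_mul, Matrix.conjTranspose_conjTranspose,
      hEs, mul_assoc]
  · have h1 : Xᴴ * Wᴴ = Wᴴ * J := by
      rw [← Matrix.conjTranspose_mul, hWX, Matrix.conjTranspose_mul, hJs]
    calc Wᴴ * E * W * X = Wᴴ * (E * J) * W := by
          rw [mul_assoc _ W X, hWX]; simp only [mul_assoc]
      _ = Wᴴ * J * E * W := by rw [hEJ]; simp only [mul_assoc]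
      _ = _ := by rw [← h1]; simp only [mul_assoc]
  · refine hW.star.mul ?_
    exact (IsUnit.of_mul_eq_one _ hU1)
  · rw [Matrix.conjTranspose_mul, Matrix.conjTranspose_conjTranspose,
      Matrix.conjTranspose_conjTranspose]
    calc Wᴴ * Uᴴ * C * (U * W) = Wᴴ * (Uᴴ * C * U) * W := by simp only [mul_assoc]
      _ = _ := by rw [hspec]

/-- The value of the approximating expression at the target. -/
theorem phi_zero {n : ℕ} {A J M X : Matrix (Fin n) (Fin n) ℂ} {r : ℝ} (hr0 : (r : ℂ) ≠ 0)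
    (hX : X * X = Matrix.scalar _ (r : ℂ)) (j1 : A * J = 1) (j2 : J * A = 1) (hAs : Aᴴ = A)
    (hM : Mᴴ = M) (hMX : M * X = Xᴴ * M) {U : Matrix (Fin n) (Fin n) ℂ}
    (hU : U = (4 * (r : ℂ))⁻¹ • (A * M * X)) :
    A * Xᴴ * J * (U + A * Uᴴ * J) + (U + A * Uᴴ * J) * X = A * M := by
  have hXX : X * X = (r : ℂ) • (1 : Matrix (Fin n) (Fin n) ℂ) := by
    rw [hX, Matrix.scalar_apply, ← Matrix.smul_one_eq_diagonal]
  have h1 : A * Uᴴ * J = U := by
    have h2 : star (4 * (r : ℂ))⁻¹ = (4 * (r : ℂ))⁻¹ := by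
      rw [star_inv₀, star_mul', star_ofNat]
      congr 2
      exact Complex.conj_ofReal _
    have h3 : A * (M * X * A) * J = A * M * X := by
      calc A * (M * X * A) * J = A * (M * X) * (A * J) := by simp only [mul_assoc]
        _ = _ := by rw [j1, mul_one, mul_assoc]
    have h4 : Uᴴ = (4 * (r : ℂ))⁻¹ • (M * X * A) := by
      rw [hU, Matrix.conjTranspose_smul, h2, Matrix.conjTranspose_mul, Matrix.conjTranspose_mul,
        hM, hAs, ← mul_assoc Xᴴ, ← hMX]
    rw [h4, mul_smul_comm, smul_mul_assoc, h3, hU]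
  have h3 : A * Xᴴ * J * U = (4 : ℂ)⁻¹ • (A * M) := by
    have h4 : A * Xᴴ * J * (A * M * X) = (r : ℂ) • (A * M) := by
      calc A * Xᴴ * J * (A * M * X) = A * Xᴴ * (J * A) * M * X := by simp only [mul_assoc]
        _ = A * (Xᴴ * M) * X := by rw [j2, mul_one]; simp only [mul_assoc]
        _ = A * M * (X * X) := by rw [← hMX]; simp only [mul_assoc]
        _ = _ := by rw [hXX, mul_smul_comm, mul_one]
    rw [hU, mul_smul_comm, h4, smul_smul]
    congr 1
    field_simp
  have h5 : U * X = (4 : ℂ)⁻¹ • (A * M) := by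
    rw [hU, smul_mul_assoc, mul_assoc (A * M), hXX, mul_smul_comm, mul_one, smul_smul]
    congr 1
    field_simp
  have h6 : (4 : ℂ)⁻¹ • (A * M) + (4 : ℂ)⁻¹ • (A * M) + ((4 : ℂ)⁻¹ • (A * M) +
      (4 : ℂ)⁻¹ • (A * M)) = A * M := by
    rw [← two_smul ℂ ((4 : ℂ)⁻¹ • (A * M)), ← two_smul ℂ ((2 : ℂ) • (4 : ℂ)⁻¹ • (A * M)),
      smul_smul, smul_smul]
    norm_num
  rw [h1, mul_add, add_mul U U X, h3, h5, h6]

theorem phi_cont {n : ℕ} (A B J X G : Matrix (Fin n) (Fin n) ℂ) :
    Continuous fun Y : Matrix (Fin n) (Fin n) ℂ =>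
      (B * (Y + A * Yᴴ * J) + (Y + A * Yᴴ * J) * X) * A - G := by
  have h0 : Continuous fun Y : Matrix (Fin n) (Fin n) ℂ => A * Yᴴ * J :=
    (continuous_const.matrix_mul continuous_id.matrix_conjTranspose).matrix_mul continuous_const
  have h1 : Continuous fun Y : Matrix (Fin n) (Fin n) ℂ => Y + A * Yᴴ * J :=
    continuous_id.add h0
  have h2 : Continuous fun Y : Matrix (Fin n) (Fin n) ℂ => B * (Y + A * Yᴴ * J) :=
    continuous_const.matrix_mul h1
  have h3 : Continuous fun Y : Matrix (Fin n) (Fin n) ℂ => (Y + A * Yᴴ * J) * X :=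
    h1.matrix_mul continuous_const
  exact ((h2.add h3).matrix_mul continuous_const).sub continuous_const

end SX

open SX

section

variable {K D : Type} [Field K] [StarRing K] [DivisionRing D] [StarRing D] [Algebra K D] {n : ℕ}

/-- The local situation at one real place: the target `U₀` and the neighbourhood. -/
theorem exists_loc (R : RData K D n) {x c : D} {r : ℝ} (hr : 0 < r)
    (hx : R.f x * R.f x = Matrix.scalar _ (r : ℂ)) (hc : star c = c) (hc0 : c ≠ 0) :
    ∃ U₀ : Matrix (Fin n) (Fin n) ℂ, ∀ᶠ Y in 𝓝 U₀, ∀ u : D, R.f u = Y →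
      star (star x * (u + star u) + (u + star u) * x) =
        star x * (u + star u) + (u + star u) * x →
      R.CongAt c (star x * (u + star u) + (u + star u) * x) := by
  classical
  have hAd := (Matrix.isUnit_iff_isUnit_det _).mp R.unit
  obtain ⟨X, hX⟩ : ∃ X, X = R.f x := ⟨_, rfl⟩
  obtain ⟨A, hA⟩ : ∃ A, A = R.A := ⟨_, rfl⟩
  obtain ⟨J, hJ⟩ : ∃ J, J = A⁻¹ := ⟨_, rfl⟩
  rw [← hA] at hAd
  have hAs : Aᴴ = A := by rw [hA, R.hA]
  have j1 : A * J = 1 := by rw [hJ, Matrix.mul_nonsing_inv _ hAd]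
  have j2 : J * A = 1 := by rw [hJ, Matrix.nonsing_inv_mul _ hAd]
  have j3 : Jᴴ = J := by rw [hJ, Matrix.conjTranspose_nonsing_inv, hAs]
  have hst : ∀ z : D, R.f (star z) = A * (R.f z)ᴴ * J := by
    intro z
    have h := R.star_f z
    rw [← hA] at h
    rw [← h, mul_assoc, j1, mul_one]
  rw [← hX] at hx
  -- the form of `c`
  obtain ⟨C, hC⟩ : ∃ C, C = J * R.f c := ⟨_, rfl⟩
  have hCs : Cᴴ = C := by
    have h1 := hst c
    rw [hc] at h1
    rw [hC, Matrix.conjTranspose_mul, j3]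
    conv_rhs => rw [h1]
    rw [← mul_assoc, ← mul_assoc, j2, one_mul]
  obtain ⟨M, Q, hM, hMX, hQ, hQC⟩ := exists_target hr hx hCs
  obtain ⟨G, hG⟩ : ∃ G, G = A * M * A := ⟨_, rfl⟩
  have hGs : G.IsHermitian := by
    rw [Matrix.IsHermitian, hG, Matrix.conjTranspose_mul, Matrix.conjTranspose_mul, hAs, hM,
      mul_assoc]
  have hcG : (A * Q * J) * (R.f c * A) * (A * Q * J)ᴴ = G := by
    have h1 : R.f c = A * C := by rw [hC, ← mul_assoc, j1, one_mul]
    rw [Matrix.conjTranspose_mul, Matrix.conjTranspose_mul, hAs, j3, h1, hG, ← hQC]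
    calc A * Q * J * (A * C * A) * (J * (Qᴴ * A)) =
        A * Q * (J * A) * C * (A * J) * Qᴴ * A := by simp only [mul_assoc]
      _ = A * (Q * C * Qᴴ) * A := by rw [j1, j2, mul_one, mul_one]; simp only [mul_assoc]
  have hA' : IsUnit A := hA ▸ R.unit
  have hJu : IsUnit J := IsUnit.of_mul_eq_one _ j2
  have hAQJ : IsUnit (A * Q * J) := (hA'.mul hQ).mul hJu
  have hGu : IsUnit G := by
    rw [← hcG]
    exact (hAQJ.mul ((f_unit R hc0).mul hA')).mul hAQJ.star
  obtain ⟨η, hη, hnear⟩ := herm_near hGs hGu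
  have hr0 : (r : ℂ) ≠ 0 := by exact_mod_cast hr.ne'
  -- the target
  obtain ⟨U, hU⟩ : ∃ U, U = (4 * (r : ℂ))⁻¹ • (A * M * X) := ⟨_, rfl⟩
  obtain ⟨Φ, hΦ⟩ : ∃ Φ : Matrix (Fin n) (Fin n) ℂ → Matrix (Fin n) (Fin n) ℂ, ∀ Y, Φ Y =
      (A * Xᴴ * J * (Y + A * Yᴴ * J) + (Y + A * Yᴴ * J) * X) * A - G := ⟨_, fun _ => rfl⟩
  have hΦc : Continuous Φ := by
    have h1 : Φ = fun Y => (A * Xᴴ * J * (Y + A * Yᴴ * J) + (Y + A * Yᴴ * J) * X) * A - G :=
      funext hΦ
    rw [h1]
    exact phi_cont A (A * Xᴴ * J) J X G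
  have hΦU : Φ U = 0 := by
    rw [hΦ, phi_zero hr0 hx j1 j2 hAs hM hMX hU, ← hG, sub_self]
  refine ⟨U, ?_⟩
  have hev : ∀ᶠ Y in 𝓝 U, ∀ i j, ‖Φ Y i j‖ < η := by
    have h1 : ∀ i j, ∀ᶠ Y in 𝓝 U, ‖Φ Y i j‖ < η := by
      intro i j
      have h2 : Tendsto (fun Y => ‖Φ Y i j‖) (𝓝 U) (𝓝 ‖Φ U i j‖) :=
        ((hΦc.matrix_elem i j).norm.tendsto U)
      rw [hΦU, Matrix.zero_apply, norm_zero] at h2
      exact h2.eventually (gt_mem_nhds hη)
    exact Filter.eventually_all.mpr fun i => Filter.eventually_all.mpr fun j => h1 i j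
  filter_upwards [hev] with Y hY u hu hs
  have hfu : R.f (star x * (u + star u) + (u + star u) * x) * R.A = G + Φ Y := by
    rw [hΦ, map_add, map_mul, map_mul, map_add, hst x, hst u, hu, ← hX, ← hA]
    abel
  have hΦs : (Φ Y).IsHermitian := by
    have h1 : Φ Y = R.f (star x * (u + star u) + (u + star u) * x) * R.A - G := by
      rw [hfu, add_sub_cancel_left]
    rw [h1]
    exact Matrix.IsHermitian.sub (f_herm R hs) hGs
  obtain ⟨P, hP, hP'⟩ := hnear (Φ Y) hΦs hY
  refine ⟨P * (A * Q * J), hP.mul hAQJ, ?_⟩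
  rw [hfu, ← hP', ← hcG, Matrix.conjTranspose_mul P, hA]
  simp only [mul_assoc]

end

section

variable {k K D : Type} [Field k] [Field K] [NumberField K] [StarRing K]
    [DivisionRing D] [StarRing D] [Algebra k K] [Algebra k D] [Algebra K D] [IsScalarTower k K D]
    {d : kˣ} {s : K} {n : ℕ}

/-- A symmetric `u` with `x* u + u x ≠ 0`. -/
theorem exists_ne (hS : Setting k K D d s) {a : kˣ} {x : D} (hx : x * x = algebraMap k D a)
    (hxK : ∀ c : K, algebraMap K D c ≠ x) : ∃ u : D, star u = u ∧ star x * u + u * x ≠ 0 := by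
  have := hS.cen
  have hK : CharZero K := inferInstance
  have hD : CharZero D := charZero_of_injective_algebraMap (algebraMap K D).injective
  by_contra hcon
  push Not at hcon
  have h1 : star x = -x := by
    have := hcon 1 (star_one D)
    rw [mul_one, one_mul] at this
    exact eq_neg_of_add_eq_zero_left this
  have h2 : ∀ u : D, star u = u → x * u = u * x := by
    intro u hu
    have := hcon u hu
    rw [h1, neg_mul, neg_add_eq_zero] at this
    exact this
  have hs0 : algebraMap K D s ≠ 0 := by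
    intro h
    have h3 : s = 0 := (algebraMap K D).injective (by rw [h, map_zero])
    have h4 := hS.sq
    rw [h3, zero_pow two_ne_zero] at h4
    have h5 : (d : k) = 0 := (algebraMap k K).injective (by rw [← h4, map_zero])
    exact d.ne_zero h5
  have h3 : ∀ z : D, z * x = x * z := by
    intro z
    have e1 := h2 (z + star z) (by rw [star_add, star_star, add_comm])
    have e2 := h2 (algebraMap K D s * (z - star z)) (by
      rw [star_mul, hS.star_alg, hS.star_s, map_neg, star_sub, star_star, mul_neg, ← neg_mul,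
        neg_sub, Algebra.commutes])
    have e3 : x * (z - star z) = (z - star z) * x := by
      apply mul_left_cancel₀ hs0
      rw [← mul_assoc, Algebra.commutes s x, mul_assoc, e2, mul_assoc]
    have e4 : x * ((z + star z) + (z - star z)) = ((z + star z) + (z - star z)) * x := by
      rw [mul_add, add_mul, e1, e3]
    have e5 : (z + star z) + (z - star z) = 2 * z := by rw [two_mul]; abel
    rw [e5, ← mul_assoc, mul_two, ← two_mul, mul_assoc, mul_assoc] at e4
    exact (mul_left_cancel₀ two_ne_zero e4).symm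
  have h4 : x ∈ Subalgebra.center K D := by
    rw [Subalgebra.mem_center_iff]
    exact h3
  have h5 := Algebra.IsCentral.out h4
  rw [Algebra.mem_bot] at h5
  obtain ⟨c, hc⟩ := h5
  exact hxK c hc

/-- **Signatures**: symmetric `u` such that `x* u + u x` has the signatures of `c`. -/
theorem exists_sig_of (hS : Setting k K D d s) (hn : 0 < n) (hdeg : finrank K D = n ^ 2) {a : kˣ}
    {x : D} (hx : x * x = algebraMap k D a) (hxK : ∀ c : K, algebraMap K D c ≠ x)
    (hpos : ∀ φ : k →+* ℝ, φ d < 0 → 0 < φ a) {c : D} (hc : star c = c) (hc0 : c ≠ 0) :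
    ∃ u : D, star u = u ∧ star x * u + u * x ≠ 0 ∧
      ∀ R : RData K D n, R.CongAt c (star x * u + u * x) := by
  classical
  have := hS.fin
  have := hS.cen
  have hSM : StarModule K D := ⟨hS.star_smul⟩
  have hK : ∃ z : K, star z ≠ z := by
    refine ⟨s, fun h => ?_⟩
    obtain ⟨c, hc⟩ := (hS.fix s).mp h
    exact hS.ns ⟨c, by
      apply (algebraMap k K).injective
      rw [map_mul, ← hS.sq, ← hc, pow_two]⟩
  obtain ⟨ι, _, R, hcom, hd⟩ := exists_family (D := D) hK hn hdeg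
  rcases isEmpty_or_nonempty ι with hι | hι
  · obtain ⟨u, hu, hu0⟩ := exists_ne hS hx hxK
    refine ⟨u, hu, hu0, fun R' => ?_⟩
    obtain ⟨i, -⟩ := hcom R'.s R'.hs
    exact (hι.false i).elim
  have hloc : ∀ i, ∃ U₀ : Matrix (Fin n) (Fin n) ℂ, ∀ᶠ Y in 𝓝 U₀, ∀ u : D, (R i).f u = Y →
      star (star x * (u + star u) + (u + star u) * x) =
        star x * (u + star u) + (u + star u) * x →
      (R i).CongAt c (star x * (u + star u) + (u + star u) * x) := by
    intro i
    obtain ⟨φ, hφ, hφd⟩ := exists_phi hS (R i)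
    refine exists_loc (R i) (hpos φ hφd) ?_ hc hc0
    rw [← map_mul, hx, IsScalarTower.algebraMap_apply k K D, (R i).hf, hφ]
  choose U₀ hU₀ using hloc
  have hev : ∀ᶠ Y in 𝓝 U₀, ∀ i, ∀ u : D, (R i).f u = Y i →
      star (star x * (u + star u) + (u + star u) * x) =
        star x * (u + star u) + (u + star u) * x →
      (R i).CongAt c (star x * (u + star u) + (u + star u) * x) := by
    refine Filter.eventually_all.mpr fun i => ?_
    exact (continuous_apply i).continuousAt.eventually (hU₀ i)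
  obtain ⟨u, hu⟩ := U2.dense_mem hd hev
  have hs : star (star x * (u + star u) + (u + star u) * x) =
      star x * (u + star u) + (u + star u) * x := by
    rw [star_add, star_mul, star_mul, star_star, star_add, star_star, add_comm (star u) u,
      add_comm]
  have hall : ∀ R' : RData K D n, R'.CongAt c (star x * (u + star u) + (u + star u) * x) :=
    of_family hn hdeg hcom fun i => hu i u rfl hs
  refine ⟨u + star u, by rw [star_add, star_star, add_comm], fun h0 => ?_, hall⟩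
  obtain ⟨i⟩ := hι
  obtain ⟨Q, hQ, h⟩ := hall (R i)
  rw [h0, map_zero, zero_mul] at h
  have h1 : IsUnit (Q * ((R i).f c * (R i).A) * Qᴴ) :=
    (hQ.mul ((f_unit (R i) hc0).mul (R i).unit)).mul hQ.star
  rw [h] at h1
  have : Nonempty (Fin n) := ⟨⟨0, hn⟩⟩
  exact not_isUnit_zero h1

theorem exists_sig (hS : Setting k K D d s) (hn : 0 < n) (hdeg : finrank K D = n ^ 2) {a : kˣ}
    {x : D} (hx : x * x = algebraMap k D a) (hxK : ∀ c : K, algebraMap K D c ≠ x)
    (hpos : ∀ φ : k →+* ℝ, φ d < 0 → 0 < φ a) :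
    ∃ u : D, star u = u ∧ star x * u + u * x ≠ 0 ∧
      ∀ R : RData K D n, R.CongAt 1 (star x * u + u * x) :=
  exists_sig_of hS hn hdeg hx hxK hpos (star_one D) one_ne_zero

/-- The symmetric elements `g` with `g * x = star x * g` are the `x* u + u x`. -/
theorem sig_comm (hS : Setting k K D d s) {a : kˣ} {x u : D} (hx : x * x = algebraMap k D a)
    (hu : star u = u) : star (star x * u + u * x) = star x * u + u * x ∧
      (star x * u + u * x) * x = star x * (star x * u + u * x) := by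
  have h1 : star x * star x = algebraMap k D a := by
    rw [← star_mul, hx, IsScalarTower.algebraMap_apply k K D, hS.star_alg,
      (hS.fix _).mpr ⟨(a : k), rfl⟩]
  refine ⟨?_, ?_⟩
  · rw [star_add, star_mul, star_mul, star_star, hu, add_comm]
  · rw [add_mul, mul_add, ← mul_assoc (star x) (star x), h1, mul_assoc u, hx, ← Algebra.commutes,
      mul_assoc, add_comm]

end

end Vale.Agent.P011.Pow
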