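import Vale.Agent.P011.Pow.ExTor2
import Vale.Agent.P011.Pow.SigX
import Vale.Agent.P011.Pow.ExRef
import Vale.Agent.P011.Pow.ExMu
import Vale.Agent.P011.Two.MainTwo

/-!
Symmetric square roots from square roots, in a division algebra of even degree.
-/

open Module Matrix Polynomial NumberField IsDedekindDomain
open Vale.Agent.P011.RP (RData HasR1 HasR2)

set_option linter.unusedSectionVars false

namespace Vale.Agent.P011.Pow

open Vale.Agent.P011.Arith Vale.Agent.P011.Even Vale.Agent.P011.Two Vale.Agent.P011.Two2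
open Vale.Agent.P011.One (Xa)

section alg

variable {k K D : Type} [Field k] [Field K] [StarRing K]
    [DivisionRing D] [StarRing D] [Algebra k K] [Algebra k D] [Algebra K D] [IsScalarTower k K D]
    {d : kˣ} {s : K}

/-- A square root of `a` is not in the centre. -/
theorem sqrt_ne (hS : Setting k K D d s) {a : kˣ} (ha : ¬ IsSquare (a : k))
    (had : ¬ IsSquare ((a * d : kˣ) : k)) {x : D} (hx : x * x = algebraMap k D a) (c : K) :
    algebraMap K D c ≠ x := by
  intro h
  have h1 : c * c = algebraMap k K a := by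
    apply (algebraMap K D).injective
    rw [map_mul, h, hx, ← IsScalarTower.algebraMap_apply]
  have h2 : star c * star c = c * c := by
    rw [← star_mul, h1, (hS.fix _).mpr ⟨(a : k), rfl⟩]
  have h3 : (star c - c) * (star c + c) = 0 := by linear_combination h2
  rcases mul_eq_zero.mp h3 with h4 | h4
  · obtain ⟨r, rfl⟩ := (hS.fix c).mp (sub_eq_zero.mp h4)
    exact ha ⟨r, (algebraMap k K).injective (by rw [← h1, map_mul])⟩
  · have h5 : star (c * s) = c * s := by
      rw [star_mul, hS.star_s, eq_neg_of_add_eq_zero_left h4]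
      ring
    obtain ⟨r, hr⟩ := (hS.fix _).mp h5
    refine had ⟨r, (algebraMap k K).injective ?_⟩
    rw [map_mul, hr, Units.val_mul, map_mul, ← h1, ← hS.sq]
    ring

end alg

section main

variable {k K D : Type} [Field k] [NumberField k] [Field K] [NumberField K] [StarRing K]
    [DivisionRing D] [StarRing D] [Algebra k K] [Algebra k D] [Algebra K D] [IsScalarTower k K D]
    {d : kˣ} {s : K}

/-- If `a` has a square root in a division algebra of even degree at least four, then it has a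
symmetric square root, as soon as it satisfies conditions at the real places and at finitely many
finite places. -/
theorem exists_symm (hS : Setting k K D d s) {m : ℕ} (hm : 2 ≤ m)
    (hdeg : finrank K D = (2 * m) ^ 2) :
    ∃ S : Set (HeightOneSpectrum (𝓞 k)), S.Finite ∧ ∀ (a : kˣ) (x : D),
      x * x = algebraMap k D a → ¬ IsSquare (a : k) → ¬ IsSquare ((a * d : kˣ) : k) →
      (∀ φ : k →+* ℝ, φ d < 0 → 0 < φ a) →
      (∀ v ∈ S, d ∉ LS (v.valuation k) → a * d ∉ LS (v.valuation k)) → ∃ σ, σ ∈ Xa D a := by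
  have hn : 0 < 2 * m := by omega
  have i1 := hS.fin
  have i2 := hS.cen
  have hSM : StarModule K D := ⟨hS.star_smul⟩
  have hK : ∃ z : K, star z ≠ z := by
    refine ⟨s, fun h => ?_⟩
    obtain ⟨c, hc⟩ := (hS.fix s).mp h
    exact hS.ns ⟨c, (algebraMap k K).injective (by rw [← hS.sq, ← hc, map_mul, pow_two])⟩
  obtain ⟨f⟩ := Vale.Agent.P011S.exists_split (K := K) (D := D) hdeg (AlgebraicClosure K)
  obtain ⟨S, hSf, hS2⟩ := exists_ref hS hn hdeg f
  refine ⟨S, hSf, fun a x hx ha had hreal hcond => ?_⟩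
  have hxK := sqrt_ne hS ha had hx
  obtain ⟨u, hu, hg0, hcong⟩ := exists_sig hS hn hdeg hx hxK hreal
  obtain ⟨hg, hgx⟩ := sig_comm hS hx hu
  obtain ⟨g, hgd⟩ : ∃ g, g = star x * u + u * x := ⟨_, rfl⟩
  rw [← hgd] at hg0 hcong hg hgx
  -- the reduced norm
  have hdet : ∀ x : D, x ≠ 0 → (f x).det ≠ 0 := by
    intro x hx h0
    have h1 : f x * f x⁻¹ = 1 := by rw [← map_mul, mul_inv_cancel₀ hx, map_one]
    have h2 := congrArg Matrix.det h1
    rw [Matrix.det_mul, h0, zero_mul, Matrix.det_one] at h2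
    exact zero_ne_one h2
  obtain ⟨ν, hν⟩ : ∃ ν : kˣ, (f g).det = algebraMap K (AlgebraicClosure K) (algebraMap k K ν) := by
    obtain ⟨ν, hν⟩ := exists_nrd hn hdeg f g
    obtain ⟨ν', rfl⟩ := (hS.fix ν).mp (star_nrd hn hdeg hS.star_alg f hg hν)
    refine ⟨Units.mk0 ν' ?_, hν⟩
    rintro rfl
    rw [map_zero, map_zero] at hν
    exact hdet g hg0 hν
  have hfin : ∀ v : HeightOneSpectrum (𝓞 k), a * d ∈ LS (v.valuation k) →
      ν ∈ NF d ⊔ LS (v.valuation k) := by
    intro v hv
    by_cases hd : d ∈ LS (v.valuation k)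
    · rw [NF_sup_of_mem' d hd]
      exact Subgroup.mem_top _
    · refine hS2 v (fun hvS => hcond v hvS hd hv) hd a x g hx hxK hv hg hg0 hgx ν hν
  have hreal2 : ∀ φ : k →+* ℝ, φ d < 0 → 0 < φ a ∧ 0 < φ ν := by
    intro φ hφ
    refine ⟨hreal φ hφ, ?_⟩
    obtain ⟨R, hR⟩ := exists_rdata_of (D := D) hS hn hdeg hφ
    have h1 := nrd_pos hS hn hdeg f R hR (hcong R) (ν := 1) (ν' := ν)
      (by rw [map_one, Matrix.det_one, Units.val_one, map_one, map_one]) hν
    rwa [Units.val_one, map_one, mul_one] at h1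
  -- the twisted involution
  have hg' : star g⁻¹ = g⁻¹ := by rw [star_inv₀, hg]
  have hg0' : g⁻¹ ≠ 0 := inv_ne_zero hg0
  have hx' : x ∈ @Xa k _ D _ (twistStar hg' hg0') _ a := by
    refine ⟨?_, hx⟩
    change g⁻¹ * star x * g⁻¹⁻¹ = x
    rw [inv_inv, mul_assoc, ← hgx, ← mul_assoc, inv_mul_cancel₀ hg0, one_mul]
  obtain ⟨z, p, hz, hzx, hp0, hroots, N, hN, hNν⟩ :=
    @ExT.exists_tor k K D _ _ _ _ _ _ (twistStar hg' hg0') _ _ _ _ d s (setting_twist hS hg' hg0')
      m hm hdeg _ _ _ f a ν ha had x hx' hreal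
      (fun L _ _ _ T hT hrk => exists_mu hS.ns ha hT hrk hfin hreal2)
  change g⁻¹ * star z * g⁻¹⁻¹ = z at hz
  have hz' : star z = g * z * g⁻¹ := by
    rw [inv_inv] at hz
    calc star z = g * (g⁻¹ * star z * g) * g⁻¹ := by
          rw [mul_assoc g⁻¹, mul_inv_cancel_left₀ hg0, mul_assoc, mul_inv_cancel₀ hg0, mul_one]
      _ = g * z * g⁻¹ := by rw [hz]
  have hsp := star_aeval' hS hg0 hz' p
  obtain ⟨y, hy⟩ : ∃ y, y = aeval z p := ⟨_, rfl⟩
  rw [← hy] at hsp hN hp0
  have hyx : y * x = x * y := by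
    rw [hy]
    have h1 : z ∈ Subalgebra.centralizer k {x} := by
      rw [Subalgebra.mem_centralizer_iff]
      rintro w rfl
      exact hzx.symm
    have h2 : aeval z p ∈ Subalgebra.centralizer k {x} :=
      (Algebra.adjoin_le (Set.singleton_subset_iff.mpr h1)) (aeval_mem_adjoin_singleton k z)
    rw [Subalgebra.mem_centralizer_iff] at h2
    exact (h2 x rfl).symm
  obtain ⟨c, hc⟩ : ∃ c, c = g * y := ⟨_, rfl⟩
  have hcs : star c = c := by
    rw [hc, star_mul, hsp, hg, mul_assoc, inv_mul_cancel₀ hg0, mul_one]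
  have hc0 : c ≠ 0 := by rw [hc]; exact mul_ne_zero hg0 hp0
  have hcx : c * x = star x * c := by
    rw [hc, mul_assoc, hyx, ← mul_assoc, hgx, mul_assoc]
  have hcc : ∀ R : RData K D (2 * m), R.CongAt 1 c := by
    intro R
    obtain ⟨φ, hφ, hφd⟩ := exists_phi hS R
    obtain ⟨ρ, hρi, hρ, hρp⟩ := hroots φ hφd
    have h1 := cong_mul R hφ hg hg0 hz' (minpoly.aeval k z) hρi hρ hρp (by rw [← hy]; exact hp0)
    rw [← hy, ← hc] at h1
    exact cong_trans (hcong R) (cong_symm h1)
  obtain ⟨z', hz0', hzN⟩ : ∃ z' : K, z' ≠ 0 ∧ algebraMap k K ((ν * N : kˣ) : k) =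
      z' * star z' := by
    rw [mul_comm] at hNν
    obtain ⟨X, Y, hXY⟩ := hNν
    have hfixk : ∀ a : k, star (algebraMap k K a) = algebraMap k K a := fun a =>
      (hS.fix _).mpr ⟨a, rfl⟩
    have h1 : (algebraMap k K X + algebraMap k K Y * s) *
        star (algebraMap k K X + algebraMap k K Y * s) = algebraMap k K ((ν * N : kˣ) : k) := by
      rw [star_add, star_mul', hfixk, hfixk, hS.star_s, hXY, map_sub, map_mul, map_pow, map_pow,
        ← hS.sq]
      ring
    refine ⟨_, ?_, h1.symm⟩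
    intro h0
    rw [h0, zero_mul] at h1
    exact (_root_.map_ne_zero (algebraMap k K)).mpr (ν * N : kˣ).ne_zero h1.symm
  have hR1 : HasR1 K D (2 * m) := hasR1 hK hn hdeg
  obtain ⟨t, ht0, ht⟩ := hR1 (AlgebraicClosure K) f 1 c (star_one D) hcs one_ne_zero hc0
    ⟨z', hz0', by
      rw [map_one, Matrix.det_one, mul_one, hc, map_mul, Matrix.det_mul, hν, hN, ← map_mul,
        ← map_mul, ← hzN, Units.val_mul]⟩ hcc
  rw [mul_one] at ht
  have hst0 : star t ≠ 0 := star_ne_zero.mpr ht0
  refine ⟨star t * x * (star t)⁻¹, ?_, ?_⟩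
  · have h1 : star (star t * x * (star t)⁻¹) = t⁻¹ * (star x * t) := by
      rw [star_mul, star_mul, star_inv₀, star_star]
    have h2 : star x * t * star t = t * (star t * x) := by
      rw [mul_assoc, ← ht, ← hcx, ht, mul_assoc]
    rw [h1, eq_mul_inv_iff_mul_eq₀ hst0, mul_assoc, h2, ← mul_assoc, inv_mul_cancel₀ ht0, one_mul]
  · calc star t * x * (star t)⁻¹ * (star t * x * (star t)⁻¹) =
        star t * x * ((star t)⁻¹ * star t) * (x * (star t)⁻¹) := by simp only [mul_assoc]
      _ = star t * (x * x) * (star t)⁻¹ := by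
        rw [inv_mul_cancel₀ hst0, mul_one]
        simp only [mul_assoc]
      _ = algebraMap k D a := by
        rw [hx, ← Algebra.commutes, mul_assoc, mul_inv_cancel₀ hst0, mul_one]

end main

end Vale.Agent.P011.Pow
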