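import Vale.Agent.P011.Pow.Base
import Vale.Agent.P011.Pow.ExSqrt
import Vale.Agent.P011.Pow.ExSym

/-!
Symmetric square roots in degree a power of two, and the first square root in the induction.
-/

open NumberField IsDedekindDomain Module TensorProduct

namespace Vale.Agent.P011.Pow

open Vale.Agent.P011.Arith Vale.Agent.P011.Even Vale.Agent.P011.One

variable {k K D : Type} [Field k] [NumberField k] [Field K] [NumberField K] [StarRing K]
  [DivisionRing D] [StarRing D] [Algebra k K] [Algebra k D] [Algebra K D] [IsScalarTower k K D]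
  {d : kˣ} {s : K}

/-- **Symmetric square roots** in degree a power of two. -/
theorem exists_sym_sqrt (hS : Setting k K D d s) {e : ℕ} (he : 2 ≤ e)
    (hdeg : finrank K D = (2 ^ e) ^ 2) :
    ∃ S : Set (HeightOneSpectrum (𝓞 k)), S.Finite ∧ ∀ a : kˣ, ¬ IsSquare (a : k) →
      ¬ IsSquare ((a * d : kˣ) : k) → (∀ φ : k →+* ℝ, φ d < 0 → 0 < φ a) →
      (∀ v ∈ S, d ∉ LS (v.valuation k) → a * d ∉ LS (v.valuation k)) →
      (∀ v : HeightOneSpectrum (𝓞 k), (Sum.inl v : Pl k) ∈ Tdiv k K D →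
        a ∉ LS (v.valuation k)) → ∃ t, t ∈ Xa D a := by
  have := hS.fin
  have := hS.cen
  have h2 : 2 ≤ 2 ^ (e - 1) := by
    calc 2 = 2 ^ 1 := (pow_one 2).symm
      _ ≤ 2 ^ (e - 1) := Nat.pow_le_pow_right (by norm_num) (by omega)
  have h3 : 2 * 2 ^ (e - 1) = 2 ^ e := by
    rw [← pow_succ']
    congr 1
    omega
  obtain ⟨S, hSf, h⟩ := exists_symm hS h2 (by rw [hdeg, h3])
  refine ⟨S, hSf, fun a ha had hr hSa hT => ?_⟩
  exact exists_sym_sqrt_of hS (by omega) hdeg (fun a ha => exists_sqrt he hdeg a ha) h a ha had hr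
    hSa hT

/-- **The first square root.** -/
theorem exists_base (hS : Setting k K D d s) {e : ℕ} (he : 2 ≤ e)
    (hdeg : finrank K D = (2 ^ e) ^ 2) {R : Set (HeightOneSpectrum (𝓞 k))} (hR : R.Finite) :
    ∃ (a : kˣ) (t : D), t ∈ Xa D a ∧ ¬ IsSquare (a : k) ∧ ¬ IsSquare ((a * d : kˣ) : k) ∧
      (∀ v ∈ R ∪ Ram k K D (2 ^ e), a ∉ LS (v.valuation k) ∧ a * d ∉ LS (v.valuation k)) ∧
      (∀ φ : k →+* ℝ, φ d < 0 → 0 < φ a) ∧ ∀ φ : k →+* ℝ, 0 < φ d → φ a < 0 := by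
  have := hS.fin
  have := hS.cen
  have h2 : 2 ≤ 2 ^ e := by
    calc 2 = 2 ^ 1 := (pow_one 2).symm
      _ ≤ 2 ^ e := Nat.pow_le_pow_right (by norm_num) (by omega)
  obtain ⟨S, hSf, h⟩ := exists_sym_sqrt hS he hdeg
  obtain ⟨a, ha, had, h3, h4, h5⟩ := exists_num d
    ((hR.union (ram_finite (k := k) (K := K) (D := D) (by omega) hdeg)).union hSf)
  obtain ⟨t, ht⟩ := h a ha had h4 (fun v hv _ => (h3 v (Or.inr hv)).2)
    (fun v hv => (h3 v (Or.inl (Or.inr (tdiv_ram h2 hdeg hv)))).1)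
  exact ⟨a, t, ht, ha, had, fun v hv => h3 v (Or.inl hv), h4, h5⟩

end Vale.Agent.P011.Pow
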