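import Vale.Agent.P011.Pow.Cent
import Vale.Agent.P011.One.UnitForm
import Vale.Agent.P011.W.Red1

/-!
Reduced norms and closeness in the centralizer of a symmetric square root.
-/

open NumberField IsDedekindDomain Polynomial Module

set_option linter.unusedSectionVars false

namespace Vale.Agent.P011.Pow

open Vale.Agent.P011.Arith Vale.Agent.P011.Even Vale.Agent.P011.Two Vale.Agent.P011.One
open Vale.Agent.P011.W (HasNrd exists_maxfield hasNrd_norm hasNrd_of_det)

section nrd

variable {K D K' C : Type} [Field K] [CharZero K] [DivisionRing D] [Algebra K D]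
    [FiniteDimensional K D] [Algebra.IsCentral K D] [Field K'] [Algebra K K'] [DivisionRing C]
    [Algebra K' C] [FiniteDimensional K' C] [Algebra.IsCentral K' C] {m n : ℕ}

/-- The reduced norm of an element of a subalgebra over an extension field. -/
theorem exists_nrd_cent (hdeg : finrank K D = n ^ 2) (hC : finrank K' C = m ^ 2)
    (hKK : finrank K K' * m = n) (j : C →+* D)
    (hj : ∀ c : K, j (algebraMap K' C (algebraMap K K' c)) = algebraMap K D c) (x : C) :
    ∃ ν : K', HasNrd K' m x ν ∧ HasNrd K n (j x) (Algebra.norm K ν) := by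
  have : CharZero K' := charZero_of_injective_algebraMap (algebraMap K K').injective
  have hn : 0 < n := W.deg_pos hdeg
  have hm : 0 < m := W.deg_pos hC
  have : FiniteDimensional K K' := Module.finite_of_finrank_pos (by
    rcases Nat.eq_zero_or_pos (finrank K K') with h | h
    · rw [h, zero_mul] at hKK
      omega
    · exact h)
  obtain ⟨E, _, _, _, i, u, hE, rfl⟩ := exists_maxfield hC x
  let _ : Algebra K E := ((algebraMap K' E).comp (algebraMap K K')).toAlgebra
  have : IsScalarTower K K' E := IsScalarTower.of_algebraMap_eq fun _ => rfl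
  let i' : E →ₐ[K] D :=
    { j.comp (i : E →+* C) with
      commutes' := fun c => by
        change j (i (algebraMap K' E (algebraMap K K' c))) = algebraMap K D c
        rw [i.commutes, hj] }
  refine ⟨Algebra.norm K' u, hasNrd_norm hC hE i u, ?_⟩
  rw [Algebra.norm_norm]
  have hEK : finrank K E = n := by rw [← Module.finrank_mul_finrank K K' E, hE, hKK]
  exact hasNrd_norm hdeg hEK i' u

theorem hasNrd_cent (hdeg : finrank K D = n ^ 2) (hC : finrank K' C = m ^ 2)
    (hKK : finrank K K' * m = n) (j : C →+* D)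
    (hj : ∀ c : K, j (algebraMap K' C (algebraMap K K' c)) = algebraMap K D c) {x : C} {ν : K'}
    (hx : HasNrd K' m x ν) : HasNrd K n (j x) (Algebra.norm K ν) := by
  have : CharZero K' := charZero_of_injective_algebraMap (algebraMap K K').injective
  obtain ⟨ν', h1, h2⟩ := exists_nrd_cent hdeg hC hKK j hj x
  rwa [W.HasNrd.unique hC hx h1]

/-- The determinant form. -/
theorem det_cent (hdeg : finrank K D = n ^ 2) (hC : finrank K' C = m ^ 2)
    (hKK : finrank K K' * m = n) (j : C →+* D)
    (hj : ∀ c : K, j (algebraMap K' C (algebraMap K K' c)) = algebraMap K D c)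
    {Ω : Type} [Field Ω] [Algebra K Ω] (f : D →ₐ[K] Matrix (Fin n) (Fin n) Ω)
    {Ω' : Type} [Field Ω'] [Algebra K' Ω'] (g : C →ₐ[K'] Matrix (Fin m) (Fin m) Ω')
    {x : C} {ν : K'} (hx : (g x).det = algebraMap K' Ω' ν) :
    (f (j x)).det = algebraMap K Ω (Algebra.norm K ν) := by
  have : CharZero K' := charZero_of_injective_algebraMap (algebraMap K K').injective
  exact hasNrd_cent hdeg hC hKK j hj (hasNrd_of_det hC g hx) Ω f

/-- Elements of reduced norm one. -/
theorem det_cent_one (hdeg : finrank K D = n ^ 2) (hC : finrank K' C = m ^ 2)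
    (hKK : finrank K K' * m = n) (j : C →+* D)
    (hj : ∀ c : K, j (algebraMap K' C (algebraMap K K' c)) = algebraMap K D c)
    {Ω : Type} [Field Ω] [Algebra K Ω] (f : D →ₐ[K] Matrix (Fin n) (Fin n) Ω)
    {Ω' : Type} [Field Ω'] [Algebra K' Ω'] (g : C →ₐ[K'] Matrix (Fin m) (Fin m) Ω')
    {x : C} (hx : (g x).det = 1) : (f (j x)).det = 1 := by
  have h1 := det_cent hdeg hC hKK j hj f g (x := x) (ν := 1) (by rw [hx, map_one])
  rwa [map_one, map_one] at h1

end nrd

section near

variable {k D : Type} [Field k] [NumberField k] [DivisionRing D] [Algebra k D] {N M : ℕ}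
  (B : Module.Basis (Fin N) k D) {L C : Type} [Field L] [NumberField L] [Algebra k L]
  [DivisionRing C] [Algebra L C] (B' : Module.Basis (Fin M) L C)

include B in
/-- Closeness in `D` implies closeness in `C`. -/
theorem near_cent (j : C →+* D) (hjinj : Function.Injective j)
    (hj : ∀ c : k, j (algebraMap L C (algebraMap k L c)) = algebraMap k D c)
    (v : HeightOneSpectrum (𝓞 k)) {ε : HeightOneSpectrum (𝓞 L) → ℝ} (hε : ∀ w, 0 < ε w) :
    ∃ η : ℝ, 0 < η ∧ ∀ x : C, nm B (.inl v) (j x) < η → ∀ w : HeightOneSpectrum (𝓞 L),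
      w.asIdeal.comap (algebraMap (𝓞 k) (𝓞 L)) = v.asIdeal → nm B' (.inl w) x < ε w := by
  classical
  let algC : Algebra k C := ((algebraMap L C).comp (algebraMap k L)).toAlgebra' fun c x =>
    Algebra.commutes _ _
  have tow : IsScalarTower k L C := IsScalarTower.of_algebraMap_eq fun _ => rfl
  let jl : C →ₗ[k] D :=
    { toFun := j
      map_add' := map_add j
      map_smul' := fun c x => by
        rw [RingHom.id_apply, Algebra.smul_def, Algebra.smul_def, map_mul]
        exact congrArg (· * j x) (hj c) }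
  obtain ⟨r, hr⟩ := jl.exists_leftInverse_of_injective (LinearMap.ker_eq_bot.mpr hjinj)
  rcases Nat.eq_zero_or_pos M with hM | hM
  · refine ⟨1, one_pos, fun x _ w _ => ?_⟩
    subst hM
    rw [Even.nm, Finset.univ_eq_empty, Finset.sum_empty]
    exact hε w
  have hM' : (0 : ℝ) < M := Nat.cast_pos.mpr hM
  choose a ha0 ha using fun w : HeightOneSpectrum (𝓞 L) =>
    exists_abv_lt (.inl w : Pl L) (div_pos (hε w) hM')
  have h1 : ∀ i : Fin M, ∃ η : ℝ, 0 < η ∧ ∀ x : D, nm B (.inl v) x < η →
      ∀ w : HeightOneSpectrum (𝓞 L),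
      w.asIdeal.comap (algebraMap (𝓞 k) (𝓞 L)) = v.asIdeal →
      w.valuation L (((B'.coord i).restrictScalars k).comp r x) < w.valuation L (a w) := fun i =>
    near_lin B (((B'.coord i).restrictScalars k).comp r) v
      (ε := fun w => w.valuation L (a w)) fun w => by
        rw [ne_eq, map_eq_zero]
        exact ha0 w
  choose η hη0 hη using h1
  have hne : (Finset.univ : Finset (Fin M)).Nonempty := ⟨⟨0, hM⟩, Finset.mem_univ _⟩
  refine ⟨Finset.univ.inf' hne η, (Finset.lt_inf'_iff _).mpr fun i _ => hη0 i, ?_⟩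
  intro x hx w hw
  have h2 : ∀ i, plAbv (.inl w) (B'.repr x i) < ε w / M := fun i => by
    refine lt_trans ?_ (ha w)
    rw [plAbv_lt]
    have h3 := hη i (j x) ((Finset.lt_inf'_iff _).mp hx i (Finset.mem_univ _)) w hw
    have h4 : r (j x) = x := LinearMap.congr_fun hr x
    rw [LinearMap.comp_apply, h4] at h3
    exact h3
  calc nm B' (.inl w) x = ∑ i, plAbv (.inl w) (B'.repr x i) := rfl
    _ < ∑ i : Fin M, ε w / M := Finset.sum_lt_sum_of_nonempty hne fun i _ => h2 i
    _ = ε w := by
      rw [Finset.sum_const, Finset.card_univ, Fintype.card_fin, nsmul_eq_mul,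
        mul_div_cancel₀ _ hM'.ne']

end near

end Vale.Agent.P011.Pow
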