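import Vale.Agent.P011.Pow.CentNrd
import Vale.Agent.P011.One.TGlue

/-!
The centralizer of a symmetric square root: the structure used in the induction.
-/

open NumberField IsDedekindDomain Polynomial Module

set_option linter.unusedSectionVars false

namespace Vale.Agent.P011.Pow

open Vale.Agent.P011.Arith Vale.Agent.P011.Even Vale.Agent.P011.Two Vale.Agent.P011.One
open Vale.Agent.P011.W (HasNrd exists_maxfield hasNrd_norm hasNrd_of_det)

/-- `C` is the centralizer of `t` in `D` (by means of `j`), `L = k(t)` and `K' = K(t)`. -/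
structure IsCent (k K D L K' C : Type) [Field k] [Field K] [DivisionRing D] [StarRing D]
    [Algebra k K] [Algebra k D] [Algebra K D] [Field L] [Field K'] [DivisionRing C] [StarRing C]
    [Algebra k L] [Algebra K K'] [Algebra L K'] [Algebra L C] [Algebra K' C]
    (t : D) (a : kˣ) (T : L) (j : C →+* D) : Prop where
  rkL : finrank k L = 2
  rkK : finrank K K' = 2
  sqT : T * T = algebraMap k L a
  repL : ∀ l : L, ∃ u v : k, l = algebraMap k L u + algebraMap k L v * T
  repK : ∀ l : K', ∃ u v : K, l = algebraMap K K' u + algebraMap K K' v * algebraMap L K' T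
  comp : ∀ c : k, algebraMap K K' (algebraMap k K c) = algebraMap L K' (algebraMap k L c)
  inj : Function.Injective j
  star : ∀ x, j (star x) = star (j x)
  range : ∀ y, y * t = t * y ↔ ∃ x, j x = y
  jT : j (algebraMap L C T) = t
  jK : ∀ c : K, j (algebraMap K' C (algebraMap K K' c)) = algebraMap K D c

section basic

variable {k K D L K' C : Type} [Field k] [Field K] [DivisionRing D] [StarRing D]
    [Algebra k K] [Algebra k D] [Algebra K D] [Field L] [Field K'] [DivisionRing C] [StarRing C]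
    [Algebra k L] [Algebra K K'] [Algebra L K'] [Algebra L C] [Algebra K' C]
    [IsScalarTower k K D] [IsScalarTower L K' C]
    {t : D} {a : kˣ} {T : L} {j : C →+* D}

theorem IsCent.jk (h : IsCent k K D L K' C t a T j) (c : k) :
    j (algebraMap L C (algebraMap k L c)) = algebraMap k D c := by
  rw [IsScalarTower.algebraMap_apply L K' C, ← h.comp, h.jK, ← IsScalarTower.algebraMap_apply]

theorem IsCent.comm (h : IsCent k K D L K' C t a T j) (x : C) : j x * t = t * j x :=
  (h.range _).mpr ⟨x, rfl⟩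

theorem IsCent.sq (h : IsCent k K D L K' C t a T j) : t * t = algebraMap k D a := by
  rw [← h.jT, ← map_mul, ← map_mul, h.sqT, h.jk]

end basic

section nrd

variable {k K D L K' C : Type} [Field k] [Field K] [DivisionRing D] [StarRing D]
    [Algebra k K] [Algebra k D] [Algebra K D] [Field L] [Field K'] [DivisionRing C] [StarRing C]
    [Algebra k L] [Algebra K K'] [Algebra L K'] [Algebra L C] [Algebra K' C]
    {t : D} {a : kˣ} {T : L} {j : C →+* D}
    [CharZero K] [FiniteDimensional K D] [Algebra.IsCentral K D] [FiniteDimensional K' C]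
    [Algebra.IsCentral K' C] {m n : ℕ}

include n in
theorem IsCent.hasNrd (h : IsCent k K D L K' C t a T j) (hn : n = 2 * m)
    (hdeg : finrank K D = n ^ 2) (hC : finrank K' C = m ^ 2) {x : C} {ν : K'}
    (hx : HasNrd K' m x ν) : HasNrd K n (j x) (Algebra.norm K ν) :=
  hasNrd_cent hdeg hC (by rw [h.rkK, hn]) j h.jK hx

variable {Ω : Type} [Field Ω] [Algebra K Ω] (f : D →ₐ[K] Matrix (Fin n) (Fin n) Ω)
    {Ω' : Type} [Field Ω'] [Algebra K' Ω'] (g : C →ₐ[K'] Matrix (Fin m) (Fin m) Ω')

theorem IsCent.det (h : IsCent k K D L K' C t a T j) (hn : n = 2 * m)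
    (hdeg : finrank K D = n ^ 2) (hC : finrank K' C = m ^ 2) {x : C} {ν : K'}
    (hx : (g x).det = algebraMap K' Ω' ν) :
    (f (j x)).det = algebraMap K Ω (Algebra.norm K ν) :=
  det_cent hdeg hC (by rw [h.rkK, hn]) j h.jK f g hx

theorem IsCent.mem_GU (h : IsCent k K D L K' C t a T j) (hn : n = 2 * m)
    (hdeg : finrank K D = n ^ 2) (hC : finrank K' C = m ^ 2) {x : C} (hx : x ∈ GU g) :
    j x ∈ GU f := by
  refine ⟨?_, det_cent_one hdeg hC (by rw [h.rkK, hn]) j h.jK f g hx.2⟩
  rw [← h.star, ← map_mul, hx.1, map_one]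

/-- The trace of a set of elements of the special unitary group on the centralizer. -/
theorem IsCent.sub (h : IsCent k K D L K' C t a T j) (hn : n = 2 * m)
    (hdeg : finrank K D = n ^ 2) (hC : finrank K' C = m ^ 2) {M : Set D}
    (h1M : (1 : D) ∈ M) (hmul : ∀ a ∈ M, ∀ b ∈ M, a * b ∈ M) {e : ℕ}
    (hpow : ∀ x ∈ GU f, x ^ e ∈ M) :
    {x : C | x ∈ GU g ∧ j x ∈ M} ⊆ GU g ∧ (1 : C) ∈ {x : C | x ∈ GU g ∧ j x ∈ M} ∧
      (∀ a ∈ {x : C | x ∈ GU g ∧ j x ∈ M}, ∀ b ∈ {x : C | x ∈ GU g ∧ j x ∈ M},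
        a * b ∈ {x : C | x ∈ GU g ∧ j x ∈ M}) ∧
      ∀ x ∈ GU g, x ^ e ∈ {x : C | x ∈ GU g ∧ j x ∈ M} := by
  have hone : (1 : C) ∈ GU g := ⟨by rw [star_one, mul_one], by rw [map_one, Matrix.det_one]⟩
  have hm : ∀ x ∈ GU g, ∀ y ∈ GU g, x * y ∈ GU g := by
    rintro x ⟨hx1, hx2⟩ y ⟨hy1, hy2⟩
    refine ⟨?_, by rw [map_mul, Matrix.det_mul, hx2, hy2, mul_one]⟩
    rw [star_mul, mul_assoc, ← mul_assoc y, hy1, one_mul, hx1]
  refine ⟨fun x hx => hx.1, ⟨hone, by rw [map_one]; exact h1M⟩, ?_, ?_⟩
  · rintro x ⟨hx, hx'⟩ y ⟨hy, hy'⟩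
    exact ⟨hm x hx y hy, by rw [map_mul]; exact hmul _ hx' _ hy'⟩
  · intro x hx
    have h1 : ∀ i : ℕ, x ^ i ∈ GU g := by
      intro i
      induction i with
      | zero => rw [pow_zero]; exact hone
      | succ i ih => rw [pow_succ]; exact hm _ ih _ hx
    exact ⟨h1 e, by rw [map_pow]; exact hpow _ (h.mem_GU f g hn hdeg hC hx)⟩

end nrd

section two

variable {k K D : Type} [Field k] [NumberField k] [Field K] [StarRing K]
    [DivisionRing D] [StarRing D] [Algebra k K] [Algebra k D] [Algebra K D] [IsScalarTower k K D]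
    {d : kˣ} {s : K} {t : D}

/-- The centralizer of a symmetric square root, as a division algebra with involution of the
second kind over a quadratic extension. -/
theorem exists_isCent (hS : Setting k K D d s) {a : kˣ} (ha : ¬ IsSquare (a : k))
    (had : ¬ IsSquare ((a * d : kˣ) : k)) {m : ℕ} (hdeg : finrank K D = (2 * m) ^ 2)
    (ht : t ∈ Xa D a) :
    ∃ (L : Type) (_ : Field L) (_ : NumberField L) (_ : Algebra k L)
      (K' : Type) (_ : Field K') (_ : StarRing K') (_ : NumberField K') (_ : Algebra K K')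
      (C : Type) (_ : DivisionRing C) (_ : StarRing C)
      (_ : Algebra L K') (_ : Algebra L C) (_ : Algebra K' C) (_ : IsScalarTower L K' C)
      (T : L) (j : C →+* D),
      Setting L K' C (inc k L d) (algebraMap K K' s) ∧ finrank K' C = m ^ 2 ∧
      IsCent k K D L K' C t a T j := by
  have hnt : ∀ c : k, algebraMap k D c ≠ t := fun c hc => ha ⟨c, (algebraMap k D).injective (by
        rw [← ht.2, ← hc, map_mul])⟩
  have hntK : ∀ c : K, algebraMap K D c ≠ t := Xa_ne hS ha ht
  have := hS.fin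
  have := hS.cen
  have i3 : Module.Finite k (FL ht.2) := Module.finite_of_finrank_pos (by
      rw [finrank_FL ht.2 hnt]
      exact two_pos)
  have i4 : NumberField (FL ht.2) := NumberField.of_module_finite k (FL ht.2)
  have i7 : Module.Finite k K := Module.finite_of_finrank_pos (by
    rw [hS.rank]
    exact two_pos)
  have hK : NumberField K := NumberField.of_module_finite k K
  have i5 : Module.Finite K (FL (htK K ht.2)) := Module.finite_of_finrank_pos (by
      rw [finrank_FL (htK K ht.2) hntK]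
      exact two_pos)
  have i6 : NumberField (FL (htK K ht.2)) := NumberField.of_module_finite K (FL (htK K ht.2))
  obtain ⟨T, hT⟩ := exists_fv ht.2 (x := t) ⟨0, 1, by rw [map_zero, map_one, one_mul, zero_add]⟩
  let i8 := starCT (K := K) ht.2 ht.1
  let i9 := starFL ht.2 hS ht.1
  refine ⟨FL ht.2, inferInstance, i4, inferInstance, FL (htK K ht.2), inferInstance,
    starFL ht.2 hS ht.1, i6, inferInstance, CT (htK K ht.2), inferInstance,
    starCT (K := K) ht.2 ht.1, inferInstance, inferInstance, inferInstance,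
    IsScalarTower.of_algebraMap_eq fun _ => rfl,
    T, cv (htK K ht.2), setting_CT ht.2 hS ha had ht.1, finrank_FC _ hntK hdeg, ?_⟩
  refine
    { rkL := finrank_FL ht.2 hnt
      rkK := finrank_FL _ hntK
      sqT := ?_
      repL := ?_
      repK := ?_
      comp := algLK ht.2
      inj := cv_inj _
      star := fun x => rfl
      range := ?_
      jT := hT
      jK := fun _ => rfl }
  · apply fv_inj
    rw [map_mul, hT]
    exact ht.2
  · intro l
    obtain ⟨u, v, h⟩ := fv_mem ht.2 l
    refine ⟨u, v, fv_inj _ ?_⟩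
    rw [h, map_add, map_mul, hT]
    rfl
  · intro l
    obtain ⟨u, v, h⟩ := fv_mem (htK K ht.2) l
    refine ⟨u, v, fv_inj _ ?_⟩
    rw [h, map_add, map_mul, fv_algL, hT]
    rfl
  · intro y
    constructor
    · exact exists_cv _
    · rintro ⟨x, rfl⟩
      exact cv_comm _ x

end two

section lift

/-- Lifting homomorphisms through an injective one. -/
theorem exists_lift_hom {A B R : Type} [Ring A] [Ring B] [Ring R] (p : A →+* R) (q : B →+* R)
    (hq : Function.Injective q) (h : ∀ a, ∃ b, q b = p a) :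
    ∃ r : A →+* B, ∀ a, q (r a) = p a := by
  choose r hr using h
  exact ⟨{ toFun := r
           map_one' := hq (by rw [hr, map_one, map_one])
           map_mul' := fun x y => hq (by rw [hr, map_mul, map_mul, hr, hr])
           map_zero' := hq (by rw [hr, map_zero, map_zero])
           map_add' := fun x y => hq (by rw [hr, map_add, map_add, hr, hr]) }, hr⟩

variable {k K D L K' C F F' E L₂ K₂ C₂ : Type} [Field k] [Field K] [DivisionRing D] [StarRing D]
    [Algebra k K] [Algebra k D] [Algebra K D] [IsScalarTower k K D]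
    [Field L] [Field K'] [DivisionRing C] [StarRing C]
    [Algebra k L] [Algebra K K'] [Algebra L K'] [Algebra L C] [Algebra K' C]
    [IsScalarTower L K' C]
    [Field F] [Field F'] [DivisionRing E] [StarRing E]
    [Algebra k F] [Algebra K F'] [Algebra F F'] [Algebra F E] [Algebra F' E]
    [IsScalarTower F F' E]
    [Field L₂] [Field K₂] [DivisionRing C₂] [StarRing C₂]
    [Algebra L L₂] [Algebra K' K₂] [Algebra L₂ K₂] [Algebra L₂ C₂] [Algebra K₂ C₂]
    [IsScalarTower L₂ K₂ C₂]
    {t : D} {a : kˣ} {T : L} {j : C →+* D} {s₁ : D} {b : kˣ} {S : F} {jE : E →+* D}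
    {s₂ : C} {S₂ : L₂} {j₂ : C₂ →+* C}

/-- The centralizer of `t` and `s₁`, seen in the centralizer of `s₁`. -/
theorem IsCent.lift (h : IsCent k K D L K' C t a T j) (hE : IsCent k K D F F' E s₁ b S jE)
    (hs : j s₂ = s₁) (hC : IsCent L K' C L₂ K₂ C₂ s₂ (inc k L b) S₂ j₂) :
    ∃ (_ : Algebra F L₂) (_ : Algebra F' K₂) (tE : E) (i : C₂ →+* E),
      jE tE = t ∧ (∀ x, jE (i x) = j (j₂ x)) ∧
      (∀ c : k, algebraMap F L₂ (algebraMap k F c) = algebraMap L L₂ (algebraMap k L c)) ∧
      (∀ c : K, algebraMap F' K₂ (algebraMap K F' c) = algebraMap K' K₂ (algebraMap K K' c)) ∧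
      algebraMap F L₂ S = S₂ ∧
      IsCent F F' E L₂ K₂ C₂ tE (inc k F a) (algebraMap L L₂ T) i := by
  have hts : s₁ * t = t * s₁ := by
    rw [← hs]
    exact h.comm s₂
  obtain ⟨tE, htE⟩ := (hE.range t).mp hts.symm
  -- the elements of the fields in `D`
  have hjj : Function.Injective (j.comp j₂) := h.inj.comp hC.inj
  have e1 : ∀ c : k, j (j₂ (algebraMap L₂ C₂ (algebraMap L L₂ (algebraMap k L c)))) =
      algebraMap k D c := fun c => by rw [hC.jk, h.jk]
  have e2 : j (j₂ (algebraMap L₂ C₂ S₂)) = s₁ := by rw [hC.jT, hs]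
  have e3 : ∀ c : K, j (j₂ (algebraMap K₂ C₂ (algebraMap K' K₂ (algebraMap K K' c)))) =
      algebraMap K D c := fun c => by rw [hC.jK, h.jK]
  have hπ : Function.Injective ((j.comp j₂).comp (algebraMap L₂ C₂)) :=
    hjj.comp (algebraMap L₂ C₂).injective
  have hπ' : Function.Injective ((j.comp j₂).comp (algebraMap K₂ C₂)) :=
    hjj.comp (algebraMap K₂ C₂).injective
  obtain ⟨r1, hr1⟩ := exists_lift_hom (jE.comp (algebraMap F E)) _ hπ (by
    intro f
    obtain ⟨u, v, rfl⟩ := hE.repL f
    refine ⟨algebraMap L L₂ (algebraMap k L u) + algebraMap L L₂ (algebraMap k L v) * S₂, ?_⟩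
    change j (j₂ (algebraMap L₂ C₂ _)) = jE (algebraMap F E _)
    rw [map_add, map_mul, map_add, map_mul, map_add, map_mul, e1, e1, e2, map_add, map_mul,
      map_add, map_mul, hE.jk, hE.jk, hE.jT])
  obtain ⟨r2, hr2⟩ := exists_lift_hom (jE.comp (algebraMap F' E)) _ hπ' (by
    intro f
    obtain ⟨u, v, rfl⟩ := hE.repK f
    refine ⟨algebraMap K' K₂ (algebraMap K K' u) + algebraMap K' K₂ (algebraMap K K' v) *
      algebraMap L₂ K₂ S₂, ?_⟩
    change j (j₂ (algebraMap K₂ C₂ _)) = jE (algebraMap F' E _)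
    rw [map_add, map_mul, map_add, map_mul, map_add, map_mul, e3, e3,
      ← IsScalarTower.algebraMap_apply L₂ K₂ C₂, e2, map_add, map_mul,
      map_add, map_mul, hE.jK, hE.jK, ← IsScalarTower.algebraMap_apply F F' E, hE.jT])
  obtain ⟨i, hi⟩ := exists_lift_hom (j.comp j₂) jE hE.inj (by
    intro x
    apply (hE.range _).mp
    change j (j₂ x) * s₁ = s₁ * j (j₂ x)
    rw [← hs, ← map_mul, ← map_mul, hC.comm])
  have hi' : ∀ x, jE (i x) = j (j₂ x) := hi
  have hr1' : ∀ x, j (j₂ (algebraMap L₂ C₂ (r1 x))) = jE (algebraMap F E x) := hr1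
  have hr2' : ∀ x, j (j₂ (algebraMap K₂ C₂ (r2 x))) = jE (algebraMap F' E x) := hr2
  let A1 : Algebra F L₂ := r1.toAlgebra
  let A2 : Algebra F' K₂ := r2.toAlgebra
  have f1 : ∀ c : k, algebraMap F L₂ (algebraMap k F c) = algebraMap L L₂ (algebraMap k L c) :=
    fun c => hπ (by
      change j (j₂ (algebraMap L₂ C₂ (r1 _))) = j (j₂ (algebraMap L₂ C₂ _))
      rw [hr1', hE.jk, e1])
  have f2 : ∀ c : K, algebraMap F' K₂ (algebraMap K F' c) =
      algebraMap K' K₂ (algebraMap K K' c) := fun c => hπ' (by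
      change j (j₂ (algebraMap K₂ C₂ (r2 _))) = j (j₂ (algebraMap K₂ C₂ _))
      rw [hr2', hE.jK, e3])
  have f3 : algebraMap F L₂ S = S₂ := hπ (by
      change j (j₂ (algebraMap L₂ C₂ (r1 _))) = j (j₂ (algebraMap L₂ C₂ _))
      rw [hr1', hE.jT, e2])
  have f4 : ∀ c : F, algebraMap F' K₂ (algebraMap F F' c) =
      algebraMap L₂ K₂ (algebraMap F L₂ c) := fun c => hπ' (by
      change j (j₂ (algebraMap K₂ C₂ (r2 _))) = j (j₂ (algebraMap K₂ C₂ _))
      rw [hr2', ← IsScalarTower.algebraMap_apply F F' E,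
        ← IsScalarTower.algebraMap_apply L₂ K₂ C₂]
      exact (hr1' c).symm)
  refine ⟨A1, A2, tE, i, htE, hi, f1, f2, f3, ?_⟩
  refine
    { rkL := ?_
      rkK := ?_
      sqT := ?_
      repL := ?_
      repK := ?_
      comp := f4
      inj := ?_
      star := ?_
      range := ?_
      jT := ?_
      jK := ?_ }
  · let _ : Algebra k L₂ := ((algebraMap L L₂).comp (algebraMap k L)).toAlgebra
    have : IsScalarTower k L L₂ := IsScalarTower.of_algebraMap_eq fun _ => rfl
    have : IsScalarTower k F L₂ := IsScalarTower.of_algebraMap_eq fun c => (f1 c).symm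
    have h1 := Module.finrank_mul_finrank k L L₂
    have h2 := Module.finrank_mul_finrank k F L₂
    rw [h.rkL, hC.rkL] at h1
    rw [hE.rkL] at h2
    omega
  · let _ : Algebra K K₂ := ((algebraMap K' K₂).comp (algebraMap K K')).toAlgebra
    have : IsScalarTower K K' K₂ := IsScalarTower.of_algebraMap_eq fun _ => rfl
    have : IsScalarTower K F' K₂ := IsScalarTower.of_algebraMap_eq fun c => (f2 c).symm
    have h1 := Module.finrank_mul_finrank K K' K₂
    have h2 := Module.finrank_mul_finrank K F' K₂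
    rw [h.rkK, hC.rkK] at h1
    rw [hE.rkK] at h2
    omega
  · rw [← map_mul, h.sqT]
    exact (f1 a).symm
  · intro l
    obtain ⟨x, y, rfl⟩ := hC.repL l
    obtain ⟨x1, x2, rfl⟩ := h.repL x
    obtain ⟨y1, y2, rfl⟩ := h.repL y
    refine ⟨algebraMap k F x1 + algebraMap k F y1 * S, algebraMap k F x2 + algebraMap k F y2 * S,
      ?_⟩
    simp only [map_add, map_mul, f1, f3]
    ring
  · intro l
    obtain ⟨x, y, rfl⟩ := hC.repK l
    obtain ⟨x1, x2, rfl⟩ := h.repK x
    obtain ⟨y1, y2, rfl⟩ := h.repK y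
    refine ⟨algebraMap K F' x1 + algebraMap K F' y1 * algebraMap F F' S,
      algebraMap K F' x2 + algebraMap K F' y2 * algebraMap F F' S, ?_⟩
    simp only [map_add, map_mul, f2, f3, f4, hC.comp]
    ring
  · have h1 : Function.Injective (jE.comp i) := by
      intro x y hxy
      apply hjj
      change j (j₂ x) = j (j₂ y)
      rw [← hi', ← hi']
      exact hxy
    exact Function.Injective.of_comp (f := jE) h1
  · intro x
    apply hE.inj
    rw [hi', hC.star, h.star, hE.star, hi']
  · intro y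
    constructor
    · intro hy
      have h1 : jE y * t = t * jE y := by rw [← htE, ← map_mul, hy, map_mul]
      obtain ⟨c, hc⟩ := (h.range _).mp h1
      have h2 : c * s₂ = s₂ * c := by
        apply h.inj
        rw [map_mul, map_mul, hs, hc]
        exact hE.comm y
      obtain ⟨x, hx⟩ := (hC.range _).mp h2
      refine ⟨x, hE.inj ?_⟩
      rw [hi', hx, hc]
    · rintro ⟨x, rfl⟩
      apply hE.inj
      rw [map_mul, map_mul, htE, hi']
      exact h.comm _
  · apply hE.inj
    rw [hi', hC.jk, h.jT, htE]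
  · intro c
    apply hE.inj
    rw [hi']
    exact hr2' c

end lift

end Vale.Agent.P011.Pow
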