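import Vale.Agent.P011.Pow.CentT
import Vale.Agent.P011.Pow.IsCent

/-!
Closeness in the centralizer and in the algebra.
-/

open NumberField IsDedekindDomain Polynomial Module TensorProduct

set_option linter.unusedSectionVars false

namespace Vale.Agent.P011.Pow

open Vale.Agent.P011.Arith Vale.Agent.P011.Even Vale.Agent.P011.Two Vale.Agent.P011.One
open Vale.Agent.P011.W (Spl HasNrd)

section coords

variable {k L : Type} [Field k] [NumberField k] [Field L] [NumberField L] [Algebra k L]

/-- The coordinates of the elements which are small at all places above `v`. -/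
theorem coord_small {a : kˣ} {T : L} (hrk : finrank k L = 2)
    (hTT : T * T = algebraMap k L a)
    (repL : ∀ l : L, ∃ u v : k, l = algebraMap k L u + algebraMap k L v * T)
    (v : HeightOneSpectrum (𝓞 k)) {γ : Z0} (hγ : γ ≠ 0) : ∃ γ' : Z0, γ' ≠ 0 ∧ ∀ p q : k,
      (∀ w : HeightOneSpectrum (𝓞 L), w.asIdeal.comap (algebraMap (𝓞 k) (𝓞 L)) = v.asIdeal →
        w.valuation L (algebraMap k L p + algebraMap k L q * T) < γ') →
      v.valuation k p < γ ∧ v.valuation k q < γ := by
  have hns : ¬ IsSquare (a : k) := by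
    rintro ⟨c, hc⟩
    have h1 : (T - algebraMap k L c) * (T + algebraMap k L c) = 0 := by
      have h2 : (T - algebraMap k L c) * (T + algebraMap k L c) =
        T * T - algebraMap k L c * algebraMap k L c := by ring
      rw [h2, hTT, ← map_mul, hc, sub_self]
    obtain ⟨c', hc'⟩ : ∃ c', T = algebraMap k L c' := by
      rcases mul_eq_zero.mp h1 with h | h
      · exact ⟨c, sub_eq_zero.mp h⟩
      · exact ⟨-c, by rw [map_neg]; exact eq_neg_of_add_eq_zero_left h⟩
    have h4 : (⊥ : Subalgebra k L) = ⊤ := by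
      rw [eq_top_iff]
      intro l _
      obtain ⟨u, v', rfl⟩ := repL l
      rw [hc', Algebra.mem_bot]
      exact ⟨u + v' * c', by rw [map_add, map_mul]⟩
    have h5 := Subalgebra.bot_eq_top_iff_finrank_eq_one.mp h4
    omega
  obtain ⟨σ, Q⟩ := exists_QD hrk (by rw [sq, hTT]) hns
  obtain ⟨w0, hw0⟩ := exists_above (E := L) v
  obtain ⟨w1, hw1, hab⟩ := exists_conj σ w0
  have hw1v := (hab v).mp hw0
  have hw1' : ∀ z, w1.valuation L z = w0.valuation L (σ z) := by
    intro z
    rw [← hw1, Q.conj_conj]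
  obtain ⟨e, he, hv⟩ := val_above hw0
  have h20 : w0.valuation L 2 ≠ 0 := (Valuation.ne_zero_iff _).mpr two_ne_zero
  have hT0 : w0.valuation L T ≠ 0 := (Valuation.ne_zero_iff _).mpr Q.theta_ne
  have hγe : γ ^ e ≠ 0 := pow_ne_zero _ hγ
  refine ⟨min (w0.valuation L 2 * γ ^ e) (w0.valuation L 2 * γ ^ e * w0.valuation L T), ?_, ?_⟩
  · rcases min_choice (w0.valuation L 2 * γ ^ e)
      (w0.valuation L 2 * γ ^ e * w0.valuation L T) with h | h <;> rw [h]
    · exact mul_ne_zero h20 hγe
    · exact mul_ne_zero (mul_ne_zero h20 hγe) hT0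
  · intro p q h
    have h0 := h w0 hw0
    have h1 := h w1 hw1v
    rw [hw1'] at h1
    have h2p : w0.valuation L (algebraMap k L p * 2) <
        min (w0.valuation L 2 * γ ^ e) (w0.valuation L 2 * γ ^ e * w0.valuation L T) := by
      have e1 : algebraMap k L p * 2 = (algebraMap k L p + algebraMap k L q * T) +
          σ (algebraMap k L p + algebraMap k L q * T) := by
        rw [Q.conj_coords]
        ring
      rw [e1]
      exact Valuation.map_add_lt _ h0 h1
    have h2q : w0.valuation L (algebraMap k L q * T * 2) <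
        min (w0.valuation L 2 * γ ^ e) (w0.valuation L 2 * γ ^ e * w0.valuation L T) := by
      have e1 : algebraMap k L q * T * 2 = (algebraMap k L p + algebraMap k L q * T) -
          σ (algebraMap k L p + algebraMap k L q * T) := by
        rw [Q.conj_coords]
        ring
      rw [e1]
      exact Valuation.map_sub_lt _ h0 h1
    have hpos2 : 0 < w0.valuation L 2 := zero_lt_iff.mpr h20
    have hposT : 0 < w0.valuation L T := zero_lt_iff.mpr hT0
    constructor
    · have h3 := h2p.trans_le (min_le_left _ _)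
      rw [map_mul, mul_comm, hv, mul_lt_mul_iff_right₀ hpos2] at h3
      exact lt_of_pow_lt_pow_left₀ e zero_le h3
    · have h3 := h2q.trans_le (min_le_right _ _)
      have e2 : w0.valuation L (algebraMap k L q * T * 2) =
          w0.valuation L 2 * (v.valuation k q ^ e) * w0.valuation L T := by
        rw [map_mul, map_mul, hv]
        ac_rfl
      rw [e2, mul_lt_mul_iff_left₀ hposT, mul_lt_mul_iff_right₀ hpos2] at h3
      exact lt_of_pow_lt_pow_left₀ e zero_le h3

end coords

section near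

variable {k D : Type} [Field k] [NumberField k] [DivisionRing D] [Algebra k D] {N M : ℕ}
  (B : Module.Basis (Fin N) k D) {L C : Type} [Field L] [NumberField L] [Algebra k L]
  [DivisionRing C] [Algebra L C] (B' : Module.Basis (Fin M) L C)

/-- **Closeness in the centralizer implies closeness in the algebra.** -/
theorem near_up {a : kˣ} {T : L} (hrk : finrank k L = 2) (hTT : T * T = algebraMap k L a)
    (repL : ∀ l : L, ∃ u v : k, l = algebraMap k L u + algebraMap k L v * T) (j : C →+* D)
    (hj : ∀ c : k, j (algebraMap L C (algebraMap k L c)) = algebraMap k D c)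
    (v : HeightOneSpectrum (𝓞 k)) {ε : ℝ} (hε : 0 < ε) :
    ∃ η : ℝ, 0 < η ∧ ∀ x : C, (∀ w : HeightOneSpectrum (𝓞 L),
      w.asIdeal.comap (algebraMap (𝓞 k) (𝓞 L)) = v.asIdeal → nm B' (.inl w) x < η) →
      nm B (.inl v) (j x) < ε := by
  classical
  obtain ⟨t, ht⟩ : ∃ t, t = j (algebraMap L C T) := ⟨_, rfl⟩
  -- the constant
  obtain ⟨A, hA⟩ : ∃ A : ℝ, A = ∑ i, (nm B (.inl v) (j (B' i)) + nm B (.inl v) (t * j (B' i))) + 1 :=
    ⟨_, rfl⟩
  have hA0 : 0 < A := by
    rw [hA]
    have := Finset.sum_nonneg fun (i : Fin M) (_ : i ∈ Finset.univ) =>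
      add_nonneg (nm_nonneg B (.inl v) (j (B' i))) (nm_nonneg B (.inl v) (t * j (B' i)))
    linarith
  obtain ⟨c, hc0, hc⟩ := exists_abv_lt (.inl v : Pl k) (div_pos hε hA0)
  obtain ⟨γ', hγ', hco⟩ := coord_small hrk hTT repL v (γ := v.valuation k c)
    ((Valuation.ne_zero_iff _).mpr hc0)
  -- the size at the places above
  have hη : ∃ η : ℝ, 0 < η ∧ ∀ w : HeightOneSpectrum (𝓞 L),
      w.asIdeal.comap (algebraMap (𝓞 k) (𝓞 L)) = v.asIdeal → ∀ l : L,
      plAbv (.inl w) l < η → w.valuation L l < γ' := by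
    have h1 : ∀ w : HeightOneSpectrum (𝓞 L), ∃ δ : ℝ, 0 < δ ∧ ∀ l : L,
        plAbv (.inl w) l < δ → w.valuation L l < γ' := by
      intro w
      obtain ⟨z, hz⟩ := w.valuation_surjective L γ'
      have hz0 : z ≠ 0 := by
        rintro rfl
        rw [map_zero] at hz
        exact hγ' hz.symm
      refine ⟨plAbv (.inl w) z, (plAbv (.inl w)).pos hz0, fun l hl => ?_⟩
      rw [← hz]
      exact (plAbv_lt w l z).mp hl
    choose δ hδ0 hδ using h1
    have hfin := above_finite (E := L) v
    rcases hfin.toFinset.eq_empty_or_nonempty with he | hne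
    · refine ⟨1, one_pos, fun w hw => ?_⟩
      have : w ∈ hfin.toFinset := hfin.mem_toFinset.mpr hw
      rw [he] at this
      exact absurd this (Finset.notMem_empty _)
    · refine ⟨hfin.toFinset.inf' hne δ, (Finset.lt_inf'_iff _).mpr fun w _ => hδ0 w,
        fun w hw l hl => hδ w l (hl.trans_le (Finset.inf'_le _ (hfin.mem_toFinset.mpr hw)))⟩
  obtain ⟨η, hη0, hη⟩ := hη
  refine ⟨η, hη0, fun x hx => ?_⟩
  choose p q hpq using fun i => repL (B'.repr x i)
  have hsmall : ∀ i, v.valuation k (p i) < v.valuation k c ∧ v.valuation k (q i) < v.valuation k c := by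
    intro i
    refine hco _ _ fun w hw => ?_
    rw [← hpq]
    exact hη w hw _ (nm_lt_coord B' _ (hx w hw) i)
  have hjx : j x = ∑ i, (p i • j (B' i) + q i • (t * j (B' i))) := by
    conv_lhs => rw [← B'.sum_repr x]
    rw [map_sum]
    refine Finset.sum_congr rfl fun i _ => ?_
    rw [Algebra.smul_def, map_mul, hpq, map_add, map_add, map_mul, map_mul, hj, hj, ← ht, add_mul,
      Algebra.smul_def, Algebra.smul_def, mul_assoc]
  have hle : ∀ i ∈ (Finset.univ : Finset (Fin M)),
      nm B (.inl v) (p i • j (B' i) + q i • (t * j (B' i))) ≤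
        plAbv (.inl v) c * (nm B (.inl v) (j (B' i)) + nm B (.inl v) (t * j (B' i))) := by
    intro i _
    refine (nm_add_le _ _ _ _).trans ?_
    rw [nm_smul, nm_smul, mul_add]
    refine add_le_add (mul_le_mul_of_nonneg_right ?_ (nm_nonneg _ _ _))
      (mul_le_mul_of_nonneg_right ?_ (nm_nonneg _ _ _))
    · exact ((plAbv_lt v _ _).mpr (hsmall i).1).le
    · exact ((plAbv_lt v _ _).mpr (hsmall i).2).le
  rw [hjx]
  refine ((nm_sum_le B _ _ _).trans (Finset.sum_le_sum hle)).trans_lt ?_
  rw [← Finset.mul_sum]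
  have hS : ∑ i, (nm B (.inl v) (j (B' i)) + nm B (.inl v) (t * j (B' i))) < A := by
    rw [hA]
    exact lt_add_one _
  have hc1 : 0 < plAbv (.inl v) c := (plAbv (.inl v)).pos hc0
  calc plAbv (.inl v) c * ∑ i, (nm B (.inl v) (j (B' i)) + nm B (.inl v) (t * j (B' i)))
      < plAbv (.inl v) c * A := mul_lt_mul_of_pos_left hS hc1
    _ < ε / A * A := mul_lt_mul_of_pos_right hc hA0
    _ = ε := div_mul_cancel₀ _ hA0.ne'

end near

section wrappers

variable {k K D L K' C : Type} [Field k] [NumberField k] [Field K] [NumberField K] [StarRing K]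
  [DivisionRing D] [StarRing D] [Algebra k K] [Algebra k D] [Algebra K D] [IsScalarTower k K D]
  [Field L] [NumberField L] [Algebra k L] [Field K'] [StarRing K']
  [NumberField K'] [Algebra K K'] [DivisionRing C] [StarRing C] [Algebra L K'] [Algebra L C]
  [Algebra K' C] [IsScalarTower L K' C] {t : D} {a : kˣ} {T : L} {j : C →+* D} {d : kˣ} {s : K}

/-- The places of `Tdiv` of the centralizer are above the ramified places. -/
theorem IsCent.tdiv_over (h : IsCent k K D L K' C t a T j) (hS : Setting k K D d s)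
    (hS' : Setting L K' C (inc k L d) (algebraMap K K' s)) {m : ℕ} (hm : 2 ≤ m)
    (hC : finrank K' C = m ^ 2) {w' : HeightOneSpectrum (𝓞 L)}
    (hw' : (Sum.inl w' : Pl L) ∈ Tdiv L K' C) :
    ∃ v ∈ Ram k K D (2 * m), w'.asIdeal.comap (algebraMap (𝓞 k) (𝓞 L)) = v.asIdeal ∧
      (a ∈ LS (v.valuation k) → d ∈ LS (v.valuation k)) := by
  have := hS.cen
  have := hS'.fin
  obtain ⟨v, hv, hw⟩ := Pow.tdiv_over hm hC a.ne_zero h.rkK h.sqT h.repK h.comp h.comm h.jT h.jK hw'
  exact ⟨v, hv, hw, fun ha => ls_below h.sqT h.repL ha hw (tdiv_ls hS' hw')⟩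

/-- The centralizer is a division algebra above the places of `Tdiv`. -/
theorem IsCent.tdiv_up (h : IsCent k K D L K' C t a T j) (hS : Setting k K D d s)
    (hS' : Setting L K' C (inc k L d) (algebraMap K K' s))
    {v : HeightOneSpectrum (𝓞 k)} (hv : (Sum.inl v : Pl k) ∈ Tdiv k K D)
    {w' : HeightOneSpectrum (𝓞 L)}
    (hw' : w'.asIdeal.comap (algebraMap (𝓞 k) (𝓞 L)) = v.asIdeal) :
    (Sum.inl w' : Pl L) ∈ Tdiv L K' C := by
  have := hS'.fin
  have : FiniteDimensional K K' := Module.finite_of_finrank_pos (by rw [h.rkK]; norm_num)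
  exact Pow.tdiv_up hS hS' h.repL h.comp h.jK hv hw'

/-- Closeness in the centralizer implies closeness in the algebra. -/
theorem IsCent.near_up (h : IsCent k K D L K' C t a T j) {N M : ℕ}
    (B : Module.Basis (Fin N) k D) (B' : Module.Basis (Fin M) L C)
    (v : HeightOneSpectrum (𝓞 k)) {ε : ℝ} (hε : 0 < ε) :
    ∃ η : ℝ, 0 < η ∧ ∀ x : C, (∀ w : HeightOneSpectrum (𝓞 L),
      w.asIdeal.comap (algebraMap (𝓞 k) (𝓞 L)) = v.asIdeal → nm B' (.inl w) x < η) →
      nm B (.inl v) (j x) < ε :=
  Pow.near_up B B' h.rkL h.sqT h.repL j h.jk v hε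

/-- Closeness in the algebra implies closeness in the centralizer. -/
theorem IsCent.near_down (h : IsCent k K D L K' C t a T j) {N M : ℕ}
    (B : Module.Basis (Fin N) k D) (B' : Module.Basis (Fin M) L C)
    (v : HeightOneSpectrum (𝓞 k)) {ε : HeightOneSpectrum (𝓞 L) → ℝ} (hε : ∀ w, 0 < ε w) :
    ∃ η : ℝ, 0 < η ∧ ∀ x : C, nm B (.inl v) (j x) < η → ∀ w : HeightOneSpectrum (𝓞 L),
      w.asIdeal.comap (algebraMap (𝓞 k) (𝓞 L)) = v.asIdeal → nm B' (.inl w) x < ε w :=
  near_cent B B' j h.inj h.jk v hε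

end wrappers

end Vale.Agent.P011.Pow
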