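import Vale.Agent.P011.W.Eich
import Vale.Agent.P011.W.MaxF

/-!
Eichler's norm theorem with control of the element at given places.
-/

open NumberField IsDedekindDomain Polynomial Module

namespace Vale.Agent.P011.Pow

open Vale.Agent.P011.Arith (Z0 Pl plAbv plAbv_lt plAbv_inr approx)
open Vale.Agent.P011.W

section newton

variable {E : Type*} [Field E] (V : Valuation E Z0)

/-- Newton's iteration for `e`-th powers in a valued field, with control of the root. -/
theorem newton_near {e : ℕ} (he : V (e : E) ≠ 0) {μ : E} {β : Z0} (hβ1 : β ≤ 1)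
    (hμ : V (μ - 1) < V (e : E) ^ 2 * β) {γ : Z0} (hγ : γ ≠ 0) :
    ∃ ν : E, V ν = 1 ∧ V (ν - 1) < V (e : E) * β ∧ V (ν ^ e - μ) < γ := by
  have hle := e_val_nat_le V e
  have he2 : V (e : E) ^ 2 * β ≤ V (e : E) ^ 2 := by
    calc V (e : E) ^ 2 * β ≤ V (e : E) ^ 2 * 1 := mul_le_mul_right hβ1 _
      _ = _ := mul_one _
  have hβ0 : β ≠ 0 := by
    rintro rfl
    rw [mul_zero] at hμ
    exact not_lt_zero hμ
  have he2' : V (e : E) ^ 2 * β ≤ V (e : E) * β := by
    rw [pow_two]
    calc V (e : E) * V (e : E) * β ≤ V (e : E) * 1 * β :=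
          mul_le_mul_left (mul_le_mul_right hle _) _
      _ = _ := by rw [mul_one]
  have hb : ∀ ν : E, V (ν - 1) < V (e : E) → V ν = 1 := by
    intro ν h
    have h1 := V.map_one_add_of_lt (lt_of_lt_of_le h hle)
    rwa [add_sub_cancel] at h1
  have key : ∀ n : ℕ, ∃ ν : E, V (ν - 1) < V (e : E) ∧
      V (ν ^ e - μ) ≤ V (e : E) ^ 2 * WithZero.exp (-(n + 1 : ℤ)) := by
    intro n
    induction n with
    | zero =>
      refine ⟨1, by rw [sub_self, map_zero]; exact zero_lt_iff.mpr he, ?_⟩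
      rw [one_pow, Valuation.map_sub_swap]
      simpa using (e_z0_lt_iff (pow_ne_zero 2 he)).mp (hμ.trans_le he2)
    | succ n ih =>
      obtain ⟨ν, h1, h2⟩ := ih
      have hν := hb ν h1
      have hν0 : ν ≠ 0 := by
        rintro rfl
        rw [map_zero] at hν
        exact zero_ne_one hν
      have heE : (e : E) ≠ 0 := (Valuation.ne_zero_iff V).mp he
      obtain ⟨h, hh⟩ : ∃ h : E, h = -(ν ^ e - μ) / (e * ν ^ (e - 1)) := ⟨_, rfl⟩
      have hVh : V h ≤ V (e : E) * WithZero.exp (-(n + 1 : ℤ)) := by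
        rw [hh, map_div₀, Valuation.map_neg, map_mul, map_pow, hν, one_pow, mul_one,
          div_le_iff₀ (zero_lt_iff.mpr he)]
        refine h2.trans (le_of_eq ?_)
        rw [pow_two, mul_right_comm]
      have hexp : (WithZero.exp (-(n + 1 : ℤ)) : Z0) < 1 := by
        rw [← WithZero.exp_zero, WithZero.exp_lt_exp]; omega
      have hVh' : V h < V (e : E) := by
        refine lt_of_le_of_lt hVh ?_
        calc V (e : E) * WithZero.exp (-(n + 1 : ℤ)) < V (e : E) * 1 :=
              mul_lt_mul_of_pos_left hexp (zero_lt_iff.mpr he)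
          _ = V (e : E) := mul_one _
      obtain ⟨k, hk1, hk2⟩ := e_exists_expand V hν.le (hVh'.le.trans hle) e
      refine ⟨ν + h, ?_, ?_⟩
      · rw [add_sub_right_comm]
        exact V.map_add_lt h1 hVh'
      · have e1 : (ν + h) ^ e - μ = k * h ^ 2 := by
          rw [hk2, hh]
          field_simp
          ring
        rw [e1, map_mul, map_pow]
        calc V k * V h ^ 2 ≤ 1 * (V (e : E) * WithZero.exp (-(n + 1 : ℤ))) ^ 2 :=
              mul_le_mul' hk1 (pow_le_pow_left' hVh 2)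
          _ = V (e : E) ^ 2 * WithZero.exp (-(n + 1 : ℤ)) ^ 2 := by rw [one_mul, mul_pow]
          _ ≤ V (e : E) ^ 2 * WithZero.exp (-((n + 1 : ℕ) + 1 : ℤ)) := by
              refine mul_le_mul_right ?_ _
              rw [← WithZero.exp_nsmul, WithZero.exp_le_exp]
              simp only [nsmul_eq_mul]
              push_cast
              omega
  obtain ⟨γ', hγ'0, hγ'1, hγ'2⟩ : ∃ γ' : Z0, γ' ≠ 0 ∧ γ' ≤ γ ∧ γ' ≤ V (e : E) ^ 2 * β :=
    ⟨min γ (V (e : E) ^ 2 * β), by
      rcases min_choice γ (V (e : E) ^ 2 * β) with h | h <;> rw [h]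
      · exact hγ
      · exact mul_ne_zero (pow_ne_zero 2 he) hβ0, min_le_left _ _, min_le_right _ _⟩
  obtain ⟨ν, h1, h2⟩ := key (WithZero.log γ').natAbs
  have h3 : V (ν ^ e - μ) < γ' := by
    refine lt_of_le_of_lt h2 ?_
    calc V (e : E) ^ 2 * WithZero.exp (-(((WithZero.log γ').natAbs : ℕ) + 1 : ℤ)) ≤
          1 * WithZero.exp (-(((WithZero.log γ').natAbs : ℕ) + 1 : ℤ)) :=
          mul_le_mul_left (pow_le_one' hle 2) _
      _ < γ' := by
          rw [one_mul]
          conv_rhs => rw [← WithZero.exp_log hγ'0]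
          rw [WithZero.exp_lt_exp]
          omega
  refine ⟨ν, hb ν h1, ?_, h3.trans_le hγ'1⟩
  -- the size of the root
  have h4 : V (ν ^ e - 1) < V (e : E) ^ 2 * β := by
    have h5 := V.map_add_lt (h3.trans_le hγ'2) hμ
    rwa [sub_add_sub_cancel] at h5
  obtain ⟨k, hk1, hk2⟩ := e_exists_expand V (x := 1) (y := ν - 1) (by rw [map_one])
    (h1.le.trans hle) e
  rw [add_sub_cancel, one_pow, one_pow, mul_one] at hk2
  have h5 : ν ^ e - 1 = (ν - 1) * (e + k * (ν - 1)) := by
    rw [hk2]; ring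
  have h6 : V ((e : E) + k * (ν - 1)) = V (e : E) := by
    refine V.map_add_eq_of_lt_left ?_
    rw [map_mul]
    calc V k * V (ν - 1) ≤ 1 * V (ν - 1) := mul_le_mul_left hk1 _
      _ < _ := by rwa [one_mul]
  rw [h5, map_mul, h6, pow_two, mul_assoc, mul_comm] at h4
  exact (mul_lt_mul_iff_of_pos_left (zero_lt_iff.mpr he)).mp h4

end newton

section

variable {F D : Type} [Field F] [DivisionRing D] [Algebra F D] [FiniteDimensional F D]

/-- The minimal polynomial of `1 + c x`. -/
theorem minpoly_affine (x : D) {c : F} (hc : c ≠ 0) :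
    minpoly F (1 + algebraMap F D c * x) = ((minpoly F x).scaleRoots c).comp (X - C 1) := by
  have hint : ∀ z : D, IsIntegral F z := fun z => IsIntegral.of_finite F z
  have hsc : ∀ (c : F) (z : D) (P : F[X]), aeval z P = 0 →
      aeval (algebraMap F D c * z) (P.scaleRoots c) = 0 := fun c z P h =>
    scaleRoots_aeval_eq_zero h
  have htr : ∀ (c : F) (z : D) (P : F[X]), aeval z P = 0 →
      aeval (z + algebraMap F D c) (P.comp (X - C c)) = 0 := by
    intro c z P h
    rw [aeval_comp, map_sub, aeval_X, aeval_C, add_sub_cancel_right, h]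
  have hmon : (((minpoly F x).scaleRoots c).comp (X - C 1)).Monic := by
    refine Monic.comp ((monic_scaleRoots_iff c).mpr (minpoly.monic (hint x))) (monic_X_sub_C 1) ?_
    rw [natDegree_X_sub_C]
    exact one_ne_zero
  have h0 : aeval (1 + algebraMap F D c * x) (((minpoly F x).scaleRoots c).comp (X - C 1)) = 0 := by
    have h1 := htr 1 _ _ (hsc c x _ (minpoly.aeval F x))
    rwa [map_one, add_comm] at h1
  have hdeg : (((minpoly F x).scaleRoots c).comp (X - C 1)).natDegree = (minpoly F x).natDegree := by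
    rw [natDegree_comp, natDegree_X_sub_C, mul_one, natDegree_scaleRoots]
  refine (eq_of_monic_of_dvd_of_natDegree_le (minpoly.monic (hint _)) hmon
    (minpoly.dvd F _ h0) ?_).symm
  rw [hdeg]
  -- the converse inequality
  have h1 := htr (-1) _ _ (minpoly.aeval F (1 + algebraMap F D c * x))
  have h2 := hsc c⁻¹ _ _ h1
  have e1 : algebraMap F D c⁻¹ * (1 + algebraMap F D c * x + algebraMap F D (-1)) = x := by
    rw [map_neg, map_one, map_inv₀]
    have hc' : algebraMap F D c ≠ 0 := (_root_.map_ne_zero _).mpr hc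
    rw [add_assoc, add_comm, add_assoc, neg_add_cancel, add_zero, inv_mul_cancel_left₀ hc']
  rw [e1] at h2
  have h3 : ((minpoly F (1 + algebraMap F D c * x)).comp (X - C (-1))).Monic := by
    refine Monic.comp (minpoly.monic (hint _)) (monic_X_sub_C _) ?_
    rw [natDegree_X_sub_C]
    exact one_ne_zero
  have h4 := natDegree_le_of_dvd (minpoly.dvd F _ h2)
    (scaleRoots_ne_zero h3.ne_zero _)
  rwa [natDegree_scaleRoots, natDegree_comp, natDegree_X_sub_C, mul_one] at h4

end

section target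

variable {F D : Type} [Field F] [NumberField F] [DivisionRing D] [Algebra F D]
    [FiniteDimensional F D] [Algebra.IsCentral F D]

omit [NumberField F] [FiniteDimensional F D] [Algebra.IsCentral F D] [DivisionRing D]
  [Algebra F D] in
theorem exists_small [NumberField F] (v : HeightOneSpectrum (𝓞 F)) {γ : Z0} (hγ : γ ≠ 0) :
    ∃ t : F, t ≠ 0 ∧ v.valuation F t < γ := by
  obtain ⟨π, hπ⟩ := v.valuation_exists_uniformizer F
  refine ⟨π ^ ((WithZero.log γ).natAbs + 1), pow_ne_zero _ ?_, ?_⟩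
  · rintro rfl
    rw [map_zero] at hπ
    exact WithZero.exp_ne_zero hπ.symm
  · rw [map_pow, hπ, ← WithZero.exp_nsmul]
    conv_rhs => rw [← WithZero.exp_log hγ]
    rw [WithZero.exp_lt_exp, nsmul_eq_mul]
    omega

/-- The target polynomial at a place where the element has to be near `1`. -/
theorem exists_target_near {d : ℕ} (hd : d ≠ 0) (hD : finrank F D = d ^ 2)
    (v : HeightOneSpectrum (𝓞 F)) {γ : Z0} (hγ : γ ≠ 0) :
    ∃ δ : Z0, δ ≠ 0 ∧ ∀ y : F, v.valuation F (y - 1) < δ →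
    ∃ (Q : F[X]) (g : F), g ≠ 0 ∧ v.valuation F ((-1) ^ d * y - Q.coeff 0) < v.valuation F g ∧
      (∀ f : F[X], f.Monic → f.natDegree = d →
      (∀ i, i < d → v.valuation F (f.coeff i - Q.coeff i) < v.valuation F g) →
      ∀ (L : Type) [Field L] [NumberField L] [Algebra F L] (w : HeightOneSpectrum (𝓞 L)),
        w.asIdeal.comap (algebraMap (𝓞 F) (𝓞 L)) = v.asIdeal → ∀ ξ : L, aeval ξ f = 0 →
        Spl D d (pl (F := F) L w)) ∧
      ∀ f : F[X], f.Monic → f.natDegree = d →
      (∀ i, i < d → v.valuation F (f.coeff i - Q.coeff i) < v.valuation F g) →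
      v.valuation F (f.eval 1) < γ := by
  set V := v.valuation F with hV
  have hd0 : V (d : F) ≠ 0 := (Valuation.ne_zero_iff _).mpr (Nat.cast_ne_zero.mpr hd)
  have hdle : V (d : F) ≤ 1 := e_val_nat_le V d
  obtain ⟨x, hx, -⟩ := exists_near (deg_pos hD) hD v 1 1 one_ne_zero
  obtain ⟨b, hb0, hb1, hb2⟩ := exists_denom V (minpoly F x)
  -- the scale
  obtain ⟨β, hβ0, hβ1, hβγ⟩ : ∃ β : Z0, β ≠ 0 ∧ β ≤ 1 ∧ β ≤ γ :=
    ⟨min γ 1, by
      rcases min_choice γ 1 with h | h <;> rw [h]
      · exact hγ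
      · exact one_ne_zero, min_le_right _ _, min_le_left _ _⟩
  obtain ⟨t, ht0, ht⟩ : ∃ t : F, t ≠ 0 ∧ V t < V (d : F) ^ 2 * β :=
    exists_small v (mul_ne_zero (pow_ne_zero 2 hd0) hβ0)
  have hdβ : V (d : F) ^ 2 * β ≤ 1 := mul_le_one' (pow_le_one' hdle 2) hβ1
  have ht1 : V t ≤ 1 := ht.le.trans hdβ
  obtain ⟨c₀, hc₀⟩ : ∃ c₀, c₀ = b * t := ⟨_, rfl⟩
  have hc₀0 : c₀ ≠ 0 := by rw [hc₀]; exact mul_ne_zero hb0 ht0
  have hc₀1 : V c₀ ≤ 1 := by rw [hc₀, map_mul]; exact mul_le_one' hb1 ht1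
  obtain ⟨P, hP⟩ : ∃ P, P = minpoly F x := ⟨_, rfl⟩
  have hPd : P.natDegree = d := by rw [hP, hx]
  have hPm : P.Monic := hP ▸ minpoly.monic (IsIntegral.of_finite F x)
  rw [← hP] at hb2
  obtain ⟨R, hR⟩ : ∃ R, R = (P.scaleRoots c₀).comp (X - C 1) := ⟨_, rfl⟩
  have hmin : minpoly F (1 + algebraMap F D c₀ * x) = R := by
    rw [hR, hP]; exact minpoly_affine x hc₀0
  have hRd : R.natDegree = d := by
    rw [hR, natDegree_comp, natDegree_X_sub_C, mul_one, natDegree_scaleRoots, hPd]
  have hRm : R.Monic := hmin ▸ minpoly.monic (IsIntegral.of_finite F _)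
  -- evaluation of `R`
  have hsplit : ∀ a : F, V a ≤ 1 → V ((P.scaleRoots c₀).eval a - a ^ d) ≤ V t := by
    intro a ha
    have e1 : (P.scaleRoots c₀).eval a = ∑ i ∈ Finset.range (d + 1),
        (P.coeff i * c₀ ^ (d - i)) * a ^ i := by
      rw [eval_eq_sum_range, natDegree_scaleRoots, hPd]
      refine Finset.sum_congr rfl fun i _ => ?_
      rw [coeff_scaleRoots, hPd]
    rw [e1, Finset.sum_range_succ, Nat.sub_self, pow_zero, mul_one]
    have e2 : P.coeff d = 1 := by
      have := hPm.coeff_natDegree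
      rwa [hPd] at this
    rw [e2, one_mul, add_sub_cancel_right]
    refine V.map_sum_le fun i hi => ?_
    have hid : i < d := Finset.mem_range.mp hi
    obtain ⟨m, hm⟩ : ∃ m, d - i = m + 1 := ⟨d - i - 1, by omega⟩
    have e3 : P.coeff i * c₀ ^ (d - i) * a ^ i = (b * P.coeff i) * (c₀ ^ m * a ^ i) * t := by
      rw [hm, pow_succ]
      conv_lhs => rw [show c₀ ^ m * c₀ = c₀ ^ m * (b * t) by rw [← hc₀]]
      ring
    rw [e3, map_mul]
    calc _ ≤ 1 * V t := by
          refine mul_le_mul_left ?_ _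
          rw [map_mul V (b * P.coeff i), map_mul V (c₀ ^ m), map_pow, map_pow]
          exact mul_le_one' (hb2 i) (mul_le_one' (pow_le_one' hc₀1 m) (pow_le_one' ha i))
      _ = V t := one_mul _
  have hReval : ∀ a : F, R.eval a = (P.scaleRoots c₀).eval (a - 1) := by
    intro a
    rw [hR, eval_comp, eval_sub, eval_X, eval_C]
  -- the norm of the reference
  obtain ⟨ν, hν⟩ : ∃ ν : F, ν = (-1) ^ d * R.coeff 0 := ⟨_, rfl⟩
  have hneg : ((-1 : F) ^ d) * (-1) ^ d = 1 := by rw [← mul_pow]; norm_num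
  have hνV : V (ν - 1) < V (d : F) ^ 2 * β := by
    have e1 : ν - 1 = (-1) ^ d * ((P.scaleRoots c₀).eval (-1) - (-1) ^ d) := by
      rw [hν, coeff_zero_eq_eval_zero, hReval, zero_sub]
      linear_combination hneg
    rw [e1, map_mul, map_pow, Valuation.map_neg, map_one, one_pow, one_mul]
    exact (hsplit (-1) (by rw [Valuation.map_neg, map_one])).trans_lt ht
  have hν1 : V ν = 1 := by
    have h1 := V.map_one_add_of_lt (x := ν - 1) (lt_of_lt_of_le hνV hdβ)
    rwa [add_sub_cancel] at h1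
  have hν0 : ν ≠ 0 := by
    rintro rfl
    rw [map_zero] at hν1
    exact zero_ne_one hν1
  refine ⟨V (d : F) ^ 2 * β, mul_ne_zero (pow_ne_zero 2 hd0) hβ0, fun y hy => ?_⟩
  have hy1 : V y = 1 := by
    have h1 := V.map_one_add_of_lt (x := y - 1) (lt_of_lt_of_le hy hdβ)
    rwa [add_sub_cancel] at h1
  obtain ⟨g₀, hg₀0, hg₀⟩ := loc (Nat.pos_of_ne_zero hd) hD v (1 + algebraMap F D c₀ * x) (by
    rw [hmin, hRd])
  -- a smaller radius
  obtain ⟨g, hg0, hgg₀, hgt⟩ : ∃ g : F, g ≠ 0 ∧ V g ≤ V g₀ ∧ V g ≤ V t := by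
    rcases le_total (V g₀) (V t) with h | h
    · exact ⟨g₀, hg₀0, le_rfl, h⟩
    · exact ⟨t, ht0, h, le_rfl⟩
  have hvg : V g ≠ 0 := (Valuation.ne_zero_iff _).mpr hg0
  have hμ : V (y / ν - 1) < V (d : F) ^ 2 * β := by
    have e1 : y / ν - 1 = ((y - 1) - (ν - 1)) / ν := by field_simp; ring
    rw [e1, map_div₀, hν1, div_one]
    exact V.map_sub_lt hy hνV
  obtain ⟨c, hc1, hc2, hc3⟩ := newton_near V hd0 hβ1 hμ hvg
  have hc0 : c ≠ 0 := by
    rintro rfl
    rw [map_zero] at hc1
    exact zero_ne_one hc1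
  have hQe : ((R.scaleRoots c).eval 1) = c ^ d * R.eval c⁻¹ := by
    have h1 := scaleRoots_eval₂_mul (p := R) (RingHom.id F) c⁻¹ c
    rw [RingHom.id_apply, mul_inv_cancel₀ hc0, hRd] at h1
    simpa [eval₂_id] using h1
  have hcoef : V ((-1) ^ d * y - (R.scaleRoots c).coeff 0) < V g := by
    have e1 : (-1) ^ d * y - (R.scaleRoots c).coeff 0 = -((-1) ^ d * ν * (c ^ d - y / ν)) := by
      rw [coeff_scaleRoots, hRd, Nat.sub_zero]
      have h1 : R.coeff 0 = (-1) ^ d * ν := by
        rw [hν, ← mul_assoc, hneg, one_mul]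
      rw [h1]
      field_simp
      ring
    rw [e1, Valuation.map_neg, map_mul, map_mul, map_pow, Valuation.map_neg, map_one,
      one_pow, one_mul, hν1, one_mul]
    exact hc3
  refine ⟨R.scaleRoots c, g, hg0, hcoef, ?_, ?_⟩
  · intro f hf hfd hclose L _ _ _ w hw ξ hξ
    refine hg₀ c hc1 f hf hfd ?_ L w hw ξ hξ
    intro i
    rw [hmin]
    rcases lt_trichotomy i d with hi | hi | hi
    · exact (hclose i hi).trans_le hgg₀
    · have h1 : f.coeff i = 1 := by rw [hi, ← hfd]; exact hf.coeff_natDegree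
      have h2 : (R.scaleRoots c).coeff i = 1 := by
        rw [coeff_scaleRoots, hRd, hi, Nat.sub_self, pow_zero, mul_one]
        have h3 := hRm.coeff_natDegree
        rwa [hRd] at h3
      rw [h1, h2, sub_self, map_zero]
      exact zero_lt_iff.mpr ((Valuation.ne_zero_iff _).mpr hg₀0)
    · rw [coeff_eq_zero_of_natDegree_lt (by rw [hfd]; exact hi), coeff_eq_zero_of_natDegree_lt
        (by rw [natDegree_scaleRoots, hRd]; exact hi), sub_self, map_zero]
      exact zero_lt_iff.mpr ((Valuation.ne_zero_iff _).mpr hg₀0)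
  · intro f hf hfd hclose
    have e1 : f.eval 1 = (∑ i ∈ Finset.range d, (f.coeff i - (R.scaleRoots c).coeff i)) +
        (R.scaleRoots c).eval 1 := by
      rw [eval_eq_sum_range, eval_eq_sum_range, hfd, natDegree_scaleRoots, hRd,
        Finset.sum_range_succ, Finset.sum_range_succ, Finset.sum_sub_distrib]
      have h1 : f.coeff d = 1 := by rw [← hfd]; exact hf.coeff_natDegree
      have h2 : (R.scaleRoots c).coeff d = 1 := by
        rw [coeff_scaleRoots, hRd, Nat.sub_self, pow_zero, mul_one]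
        have h3 := hRm.coeff_natDegree
        rwa [hRd] at h3
      rw [h1, h2]
      simp only [one_pow, mul_one]
      ring
    have hdβγ : V (d : F) ^ 2 * β ≤ γ :=
      (mul_le_mul_left (pow_le_one' hdle 2) β).trans (by rwa [one_mul])
    rw [e1]
    refine V.map_add_lt ?_ ?_
    · refine V.map_sum_lt hγ fun i hi => ?_
      exact ((hclose i (Finset.mem_range.mp hi)).trans_le hgt).trans (ht.trans_le hdβγ)
    · rw [hQe, map_mul, map_pow, hc1, one_pow, one_mul, hReval]
      have hci : V (c⁻¹ - 1) < V (d : F) * β := by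
        have e2 : c⁻¹ - 1 = -(c - 1) / c := by field_simp; ring
        rw [e2, map_div₀, hc1, div_one, Valuation.map_neg]
        exact hc2
      have hdb : V (d : F) * β ≤ 1 := mul_le_one' hdle hβ1
      have h3 := hsplit (c⁻¹ - 1) (hci.le.trans hdb)
      have h4 : V ((c⁻¹ - 1) ^ d) < γ := by
        rw [map_pow]
        obtain ⟨m, hm⟩ : ∃ m, d = m + 1 := ⟨d - 1, by omega⟩
        rw [hm, pow_succ]
        calc _ ≤ 1 * V (c⁻¹ - 1) := mul_le_mul_left (pow_le_one' (hci.le.trans hdb) m) _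
          _ < V (d : F) * β := by rw [one_mul]; exact hci
          _ ≤ 1 * β := mul_le_mul_left hdle _
          _ ≤ γ := by rwa [one_mul]
      have h5 := V.map_add_lt (h3.trans_lt (ht.trans_le hdβγ)) h4
      rwa [sub_add_cancel] at h5

end target

section root

/-- The norm of `x - 1` for a root `x` of an irreducible polynomial of full degree. -/
theorem norm_sub_one {F L : Type} [Field F] [Field L] [Algebra F L] [FiniteDimensional F L]
    {f : F[X]} (hf : f.Monic) (hirr : Irreducible f) (hd : finrank F L = f.natDegree) {ξ : L}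
    (hξ : aeval ξ f = 0) :
    Algebra.norm F (ξ - 1) = (-1) ^ f.natDegree * f.eval 1 := by
  classical
  let b := finBasis F L
  obtain ⟨M, hM⟩ : ∃ M, M = Algebra.leftMulMatrix b ξ := ⟨_, rfl⟩
  have hmin : minpoly F ξ = f := (minpoly.eq_of_irreducible_of_monic hirr hξ hf).symm
  have hchar : M.charpoly = f := by
    have h1 : aeval M M.charpoly = 0 := Matrix.aeval_self_charpoly M
    have h2 : aeval ξ M.charpoly = 0 := by
      have h3 : Algebra.leftMulMatrix b (aeval ξ M.charpoly) = 0 := by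
        rw [← aeval_algHom_apply, ← hM, h1]
      exact Algebra.leftMulMatrix_injective b (by rw [h3, map_zero])
    have h4 := minpoly.dvd F ξ h2
    rw [hmin] at h4
    refine eq_of_monic_of_dvd_of_natDegree_le hf M.charpoly_monic h4 ?_
    rw [Matrix.charpoly_natDegree_eq_dim, Fintype.card_fin, hd]
  have h1 := Matrix.eval_charpoly M 1
  rw [hchar] at h1
  rw [Algebra.norm_eq_matrix_det b, map_sub, map_one, ← hM, h1, ← hd]
  have h2 : M - 1 = -(Matrix.scalar (Fin (finrank F L)) (1 : F) - M) := by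
    rw [neg_sub, map_one]
  rw [h2, Matrix.det_neg, Fintype.card_fin]

variable {F D : Type} [Field F] [NumberField F] [DivisionRing D] [Algebra F D]
    [FiniteDimensional F D] [Algebra.IsCentral F D]

/-- The element of the algebra attached to a polynomial. -/
theorem exists_of_poly' {p e : ℕ} (hp : p.Prime) (hD : finrank F D = (p ^ e) ^ 2) (f : F[X])
    (hn : f.natDegree = p ^ e) (hf : f.Monic)
    (hfin : ∀ (L : Type) [Field L] [NumberField L] [Algebra F L] (w : HeightOneSpectrum (𝓞 L))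
      (ξ : L), aeval ξ f = 0 → Spl D (p ^ e) (pl (F := F) L w))
    (hreal : p = 2 → ∀ (φ : F →+* ℝ) (r : ℝ), (f.map φ).eval r = 0 → Spl D (p ^ e) φ) :
    ∃ t : D, HasNrd F (p ^ e) t ((-1) ^ (p ^ e) * f.coeff 0) ∧
      HasNrd F (p ^ e) (t - 1) ((-1) ^ (p ^ e) * f.eval 1) := by
  have hd : 0 < p ^ e := pow_pos hp.pos e
  have hnu : ¬ IsUnit f := by
    intro hu
    have := natDegree_eq_zero_of_isUnit hu
    omega
  obtain ⟨g, hgm, hirr, h, hgh⟩ := exists_monic_irreducible_factor f hnu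
  obtain ⟨L, _, _, _, ξ, hξ, hL, hN⟩ := exists_root_field g hgm hirr
  have hfd : FiniteDimensional F L := Module.Finite.of_restrictScalars_finite ℚ F L
  have hξf : aeval ξ f = 0 := by rw [hgh, map_mul, hξ, zero_mul]
  have hspl : Spl D (p ^ e) (algebraMap F L) := by
    refine abhn hp hD L (fun w => hfin L w ξ hξf) ?_
    intro hp2 ψ
    refine hreal hp2 _ (ψ ξ) ?_
    rw [← Polynomial.map_map, eval_map, eval₂_hom, eval_map_algebraMap, hξf, _root_.map_zero]
  have hdvd := dvd_of_spl hD L hspl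
  have hfg : f = g := by
    refine eq_of_monic_of_dvd_of_natDegree_le hgm hf ⟨h, hgh⟩ ?_
    rw [hn, ← hL]
    exact Nat.le_of_dvd Module.finrank_pos hdvd
  rw [← hfg] at hirr hξ hL
  rw [← hfg, hn] at hN
  have hN1 := norm_sub_one hf hirr hL hξ
  rw [hn] at hL hN1
  obtain ⟨j⟩ := embed_of_spl hD hL hspl
  refine ⟨j ξ, ?_, ?_⟩
  · rw [← hN]
    exact hasNrd_norm hD hL j ξ
  · rw [← hN1]
    have h2 := hasNrd_norm hD hL j (ξ - 1)
    rwa [map_sub, map_one] at h2

/-- Eichler's norm theorem with control at a finite set of places. -/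
theorem eichler_near {p e : ℕ} (hp : p.Prime) (hD : finrank F D = (p ^ e) ^ 2)
    (T : Set (HeightOneSpectrum (𝓞 F))) (hTf : T.Finite) (γ : HeightOneSpectrum (𝓞 F) → Z0)
    (hγ : ∀ v, γ v ≠ 0) :
    ∃ δ : HeightOneSpectrum (𝓞 F) → Z0, (∀ v, δ v ≠ 0) ∧ ∀ y : F, y ≠ 0 →
      (p = 2 → ∀ φ : F →+* ℝ, Spl D (p ^ e) φ ∨ 0 < φ y) →
      (∀ v ∈ T, v.valuation F (y - 1) < δ v) →
      ∃ (t : D) (z : F), HasNrd F (p ^ e) t y ∧ HasNrd F (p ^ e) (t - 1) z ∧
        ∀ v ∈ T, v.valuation F z < γ v := by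
  classical
  rcases Nat.eq_zero_or_pos e with rfl | he
  · refine ⟨γ, hγ, fun y hy _ hyT => ⟨algebraMap F D y, y - 1, ?_, ?_, hyT⟩⟩
    · have h := HasNrd.algMap (D := D) (d := p ^ 0) y
      rwa [pow_zero, pow_one, ← pow_zero p] at h
    · have h := HasNrd.algMap (D := D) (d := p ^ 0) (y - 1)
      rw [map_sub, map_one] at h
      rwa [pow_zero, pow_one, ← pow_zero p] at h
  obtain ⟨d, hd⟩ : ∃ d, d = p ^ e := ⟨_, rfl⟩
  rw [← hd] at hD ⊢
  have hd0 : d ≠ 0 := by rw [hd]; exact pow_ne_zero e hp.ne_zero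
  choose δ₀ hδ₀0 hδ₀ using fun v : HeightOneSpectrum (𝓞 F) => exists_target_near hd0 hD v (hγ v)
  refine ⟨δ₀, hδ₀0, fun y hy hpos hyT => ?_⟩
  obtain ⟨S, hS, hSspl⟩ := spl_almost (deg_pos hD) hD
  have hex : ∀ v : HeightOneSpectrum (𝓞 F), ∃ (Q : F[X]) (g : F), g ≠ 0 ∧
      v.valuation F ((-1) ^ d * y - Q.coeff 0) < v.valuation F g ∧
      (∀ f : F[X], f.Monic → f.natDegree = d →
      (∀ i, i < d → v.valuation F (f.coeff i - Q.coeff i) < v.valuation F g) →
      ∀ (L : Type) [Field L] [NumberField L] [Algebra F L] (w : HeightOneSpectrum (𝓞 L)),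
        w.asIdeal.comap (algebraMap (𝓞 F) (𝓞 L)) = v.asIdeal → ∀ ξ : L, aeval ξ f = 0 →
        Spl D d (pl (F := F) L w)) ∧
      (v ∈ T → ∀ f : F[X], f.Monic → f.natDegree = d →
      (∀ i, i < d → v.valuation F (f.coeff i - Q.coeff i) < v.valuation F g) →
      v.valuation F (f.eval 1) < γ v) := by
    intro v
    by_cases hv : v ∈ T
    · obtain ⟨Q, g, h1, h2, h3, h4⟩ := hδ₀ v y (hyT v hv)
      exact ⟨Q, g, h1, h2, h3, fun _ => h4⟩
    · obtain ⟨Q, g, h1, h2, h3⟩ := exists_target hd0 hD v y hy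
      exact ⟨Q, g, h1, h2, h3, fun h => absurd h hv⟩
  choose Q g hg0 hQ hloc hnear using hex
  let T' : Set (Pl F) := Sum.inl '' (S ∪ T) ∪ Set.range Sum.inr
  have hT' : T'.Finite := ((hS.union hTf).image _).union (Set.finite_range _)
  let δ : Pl F → ℝ := fun q => match q with
    | .inl v => plAbv (.inl v) (g v)
    | .inr φ => if 0 < φ y then min 1 (φ y) / (2 * d) else 1
  have hδ : ∀ q, 0 < δ q := by
    rintro (v | φ)
    · exact (plAbv (.inl v)).pos (hg0 v)
    · change 0 < (if 0 < φ y then min 1 (φ y) / (2 * d) else 1)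
      split_ifs with h
      · have hdR : (0 : ℝ) < d := by exact_mod_cast Nat.pos_of_ne_zero hd0
        have := lt_min one_pos h
        positivity
      · exact one_pos
  have happ : ∀ i : ℕ, ∃ b : F, ∀ q ∈ T', plAbv q (b - (match q with
      | .inl v => (Q v).coeff i
      | .inr _ => 0)) < δ q := fun i => approx T' hT' (fun q => match q with
      | .inl v => (Q v).coeff i
      | .inr _ => 0) δ hδ
  choose b hb using happ
  let β : ℕ → F := fun i => if i = 0 then (-1) ^ d * y else b i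
  have hβ0 : β 0 = (-1) ^ d * y := if_pos rfl
  have hβi : ∀ i, i ≠ 0 → β i = b i := fun i hi => if_neg hi
  let r : F[X] := ∑ i ∈ Finset.range d, C (β i) * X ^ i
  have hrdeg : r.degree < d := by
    rw [← mem_degreeLT]
    refine Submodule.sum_mem _ fun i hi => ?_
    rw [mem_degreeLT]
    refine lt_of_le_of_lt (degree_C_mul_X_pow_le i _) ?_
    exact_mod_cast Finset.mem_range.mp hi
  have hrcoeff : ∀ i, i < d → r.coeff i = β i := by
    intro i hi
    simp only [r, finsetSum_coeff, coeff_C_mul, coeff_X_pow]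
    rw [Finset.sum_eq_single i]
    · simp
    · intro j _ hj
      rw [if_neg (Ne.symm hj), mul_zero]
    · intro h
      exact absurd (Finset.mem_range.mpr hi) h
  let f : F[X] := X ^ d + r
  have hfm : f.Monic := monic_X_pow_add hrdeg
  have hfd : f.natDegree = d := by
    change (X ^ d + r).natDegree = d
    rw [natDegree_add_eq_left_of_degree_lt (by rw [degree_X_pow]; exact hrdeg), natDegree_X_pow]
  have hfc : ∀ i, i < d → f.coeff i = β i := by
    intro i hi
    change (X ^ d + r).coeff i = _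
    rw [coeff_add, coeff_X_pow, if_neg hi.ne, zero_add, hrcoeff i hi]
  have hf0 : f.coeff 0 = (-1) ^ d * y := by rw [hfc 0 (Nat.pos_of_ne_zero hd0), hβ0]
  have hneg : ((-1 : F) ^ d) * (-1) ^ d = 1 := by rw [← mul_pow]; norm_num
  have hclose : ∀ v ∈ S ∪ T, ∀ i, i < d →
      v.valuation F (f.coeff i - (Q v).coeff i) < v.valuation F (g v) := by
    intro v hv i hi
    rw [hfc i hi]
    rcases Nat.eq_zero_or_pos i with rfl | hi0
    · rw [hβ0]
      exact hQ v
    · rw [hβi i hi0.ne']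
      exact (plAbv_lt v _ _).mp (hb i (.inl v) (Or.inl ⟨v, hv, rfl⟩))
  have hA : ∀ (L : Type) [Field L] [NumberField L] [Algebra F L] (w : HeightOneSpectrum (𝓞 L))
      (ξ : L), aeval ξ f = 0 → Spl D (p ^ e) (pl (F := F) L w) := by
    intro L _ _ _ w ξ hξ
    rw [← hd]
    obtain ⟨v, hv⟩ := Arith.exists_below (F := F) w
    by_cases hvS : v ∉ S
    · exact hSspl v hvS L w hv
    · rw [not_not] at hvS
      exact hloc v f hfm hfd (hclose v (Or.inl hvS)) L w hv ξ hξ
  have hB : p = 2 → ∀ (φ : F →+* ℝ) (r : ℝ), (f.map φ).eval r = 0 → Spl D (p ^ e) φ := by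
    intro hp2 φ s hs
    rw [← hd]
    rcases hpos hp2 φ with h | h
    · exact h
    · exfalso
      have hde : Even d := by
        rw [hd, hp2]
        exact (even_two.pow_of_ne_zero (by omega : e ≠ 0))
      refine real_no_root hde hd0 h (fun i => φ (β i)) ?_ ?_ s ?_
      · rw [hβ0, hde.neg_one_pow, one_mul]
      · intro i hi
        have h1 := hb i (.inr φ) (Or.inr ⟨φ, rfl⟩)
        rw [plAbv_inr] at h1
        change |φ (b i - 0)| < (if 0 < φ y then min 1 (φ y) / (2 * d) else 1) at h1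
        rw [if_pos h, sub_zero] at h1
        change |φ (β i)| < _
        rw [hβi i hi]
        exact h1
      · rw [← hs]
        change _ = ((X ^ d + ∑ i ∈ Finset.range d, C (β i) * X ^ i).map φ).eval s
        rw [Polynomial.map_add, Polynomial.map_pow, map_X, eval_add, eval_pow, eval_X,
          Polynomial.map_sum, eval_finsetSum]
        congr 1
        refine Finset.sum_congr rfl fun i _ => ?_
        rw [Polynomial.map_mul, map_C, Polynomial.map_pow, map_X, eval_mul, eval_C, eval_pow,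
          eval_X]
  obtain ⟨t, ht, ht1⟩ := exists_of_poly' hp (e := e) (by rw [← hd]; exact hD) f (by rw [hfd, hd])
    hfm hA hB
  refine ⟨t, (-1) ^ d * f.eval 1, ?_, ?_, fun v hv => ?_⟩
  · rw [← hd, hf0, ← mul_assoc, hneg, one_mul] at ht
    exact ht
  · rw [← hd] at ht1
    exact ht1
  · rw [map_mul, map_pow, Valuation.map_neg, map_one, one_pow, one_mul]
    exact hnear v hv f hfm hfd (hclose v (Or.inr hv))

end root

end Vale.Agent.P011.Pow
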