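import Vale.Agent.P011.W.Abhn
import Vale.Agent.P011.W.Compl
import Vale.Agent.P011.W.RedC
import Vale.Agent.P011.W.Part
import Vale.Agent.P011.Arith.SUnit

/-!
The local-global principle for the index, and square roots in division algebras of degree a power
of two.
-/

open NumberField IsDedekindDomain Polynomial Module TensorProduct

namespace Vale.Agent.P011.Pow

open Vale.Agent.P011.W
open Vale.Agent.P011.Arith (Z0 Pl plAbv plAbv_lt plAbv_inr approx)
open Vale.Agent.P011.Even (nnf isUltra valued_alg)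
open Vale.Agent.P011S (bcf exists_corner)

section loc

variable {F D : Type} [Field F] [CharZero F] [DivisionRing D] [Algebra F D]
  [FiniteDimensional F D] [Algebra.IsCentral F D] {q : ℕ}

omit [Algebra.IsCentral F D] [CharZero F] [FiniteDimensional F D] in
/-- The index over the field divides a power of two. -/
def Idx (D : Type) [DivisionRing D] [Algebra F D] (q : ℕ) {R : Type} [Field R] (φ : F →+* R)
    (m : ℕ) : Prop :=
  ∃ (L : Type) (_ : Field L) (_ : Algebra R L) (i : ℕ), finrank R L = 2 ^ i ∧ i ≤ m ∧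
    Spl D q ((algebraMap R L).comp φ)

/-- The division part of a base change, with all its properties. -/
theorem exists_part2 (hD : finrank F D = q ^ 2) (E : Type) [Field E] [Algebra F E] :
    ∃ (n q' : ℕ) (_ : NeZero n) (Δ : Type) (_ : DivisionRing Δ) (_ : Algebra E Δ)
      (_ : FiniteDimensional E Δ) (_ : Algebra.IsCentral E Δ)
      (_ : E ⊗[F] D ≃ₐ[E] Matrix (Fin n) (Fin n) Δ), n * q' = q ∧ finrank E Δ = q' ^ 2 ∧
      ∀ (R : Type) [Field R] (φ : E →+* R),
        Spl D q (φ.comp (algebraMap F E)) ↔ Spl Δ q' φ := by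
  obtain ⟨n, q', hn, Δ, i1, i2, i3, i4, ψ, h1, h2⟩ := exists_part' hD E
  have hcE : CharZero E := charZero_of_injective_algebraMap (algebraMap F E).injective
  refine ⟨n, q', hn, Δ, i1, i2, i3, i4, ψ, h1, h2, ?_⟩
  intro R _ φ
  let _ : Algebra E R := φ.toAlgebra
  let _ : Algebra F R := (φ.comp (algebraMap F E)).toAlgebra
  have : IsScalarTower F E R := IsScalarTower.of_algebraMap_eq fun x => rfl
  have hcR : CharZero R := charZero_of_injective_algebraMap φ.injective
  have e1 : Spl D q (φ.comp (algebraMap F E)) ↔ Nonempty (D →ₐ[F] Matrix (Fin q) (Fin q) R) :=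
    spl_iff (F := F) (R := R)
  have e2 : Spl Δ q' φ ↔ Nonempty (Δ →ₐ[E] Matrix (Fin q') (Fin q') R) :=
    spl_iff (F := E) (R := R)
  rw [e1, e2]
  constructor
  · rintro ⟨g⟩
    let G : Matrix (Fin n) (Fin n) Δ →ₐ[E] Matrix (Fin q) (Fin q) R :=
      (bcf g).comp (ψ.symm : Matrix (Fin n) (Fin n) Δ →ₐ[E] E ⊗[F] D)
    obtain ⟨f2, _⟩ := exists_corner G h1
    exact ⟨f2⟩
  · rintro ⟨f2⟩
    exact spl_of_part ψ h1 f2

omit [Algebra.IsCentral F D] in
theorem dvd_of_idx (hD : finrank F D = q ^ 2) {m : ℕ}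
    (h : Idx D q (RingHom.id F) m) : q ∣ 2 ^ m := by
  obtain ⟨L, _, _, i, hi, him, hs⟩ := h
  have : FiniteDimensional F L := Module.finite_of_finrank_pos (by rw [hi]; positivity)
  have h1 := dvd_of_spl hD L (by rwa [RingHom.comp_id] at hs)
  rw [hi] at h1
  exact h1.trans (pow_dvd_pow 2 him)

omit [CharZero F] in
theorem idx_self (hD : finrank F D = q ^ 2) {m : ℕ} (h : q ∣ 2 ^ m) :
    Idx D q (RingHom.id F) m := by
  obtain ⟨i, him, rfl⟩ := (Nat.dvd_prime_pow Nat.prime_two).mp h
  obtain ⟨L, _, _, _, j, _, hL, _⟩ := exists_maxfield hD (1 : D)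
  refine ⟨L, inferInstance, inferInstance, i, hL, him, ?_⟩
  rw [RingHom.comp_id]
  exact spl_of_maxfield hD hL j

omit [CharZero F] [FiniteDimensional F D] [Algebra.IsCentral F D] in
theorem idx_part {E : Type} [Field E] [Algebra F E] {Δ : Type} [DivisionRing Δ] [Algebra E Δ]
    {q' : ℕ} (hiff : ∀ (R : Type) [Field R] (φ : E →+* R),
        Spl D q (φ.comp (algebraMap F E)) ↔ Spl Δ q' φ) {R : Type} [Field R] (ψ : E →+* R)
    {m : ℕ} : Idx D q (ψ.comp (algebraMap F E)) m ↔ Idx Δ q' ψ m := by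
  constructor
  · rintro ⟨L, _, _, i, h1, h2, h3⟩
    exact ⟨L, inferInstance, inferInstance, i, h1, h2, (hiff L _).mp h3⟩
  · rintro ⟨L, _, _, i, h1, h2, h3⟩
    exact ⟨L, inferInstance, inferInstance, i, h1, h2, (hiff L _).mpr h3⟩

/-- The index over any field divides the degree. -/
theorem idx_of_dvd (hD : finrank F D = q ^ 2) {m : ℕ} (h : q ∣ 2 ^ m) {R : Type} [Field R]
    (φ : F →+* R) : Idx D q φ m := by
  let _ : Algebra F R := φ.toAlgebra
  obtain ⟨n, q', hn, Δ, i1, i2, i3, i4, ψ, h1, h2, hiff⟩ := exists_part2 hD R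
  have hcR : CharZero R := charZero_of_injective_algebraMap (algebraMap F R).injective
  have h3 : q' ∣ 2 ^ m := (Dvd.intro_left n h1).trans h
  have h4 := (idx_part hiff (RingHom.id R)).mpr (idx_self h2 h3)
  rwa [RingHom.id_comp] at h4

theorem Idx.mono' (hD : finrank F D = q ^ 2) {R R' : Type} [Field R] [Field R'] {φ : F →+* R}
    {m : ℕ} (h : Idx D q φ m) (ψ : R →+* R') : Idx D q (ψ.comp φ) m := by
  let _ : Algebra F R := φ.toAlgebra
  obtain ⟨n, q', hn, Δ, i1, i2, i3, i4, -, h1, h2, hiff⟩ := exists_part2 hD R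
  have hcR : CharZero R := charZero_of_injective_algebraMap (algebraMap F R).injective
  have h3 : Idx Δ q' (RingHom.id R) m := by
    rw [← idx_part hiff (RingHom.id R), RingHom.id_comp]
    exact h
  exact (idx_part hiff ψ).mpr (idx_of_dvd h2 (dvd_of_idx h2 h3) ψ)

omit [CharZero F] [FiniteDimensional F D] [Algebra.IsCentral F D] in
theorem Idx.le {R : Type} [Field R] {φ : F →+* R} {m m' : ℕ} (h : Idx D q φ m) (hm : m ≤ m') :
    Idx D q φ m' := by
  obtain ⟨L, _, _, i, h1, h2, h3⟩ := h
  exact ⟨L, inferInstance, inferInstance, i, h1, h2.trans hm, h3⟩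

omit [CharZero F] [FiniteDimensional F D] [Algebra.IsCentral F D] in
theorem idx_of_spl {R : Type} [Field R] {φ : F →+* R} (m : ℕ) (h : Spl D q φ) :
    Idx D q φ m :=
  ⟨R, inferInstance, inferInstance, 0, by rw [Module.finrank_self, pow_zero], Nat.zero_le _,
    h.comp _⟩

omit [CharZero F] [FiniteDimensional F D] [Algebra.IsCentral F D] in
theorem Idx.spl {R : Type} [Field R] {φ : F →+* R} (h : Idx D q φ 0) : Spl D q φ := by
  obtain ⟨L, _, _, i, h1, h2, h3⟩ := h
  rw [Nat.le_zero.mp h2, pow_zero] at h1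
  have hb : Function.Bijective (algebraMap R L) :=
    Algebra.finrank_eq_one_iff_bijective_algebraMap.mp h1
  have h4 := h3.comp ((RingEquiv.ofBijective (algebraMap R L) hb).symm : L →+* R)
  convert h4 using 1
  ext x
  exact ((RingEquiv.ofBijective (algebraMap R L) hb).symm_apply_apply (φ x)).symm

end loc

/-- The local statement. -/
def LQ : Prop := ∀ (R : Type) [NontriviallyNormedField R] [IsUltrametricDist R] [ProperSpace R]
  [CharZero R] (Δ : Type) [DivisionRing Δ] [Algebra R Δ] [FiniteDimensional R Δ]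
  [Algebra.IsCentral R Δ] (q : ℕ) (_ : finrank R Δ = q ^ 2) (_ : Even q) (R' : Type) [Field R']
  [Algebra R R'] (_ : finrank R R' = 2), ∃ x : R' ⊗[R] Δ, x ≠ 0 ∧ ¬ IsUnit x

theorem isUnit_mat_one {Δ : Type} [DivisionRing Δ] (x : Matrix (Fin 1) (Fin 1) Δ) (hx : x ≠ 0) :
    IsUnit x := by
  have h0 : x 0 0 ≠ 0 := by
    intro h
    apply hx
    ext i j
    rw [Subsingleton.elim i 0, Subsingleton.elim j 0, h]
    rfl
  refine ⟨⟨x, Matrix.of fun _ _ => (x 0 0)⁻¹, ?_, ?_⟩, rfl⟩
  · ext i j
    rw [Subsingleton.elim i 0, Subsingleton.elim j 0, Matrix.mul_apply, Fin.sum_univ_one,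
      Matrix.of_apply, mul_inv_cancel₀ h0, Matrix.one_apply_eq]
  · ext i j
    rw [Subsingleton.elim i 0, Subsingleton.elim j 0, Matrix.mul_apply, Fin.sum_univ_one,
      Matrix.of_apply, inv_mul_cancel₀ h0, Matrix.one_apply_eq]

section step

variable {F D : Type} [Field F] [CharZero F] [DivisionRing D] [Algebra F D]
  [FiniteDimensional F D] [Algebra.IsCentral F D] {q : ℕ}

/-- A quadratic extension of the local field halves an even index. -/
theorem Idx.step (lq : LQ) (hD : finrank F D = q ^ 2) {R : Type} [NontriviallyNormedField R]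
    [IsUltrametricDist R] [ProperSpace R] [Algebra F R] {m : ℕ}
    (h : Idx D q (algebraMap F R) (m + 1)) {R' : Type} [Field R'] [Algebra R R']
    (hR' : finrank R R' = 2) : Idx D q ((algebraMap R R').comp (algebraMap F R)) m := by
  obtain ⟨n, q', hn, Δ, i1, i2, i3, i4, -, h1, h2, hiff⟩ := exists_part2 hD R
  have hcR : CharZero R := charZero_of_injective_algebraMap (algebraMap F R).injective
  have hcR' : CharZero R' := charZero_of_injective_algebraMap (algebraMap R R').injective
  have h3 : q' ∣ 2 ^ (m + 1) := by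
    apply dvd_of_idx h2
    rw [← idx_part hiff (RingHom.id R), RingHom.id_comp]
    exact h
  rw [idx_part hiff]
  rcases Nat.even_or_odd q' with he | ho
  · obtain ⟨n2, q2, hn2, Δ2, j1, j2, j3, j4, ψ, h4, h5, hiff2⟩ := exists_part2 h2 R'
    have h6 : n2 ≠ 1 := by
      rintro rfl
      obtain ⟨x, hx0, hx⟩ := lq R Δ q' h2 he R' hR'
      apply hx
      have h7 := isUnit_mat_one (ψ x) (by
        intro h8
        exact hx0 (ψ.injective (by rw [h8, map_zero])))
      exact (MulEquiv.isUnit_map ψ).mp h7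
    obtain ⟨i, hi, hi'⟩ := (Nat.dvd_prime_pow Nat.prime_two).mp h3
    obtain ⟨a, ha, ha'⟩ := (Nat.dvd_prime_pow Nat.prime_two).mp
      (show n2 ∣ 2 ^ i from ⟨q2, by rw [← hi', h4]⟩)
    obtain ⟨b, hb, hb'⟩ := (Nat.dvd_prime_pow Nat.prime_two).mp
      (show q2 ∣ 2 ^ i from ⟨n2, by rw [← hi', ← h4, mul_comm]⟩)
    have h7 : a + b = i := by
      apply Nat.pow_right_injective (le_refl 2)
      change 2 ^ (a + b) = 2 ^ i
      rw [pow_add, ← ha', ← hb', h4, hi']
    have h8 : a ≠ 0 := by
      rintro rfl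
      exact h6 ha'
    have h9 : q2 ∣ 2 ^ m := by
      rw [hb']
      exact pow_dvd_pow 2 (by omega)
    have h10 := (idx_part hiff2 (RingHom.id R')).mpr (idx_self h5 h9)
    rwa [RingHom.id_comp] at h10
  · have h4 : q' = 1 := by
      obtain ⟨i, hi, rfl⟩ := (Nat.dvd_prime_pow Nat.prime_two).mp h3
      rcases Nat.eq_zero_or_pos i with rfl | h5
      · rfl
      · exact absurd ho (Nat.not_odd_iff_even.mpr (even_two.pow_of_ne_zero h5.ne'))
    exact idx_of_dvd h2 (by rw [h4]; exact one_dvd _) _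

end step

section glob

/-- A quadratic extension of a number field. -/
theorem exists_quad {F : Type} [Field F] [NumberField F] {c : F} (hc : ¬ IsSquare c) :
    ∃ (M : Type) (_ : Field M) (_ : NumberField M) (_ : Algebra F M) (r : M),
      r ^ 2 = algebraMap F M c ∧ finrank F M = 2 := by
  have hirr : Irreducible (X ^ 2 - C c : F[X]) :=
    X_pow_sub_C_irreducible_of_prime Nat.prime_two (fun b hb => hc ⟨b, by rw [← hb, sq]⟩)
  let _ : Fact (Irreducible (X ^ 2 - C c : F[X])) := ⟨hirr⟩
  have hne : (X ^ 2 - C c : F[X]) ≠ 0 := hirr.ne_zero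
  have hfin : FiniteDimensional F (AdjoinRoot (X ^ 2 - C c : F[X])) :=
    (AdjoinRoot.powerBasis hne).finite
  have hrk : finrank F (AdjoinRoot (X ^ 2 - C c : F[X])) = 2 := by
    rw [(AdjoinRoot.powerBasis hne).finrank, AdjoinRoot.powerBasis_dim, natDegree_X_pow_sub_C]
  have hcz : CharZero (AdjoinRoot (X ^ 2 - C c : F[X])) :=
    charZero_of_injective_algebraMap (algebraMap F _).injective
  have hnf : NumberField (AdjoinRoot (X ^ 2 - C c : F[X])) :=
    { to_charZero := hcz
      to_finiteDimensional := Module.Finite.trans F _ }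
  refine ⟨AdjoinRoot (X ^ 2 - C c : F[X]), inferInstance, hnf, inferInstance,
    AdjoinRoot.root _, ?_, hrk⟩
  have h1 : aeval (AdjoinRoot.root (X ^ 2 - C c : F[X])) (X ^ 2 - C c : F[X]) = 0 := by
    rw [AdjoinRoot.aeval_eq, AdjoinRoot.mk_self]
  rw [map_sub, map_pow, aeval_X, aeval_C, sub_eq_zero] at h1
  exact h1

/-- An element of odd valuation is not a square in the completion. -/
theorem not_isSquare_of_val {F : Type} [Field F] [NumberField F] (w : HeightOneSpectrum (𝓞 F))
    {c : F} (hc : w.valuation F c = WithZero.exp (-1 : ℤ)) :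
    ¬ IsSquare (algebraMap F (w.adicCompletion F) c) := by
  rintro ⟨r, hr⟩
  have h1 : Valued.v (algebraMap F (w.adicCompletion F) c) = (WithZero.exp (-1 : ℤ) : Z0) := by
    rw [valued_alg, hc]
  rw [hr, map_mul] at h1
  have h2 : (Valued.v r : Z0) ≠ 0 := by
    intro h
    rw [h, mul_zero] at h1
    exact WithZero.exp_ne_zero h1.symm
  obtain ⟨z, hz⟩ : ∃ z : ℤ, (Valued.v r : Z0) = WithZero.exp z :=
    ⟨WithZero.log (Valued.v r : Z0), (WithZero.exp_log h2).symm⟩
  rw [hz, ← WithZero.exp_add] at h1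
  have h3 : z + z = -1 := WithZero.exp_injective h1
  omega

/-- The index over the completions of a quadratic extension. -/
theorem idx_quad (lq : LQ) {F D : Type} [Field F] [NumberField F] [DivisionRing D] [Algebra F D]
    [FiniteDimensional F D] [Algebra.IsCentral F D] {q : ℕ} (hD : finrank F D = q ^ 2)
    {M : Type} [Field M] [NumberField M] [Algebra F M] {c : F} {r : M}
    (hr : r ^ 2 = algebraMap F M c) {w : HeightOneSpectrum (𝓞 F)} {w' : HeightOneSpectrum (𝓞 M)}
    (hw : w'.asIdeal.comap (algebraMap (𝓞 F) (𝓞 M)) = w.asIdeal)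
    (hc : ¬ IsSquare (algebraMap F (w.adicCompletion F) c)) {m : ℕ}
    (h : Idx D q (algebraMap F (w.adicCompletion F)) (m + 1)) :
    Idx D q (pl (F := F) M w') m := by
  let _ := nnf w
  have := isUltra w
  set cw := algebraMap F (w.adicCompletion F) c with hcw
  have hirr : Irreducible (X ^ 2 - C cw : (w.adicCompletion F)[X]) :=
    X_pow_sub_C_irreducible_of_prime Nat.prime_two (fun b hb => hc ⟨b, by rw [← hb, sq]⟩)
  let _ : Fact (Irreducible (X ^ 2 - C cw : (w.adicCompletion F)[X])) := ⟨hirr⟩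
  have hne : (X ^ 2 - C cw : (w.adicCompletion F)[X]) ≠ 0 := hirr.ne_zero
  have hrk : finrank (w.adicCompletion F) (AdjoinRoot (X ^ 2 - C cw : (w.adicCompletion F)[X])) =
      2 := by
    rw [(AdjoinRoot.powerBasis hne).finrank, AdjoinRoot.powerBasis_dim, natDegree_X_pow_sub_C]
  have h1 := Idx.step lq hD h hrk
  obtain ⟨g, hg⟩ := completion_map hw
  have h2 : (X ^ 2 - C cw : (w.adicCompletion F)[X]).eval₂ g
      (algebraMap M (w'.adicCompletion M) r) = 0 := by
    rw [eval₂_sub, eval₂_pow, eval₂_X, eval₂_C, hcw, hg, ← hr, map_pow, sub_self]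
  have h3 := Idx.mono' hD h1 (AdjoinRoot.lift g _ h2)
  convert h3 using 1
  refine RingHom.ext fun x => ?_
  change algebraMap M _ (algebraMap F M x) =
    AdjoinRoot.lift g _ h2 (AdjoinRoot.of _ (algebraMap F (w.adicCompletion F) x))
  rw [AdjoinRoot.lift_of, hg]

/-- Real places do not exist over a negative square. -/
theorem no_real {F M : Type} [Field F] [Field M] [Algebra F M] {c : F} {r : M}
    (hr : r ^ 2 = algebraMap F M c) (hc : ∀ φ : F →+* ℝ, φ c < 0) (ψ : M →+* ℝ) : False := by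
  have h1 := congrArg ψ hr
  rw [map_pow] at h1
  have h2 := hc (ψ.comp (algebraMap F M))
  rw [RingHom.comp_apply, ← h1] at h2
  exact absurd h2 (not_lt.mpr (sq_nonneg _))

/-- The degree over the base field of a maximal subfield of the division part. -/
theorem dvd_two_mul {F D : Type} [Field F] [CharZero F] [DivisionRing D] [Algebra F D]
    [FiniteDimensional F D] [Algebra.IsCentral F D] {q : ℕ} (hD : finrank F D = q ^ 2)
    {M : Type} [Field M] [Algebra F M] (hM : finrank F M = 2)
    {Δ : Type} [DivisionRing Δ] [Algebra M Δ] [FiniteDimensional M Δ] [Algebra.IsCentral M Δ]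
    {q' : ℕ} (hΔ : finrank M Δ = q' ^ 2) (hiff : ∀ (R : Type) [Field R] (φ : M →+* R),
        Spl D q (φ.comp (algebraMap F M)) ↔ Spl Δ q' φ) :
    ∃ (L : Type) (_ : Field L) (_ : Algebra F L) (j : M →+* L),
      j.comp (algebraMap F M) = algebraMap F L ∧ finrank F L = 2 * q' ∧
      Spl D q (algebraMap F L) ∧ q ∣ 2 * q' := by
  have hcM : CharZero M := charZero_of_injective_algebraMap (algebraMap F M).injective
  obtain ⟨L, _, _, _, j, _, hL, _⟩ := exists_maxfield hΔ (1 : Δ)
  have h1 : Spl D q ((algebraMap M L).comp (algebraMap F M)) :=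
    (hiff L _).mpr (spl_of_maxfield hΔ hL j)
  let _ : Algebra F L := ((algebraMap M L).comp (algebraMap F M)).toAlgebra
  have : IsScalarTower F M L := IsScalarTower.of_algebraMap_eq fun x => rfl
  have : FiniteDimensional F M := Module.finite_of_finrank_pos (by rw [hM]; exact two_pos)
  have : FiniteDimensional F L := Module.Finite.trans M L
  have h2 : finrank F L = 2 * q' := by
    rw [← Module.finrank_mul_finrank F M L, hM, hL]
  refine ⟨L, inferInstance, inferInstance, algebraMap M L, rfl, h2, h1, ?_⟩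
  rw [← h2]
  exact dvd_of_spl hD L h1

/-- (CL) The index of a division algebra of degree a power of two is bounded by the local
indices. -/
theorem index_dvd (lq : LQ) (m : ℕ) : ∀ (F : Type) [Field F] [NumberField F] (D : Type)
    [DivisionRing D] [Algebra F D] [FiniteDimensional F D] [Algebra.IsCentral F D] (j : ℕ)
    (_ : finrank F D = (2 ^ j) ^ 2)
    (_ : ∀ w : HeightOneSpectrum (𝓞 F), Idx D (2 ^ j) (algebraMap F (w.adicCompletion F)) m)
    (_ : m = 0 → ∀ φ : F →+* ℝ, Spl D (2 ^ j) φ), 2 ^ j ∣ 2 ^ m := by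
  induction m with
  | zero =>
    intro F _ _ D _ _ _ _ j hD hloc hr
    have h1 : Spl D (2 ^ j) (algebraMap F F) :=
      abhn Nat.prime_two hD F (fun w => (hloc w).spl) (fun _ ψ => hr rfl ψ)
    have h2 := dvd_of_spl hD F h1
    rwa [Module.finrank_self] at h2
  | succ m ih =>
    intro F _ _ D _ _ _ _ j hD hloc hr
    obtain ⟨S, hS, hSspl⟩ := spl_almost (deg_pos hD) hD
    obtain ⟨w0⟩ : Nonempty (HeightOneSpectrum (𝓞 F)) := Arith.nonempty_prime
    choose π hπ using fun w : HeightOneSpectrum (𝓞 F) => w.valuation_exists_uniformizer F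
    have hπ0 : ∀ w, π w ≠ 0 := by
      intro w h
      have h1 := hπ w
      rw [h, map_zero] at h1
      exact WithZero.exp_ne_zero h1.symm
    let T : Set (Pl F) := Sum.inl '' (insert w0 S) ∪ Set.range Sum.inr
    have hT : T.Finite := ((hS.insert w0).image _).union (Set.finite_range _)
    obtain ⟨c, hc⟩ := approx T hT (fun p => match p with
      | .inl w => π w
      | .inr _ => -1) (fun p => match p with
      | .inl w => plAbv (.inl w) (π w)
      | .inr _ => 1) (by
        rintro (w | φ)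
        · exact (plAbv (.inl w)).pos (hπ0 w)
        · exact one_pos)
    have hcw : ∀ w, w = w0 ∨ w ∈ S → w.valuation F c = WithZero.exp (-1 : ℤ) := by
      intro w hw
      have h1 : w.valuation F (c - π w) < w.valuation F (π w) :=
        (plAbv_lt w _ _).mp (hc (.inl w) (Or.inl ⟨w, hw, rfl⟩))
      have h2 := (w.valuation F).map_add_eq_of_lt_left h1
      rw [add_sub_cancel] at h2
      rw [h2, hπ]
    have hcr : ∀ φ : F →+* ℝ, φ c < 0 := by
      intro φ
      have h1 := hc (.inr φ) (Or.inr ⟨φ, rfl⟩)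
      rw [plAbv_inr] at h1
      change |φ (c - -1)| < 1 at h1
      rw [sub_neg_eq_add, map_add, map_one] at h1
      linarith [(abs_lt.mp h1).2]
    have hcsq : ¬ IsSquare c := fun h =>
      not_isSquare_of_val w0 (hcw w0 (Or.inl rfl)) (h.map _)
    obtain ⟨M, _, _, _, r, hr2, hM⟩ := exists_quad hcsq
    obtain ⟨n, q', hn, Δ, i1, i2, i3, i4, -, h1, h2, hiff⟩ := exists_part2 hD M
    obtain ⟨j', -, hj'⟩ := (Nat.dvd_prime_pow Nat.prime_two).mp
      (show q' ∣ 2 ^ j from ⟨n, by rw [← h1, mul_comm]⟩)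
    subst hj'
    have h3 : 2 ^ j' ∣ 2 ^ m := by
      refine ih M Δ j' h2 ?_ (fun _ ψ => (no_real hr2 hcr ψ).elim)
      intro w'
      rw [← idx_part hiff]
      obtain ⟨w, hw⟩ := Arith.exists_below (F := F) w'
      by_cases hwS : w ∈ S
      · exact idx_quad lq hD hr2 hw (not_isSquare_of_val w (hcw w (Or.inr hwS))) (hloc w)
      · exact idx_of_spl m (hSspl w hwS M w' hw)
    obtain ⟨L, _, _, _, -, -, -, h4⟩ := dvd_two_mul hD hM h2 hiff
    refine h4.trans ?_
    rw [pow_succ']
    exact Nat.mul_dvd_mul_left 2 h3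

/-- (EX-i) Square roots in a division algebra of degree a power of two. -/
theorem exists_sqrt' (lq : LQ) {F D : Type} [Field F] [NumberField F] [DivisionRing D]
    [Algebra F D] [FiniteDimensional F D] [Algebra.IsCentral F D] {e : ℕ} (he : 2 ≤ e)
    (hD : finrank F D = (2 ^ e) ^ 2) (a : F)
    (ha : ∀ w : HeightOneSpectrum (𝓞 F), (∀ x : w.adicCompletion F ⊗[F] D, x ≠ 0 → IsUnit x) →
      ¬ IsSquare (algebraMap F (w.adicCompletion F) a)) : ∃ x : D, x * x = algebraMap F D a := by
  by_cases hasq : IsSquare a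
  · obtain ⟨r, rfl⟩ := hasq
    exact ⟨algebraMap F D r, (map_mul _ _ _).symm⟩
  obtain ⟨M, _, _, _, r, hr2, hM⟩ := exists_quad hasq
  obtain ⟨n, q', hn, Δ, i1, i2, i3, i4, -, h1, h2, hiff⟩ := exists_part2 hD M
  obtain ⟨j', -, hj'⟩ := (Nat.dvd_prime_pow Nat.prime_two).mp
    (show q' ∣ 2 ^ e from ⟨n, by rw [← h1, mul_comm]⟩)
  subst hj'
  have h3 : 2 ^ j' ∣ 2 ^ (e - 1) := by
    refine index_dvd lq (e - 1) M Δ j' h2 ?_ (fun h => by omega)
    intro w'
    rw [← idx_part hiff]
    obtain ⟨w, hw⟩ := Arith.exists_below (F := F) w'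
    obtain ⟨g, hg⟩ := completion_map hw
    have hpl : pl (F := F) M w' = g.comp (algebraMap F (w.adicCompletion F)) :=
      RingHom.ext fun x => (hg x).symm
    by_cases hdiv : ∀ x : w.adicCompletion F ⊗[F] D, x ≠ 0 → IsUnit x
    · refine idx_quad lq hD hr2 hw (ha w hdiv) (idx_of_dvd hD ?_ _)
      rw [show e - 1 + 1 = e by omega]
    · change Idx D (2 ^ e) (pl (F := F) M w') (e - 1)
      rw [hpl]
      refine Idx.mono' hD ?_ g
      -- the division part of the completion has smaller degree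
      obtain ⟨n2, q2, hn2, Δ2, k1, k2, k3, k4, ψ, h4, h5, hiff2⟩ :=
        exists_part2 hD (w.adicCompletion F)
      have h6 : n2 ≠ 1 := by
        rintro rfl
        apply hdiv
        intro x hx
        exact (MulEquiv.isUnit_map ψ).mp (isUnit_mat_one (ψ x) fun h8 =>
          hx (ψ.injective (by rw [h8, map_zero])))
      have hcz : CharZero (w.adicCompletion F) :=
        charZero_of_injective_algebraMap (algebraMap F (w.adicCompletion F)).injective
      obtain ⟨a', ha', ha''⟩ := (Nat.dvd_prime_pow Nat.prime_two).mp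
        (show n2 ∣ 2 ^ e from ⟨q2, by rw [h4]⟩)
      obtain ⟨b, hb, hb'⟩ := (Nat.dvd_prime_pow Nat.prime_two).mp
        (show q2 ∣ 2 ^ e from ⟨n2, by rw [← h4, mul_comm]⟩)
      have h7 : a' + b = e := by
        apply Nat.pow_right_injective (le_refl 2)
        change 2 ^ (a' + b) = 2 ^ e
        rw [pow_add, ← ha'', ← hb', h4]
      have h8 : a' ≠ 0 := by
        rintro rfl
        exact h6 ha''
      have h9 : q2 ∣ 2 ^ (e - 1) := by
        rw [hb']
        exact pow_dvd_pow 2 (by omega)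
      have h10 := (idx_part hiff2 (RingHom.id _)).mpr (idx_self h5 h9)
      rwa [RingHom.id_comp] at h10
  obtain ⟨L, _, _, jL, hjL, hL, hs, h4⟩ := dvd_two_mul hD hM h2 hiff
  have h5 : finrank F L = 2 ^ e := by
    rw [hL]
    refine le_antisymm ?_ (Nat.le_of_dvd (by positivity) h4)
    obtain ⟨e', rfl⟩ : ∃ e', e = e' + 1 := ⟨e - 1, by omega⟩
    rw [pow_succ']
    exact Nat.mul_le_mul_left 2 (Nat.le_of_dvd (by positivity) h3)
  obtain ⟨ι⟩ := embed_of_spl hD h5 hs
  refine ⟨ι (jL r), ?_⟩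
  rw [← map_mul, ← sq, ← map_pow, hr2, ← RingHom.comp_apply, hjL, ι.commutes]

end glob

end Vale.Agent.P011.Pow
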