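import Vale.Agent.P011.Two2.MuData
import Vale.Agent.P011.Pow.IsCent

/-!
Symmetric elements which commute with a symmetric square root, have all their conjugates real and
a given class of reduced norms.
-/

open Module Matrix Polynomial NumberField IsDedekindDomain
open Vale.Agent.P011.RP (RData HasR1 HasR2)

set_option linter.unusedSectionVars false

namespace Vale.Agent.P011.Pow.ExT

open Vale.Agent.P011.Arith Vale.Agent.P011.Even Vale.Agent.P011.Two Vale.Agent.P011.Two2
open Vale.Agent.P011.One (Xa)

/-- The norm of a quadratic extension. -/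
theorem norm_quad {F E : Type} [Field F] [Field E] [Algebra F E] (h2 : finrank F E = 2) {a : F}
    {T : E} (hT : T * T = algebraMap F E a) (hT' : ∀ c : F, algebraMap F E c ≠ T) (u v : F) :
    Algebra.norm F (algebraMap F E u + algebraMap F E v * T) = u ^ 2 - a * v ^ 2 := by
  have : FiniteDimensional F E := Module.finite_of_finrank_pos (by rw [h2]; exact two_pos)
  have hli : LinearIndependent F ![(1 : E), T] := by
    rw [LinearIndependent.pair_iff]
    intro x y hxy
    have hy : y = 0 := by
      by_contra hy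
      apply hT' (-x / y)
      have hy' : algebraMap F E y ≠ 0 := (_root_.map_ne_zero _).mpr hy
      rw [Algebra.smul_def, Algebra.smul_def, mul_one] at hxy
      rw [map_div₀, map_neg, div_eq_iff hy']
      linear_combination -hxy
    subst hy
    rw [zero_smul, add_zero, smul_eq_zero] at hxy
    exact ⟨hxy.resolve_right one_ne_zero, rfl⟩
  let b : Basis (Fin 2) F E := basisOfLinearIndependentOfCardEqFinrank hli (by simp [h2])
  have hb0 : b 0 = 1 := by simp [b]
  have hb1 : b 1 = T := by simp [b]
  have hrepr : ∀ x y : F, b.repr (algebraMap F E x + algebraMap F E y * T) 0 = x ∧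
      b.repr (algebraMap F E x + algebraMap F E y * T) 1 = y := by
    intro x y
    have h1 : algebraMap F E x + algebraMap F E y * T = x • b 0 + y • b 1 := by
      rw [hb0, hb1, Algebra.smul_def, Algebra.smul_def, mul_one]
    rw [h1, map_add, map_smul, map_smul, b.repr_self, b.repr_self]
    constructor <;> simp
  rw [Algebra.norm_eq_matrix_det b, Matrix.det_fin_two]
  simp only [Algebra.leftMulMatrix_eq_repr_mul, hb0, hb1, mul_one]
  have h3 : (algebraMap F E u + algebraMap F E v * T) * T =
      algebraMap F E (a * v) + algebraMap F E u * T := by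
    rw [add_mul, mul_assoc, hT, map_mul]
    ring
  rw [h3, (hrepr _ _).1, (hrepr _ _).2, (hrepr _ _).1, (hrepr _ _).2]
  ring

/-- If all the embeddings above a real place are real, then so are the roots of the minimal
polynomials. -/
theorem real_roots {k E : Type} [Field k] [NumberField k] [Field E] [NumberField E] [Algebra k E]
    {φ : k →+* ℝ} (hE : ∀ ψ : E →+* ℂ, ψ.comp (algebraMap k E) = Complex.ofRealHom.comp φ →
      ∀ x, (ψ x).im = 0) {g : E} {n : ℕ} (hn : (minpoly k g).natDegree = n) :
    ∃ ρ : Fin n → ℝ, Function.Injective ρ ∧ (minpoly k g).map φ = ∏ i, (X - C (ρ i)) := by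
  classical
  have hfin : FiniteDimensional k E := Module.Finite.of_restrictScalars_finite ℚ k E
  let algC : Algebra k ℂ := (Complex.ofRealHom.comp φ).toAlgebra
  have hint : IsIntegral k g := Algebra.IsIntegral.isIntegral g
  obtain ⟨Q, hQ⟩ : ∃ Q, Q = (minpoly k g).map (Complex.ofRealHom.comp φ) := ⟨_, rfl⟩
  have hQm : Q.Monic := hQ ▸ (minpoly.monic hint).map _
  have hQd : Q.natDegree = n := by
    rw [hQ, natDegree_map, hn]
  have hQs : Q.Separable := by
    rw [hQ]
    exact (minpoly.irreducible hint).separable.map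
  have hsp : Q.Splits := IsAlgClosed.splits Q
  obtain ⟨S, hS⟩ : ∃ S, S = Q.roots.toFinset := ⟨_, rfl⟩
  have hcard : S.card = n := by
    rw [hS, Multiset.toFinset_card_of_nodup (nodup_roots hQs), ← hsp.natDegree_eq_card_roots, hQd]
  have hSm : ∀ x ∈ S, x ∈ Q.roots := fun x hx => by
    rw [hS] at hx
    exact Multiset.mem_toFinset.mp hx
  let e : Fin n ≃ S := (Finset.equivFinOfCardEq hcard).symm
  have hprod : Q = ∏ i, (X - C ((e i : S) : ℂ)) := by
    have h1 := hsp.eq_prod_roots_of_monic hQm
    have h2 : (Q.roots.map fun a => X - C a).prod = ∏ a ∈ S, (X - C a) := by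
      rw [Finset.prod, hS, Multiset.toFinset_val, Multiset.dedup_eq_self.mpr (nodup_roots hQs)]
    rw [h2] at h1
    refine h1.trans ?_
    rw [← Finset.prod_coe_sort]
    exact (Fintype.prod_equiv e _ _ fun i => rfl).symm
  have hreal : ∀ i, ∃ r : ℝ, (r : ℂ) = ((e i : S) : ℂ) := by
    intro i
    have h1 : ((e i : S) : ℂ) ∈ Q.roots := hSm _ (e i).2
    have hQ' : Q = (minpoly k g).map (algebraMap k ℂ) := hQ
    have h2 : ((e i : S) : ℂ) ∈ (minpoly k g).rootSet ℂ := by
      rw [mem_rootSet', ← hQ']
      rw [mem_roots'] at h1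
      refine ⟨h1.1, ?_⟩
      have h3 := h1.2
      rwa [IsRoot.def, hQ', eval_map_algebraMap] at h3
    rw [← Algebra.IsAlgebraic.range_eval_eq_rootSet_minpoly ℂ g] at h2
    obtain ⟨ψ, hψ⟩ := h2
    have h3 := hE ψ.toRingHom (by ext x; exact ψ.commutes x) g
    refine ⟨(ψ g).re, ?_⟩
    change ψ g = _ at hψ
    rw [← hψ]
    exact Complex.ext (by simp) (by simpa using h3.symm)
  choose ρ hρ using hreal
  refine ⟨ρ, fun i i' h => ?_, ?_⟩
  · apply e.injective
    apply Subtype.ext
    rw [← hρ, ← hρ, h]
  · apply Polynomial.map_injective Complex.ofRealHom Complex.ofRealHom.injective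
    rw [Polynomial.map_map, ← hQ, Polynomial.map_prod]
    refine hprod.trans ?_
    refine Finset.prod_congr rfl fun i _ => ?_
    rw [Polynomial.map_sub, map_X, map_C, ← hρ]
    rfl

/-- A complex embedding with real values. -/
theorem exists_real {L : Type} [Field L] (ψ : L →+* ℂ) (h : ∀ x, (ψ x).im = 0) :
    ∃ φ : L →+* ℝ, Complex.ofRealHom.comp φ = ψ := by
  refine ⟨{ toFun := fun x => (ψ x).re
            map_one' := by rw [map_one, Complex.one_re]
            map_zero' := by rw [map_zero, Complex.zero_re]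
            map_mul' := fun x y => by rw [map_mul, Complex.mul_re, h x, zero_mul, sub_zero]
            map_add' := fun x y => by rw [map_add, Complex.add_re] }, ?_⟩
  ext x
  exact Complex.ext (by simp) (by simp [h x])

section main

variable {k K D : Type} [Field k] [NumberField k] [Field K] [NumberField K] [StarRing K]
    [DivisionRing D] [StarRing D] [Algebra k K] [Algebra k D] [Algebra K D] [IsScalarTower k K D]
    {d : kˣ} {s : K} {n : ℕ}

/-- A symmetric maximal subfield which is totally split at given primes, and all whose embeddings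
above the real places which do not split are real. -/
theorem exists_torus_real (hS : Setting k K D d s) (hn2 : 2 ≤ n) (hdeg : finrank K D = n ^ 2)
    (f : D →ₐ[K] Matrix (Fin n) (Fin n) (AlgebraicClosure K))
    {V : Set (HeightOneSpectrum (𝓞 k))} (hV : V.Finite)
    (hVns : ∀ v ∈ V, d ∉ LS (v.valuation k)) (hne : V.Nonempty ∨ ∃ φ : k →+* ℝ, φ d < 0) :
    ∃ (E : Type) (_ : Field E) (_ : NumberField E) (_ : Algebra k E) (j : E →ₐ[k] D),
      finrank k E = n ∧ (∀ x, star (j x) = j x) ∧ (∀ v ∈ V, TotSplit E v) ∧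
      (∀ φ : k →+* ℝ, φ d < 0 → ∃ ψ : E →+* ℝ, ψ.comp (algebraMap k E) = φ) ∧
      ¬ IsSquare (algebraMap k E (d : k)) ∧
      (∀ x : E, (f (j x)).det =
        algebraMap K (AlgebraicClosure K) (algebraMap k K (Algebra.norm k x))) ∧
      ∀ φ : k →+* ℝ, φ d < 0 → ∀ ψ : E →+* ℂ,
        ψ.comp (algebraMap k E) = Complex.ofRealHom.comp φ → ∀ x, (ψ x).im = 0 := by
  have hn : 0 < n := by omega
  have := hS.fin
  have := hS.cen
  have hfk := hS.fin_k
  have h00 : (1 : D) ≠ 0 := one_ne_zero
  obtain ⟨β, hli, hsplit, hreal⟩ := exists_beta hS hn hdeg (c0 := (1 : D)) (c2 := (1 : D))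
    (star_one D) (star_one D) h00 h00 hV hVns hne
  set z := (1 : D)⁻¹ * β * 1 * star β with hzdef
  have hzz : z = β * star β := by rw [hzdef, inv_one, one_mul, mul_one]
  have hzs : star z = z := by
    rw [hzz, star_mul, star_star]
  have hz : star z = 1 * z * 1⁻¹ := by
    rw [inv_one, one_mul, mul_one, hzs]
  obtain ⟨E, _, _, _, j, g, hjg, hgen⟩ := exists_gen (Module.finBasis k D) z
  obtain ⟨hmn, hmK⟩ := minpoly_map hS hn hdeg f h00 hz hli
  have hjinj : Function.Injective j := j.toRingHom.injective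
  have hjp : ∀ p : k[X], j (aeval g p) = aeval z p := by
    intro p
    rw [← Polynomial.aeval_algHom_apply, hjg]
  have hgmin : minpoly k g = minpoly k z := by rw [← hjg, minpoly.algHom_eq j hjinj g]
  have hfinE : FiniteDimensional k E := Module.Finite.of_injective j.toLinearMap hjinj
  have hE : finrank k E = n := by
    have h1 : IntermediateField.adjoin k {g} = ⊤ := by
      rw [eq_top_iff]
      intro l _
      obtain ⟨p, rfl⟩ := hgen l
      exact IntermediateField.algebra_adjoin_le_adjoin k {g} (by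
        rw [Algebra.adjoin_singleton_eq_range_aeval]
        exact ⟨p, rfl⟩)
    have h2 : finrank k (IntermediateField.adjoin k {g}) = (minpoly k g).natDegree :=
      IntermediateField.adjoin.finrank (Algebra.IsIntegral.isIntegral g)
    rw [h1, IntermediateField.finrank_top', hgmin, hmn] at h2
    exact h2
  have hstarj : ∀ x : E, star (j x) = j x := by
    intro x
    obtain ⟨p, rfl⟩ := hgen x
    rw [hjp]
    have := star_aeval' hS h00 hz p
    rwa [inv_one, one_mul, mul_one] at this
  -- the central element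
  set S := algebraMap K D s with hSdef
  have hSc : ∀ x : D, S * x = x * S := fun x => Algebra.commutes s x
  have hSs : star S = -S := star_S hS
  have hSS : S * S = algebraMap k D d := by
    rw [hSdef, ← map_mul, ← pow_two, hS.sq, ← IsScalarTower.algebraMap_apply]
  have hS0 : S ≠ 0 := (_root_.map_ne_zero (algebraMap K D)).mpr hS.s_ne
  have hD2 : (2 : D) ≠ 0 := by
    have : CharZero D := charZero_of_injective_algebraMap (algebraMap K D).injective
    exact two_ne_zero
  have hSne : S ≠ -S := by
    intro h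
    apply hS0
    have h1 : (2 : D) * S = 0 := by rw [two_mul]; nth_rewrite 1 [h]; exact neg_add_cancel S
    exact (mul_eq_zero.mp h1).resolve_left hD2
  have hdE : ¬ IsSquare (algebraMap k E (d : k)) := by
    rintro ⟨r, hr⟩
    have h1 : (j r - S) * (j r + S) = 0 := by
      have h2 : j r * j r = S * S := by
        rw [← map_mul, ← hr, AlgHom.commutes, hSS]
      rw [sub_mul, mul_add, mul_add, h2, hSc (j r)]
      abel
    have h3 : ∀ x : D, (x = S ∨ x = -S) → star x ≠ x := by
      rintro x (rfl | rfl)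
      · rw [hSs]
        exact fun h => hSne h.symm
      · rw [star_neg, hSs, neg_neg]
        exact hSne
    rcases mul_eq_zero.mp h1 with h | h
    · exact h3 _ (Or.inl (sub_eq_zero.mp h)) (hstarj r)
    · exact h3 _ (Or.inr (eq_neg_of_add_eq_zero_left h)) (hstarj r)
  have hmonic : (minpoly k z).Monic := minpoly.monic (Algebra.IsIntegral.isIntegral z)
  have hroots : ∀ φ : k →+* ℝ, φ d < 0 → ∃ ρ : Fin n → ℝ, Function.Injective ρ ∧
      (minpoly k z).map φ = ∏ i, (X - C (ρ i)) := fun φ hφ =>
    hreal φ hφ _ hmonic hmn (minpoly.aeval k z)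
  have hpsi : ∀ (φ : k →+* ℝ) (ρ : Fin n → ℝ), (minpoly k z).map φ = ∏ i, (X - C (ρ i)) →
      ∀ i, ∃ ψ : E →+* ℝ, ψ.comp (algebraMap k E) = φ ∧
        ∀ p : k[X], ψ (aeval g p) = p.eval₂ φ (ρ i) := by
    intro φ ρ hρ i
    apply exists_psi_root hgen
    rw [hgmin, ← Polynomial.eval_map, hρ, eval_prod]
    apply Finset.prod_eq_zero (Finset.mem_univ i)
    rw [eval_sub, eval_X, eval_C, sub_self]
  refine ⟨E, inferInstance, inferInstance, inferInstance, j, hE, hstarj, ?_, ?_, hdE, ?_, ?_⟩
  · intro v hv
    exact hsplit v hv E g hE (by rw [hgmin]; exact hmn) (by rw [hgmin]; exact minpoly.aeval k z)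
  · intro φ hφ
    obtain ⟨ρ, -, hρ⟩ := hroots φ hφ
    obtain ⟨ψ, hψ, -⟩ := hpsi φ ρ hρ ⟨0, hn⟩
    exact ⟨ψ, hψ⟩
  · intro x
    obtain ⟨p, rfl⟩ := hgen x
    rw [hjp]
    exact det_sub hS hn hdeg f h00 hz hli hE hgmin p
  · intro φ hφ ψ hψ x
    obtain ⟨ρ, -, hρ⟩ := hroots φ hφ
    have h1 : ∀ p : k[X], ψ (aeval g p) = p.eval₂ (Complex.ofRealHom.comp φ) (ψ g) := by
      intro p
      rw [aeval_def, hom_eval₂, hψ]
    have h2 : ∏ i, (ψ g - (ρ i : ℂ)) = 0 := by
      have h3 := h1 (minpoly k g)
      rw [minpoly.aeval, map_zero, ← eval₂_map, hgmin, hρ] at h3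
      rw [h3, eval₂_finsetProd]
      refine Finset.prod_congr rfl fun i _ => ?_
      rw [eval₂_sub, eval₂_X, eval₂_C]
      rfl
    obtain ⟨i, -, hi⟩ := Finset.prod_eq_zero_iff.mp h2
    obtain ⟨p, rfl⟩ := hgen x
    rw [h1, sub_eq_zero.mp hi, ← eval₂_map]
    have h4 : (p.map φ).eval₂ Complex.ofRealHom (Complex.ofRealHom (ρ i)) =
        Complex.ofRealHom ((p.map φ).eval (ρ i)) := by
      rw [eval₂_hom]
    change ((p.map φ).eval₂ Complex.ofRealHom (Complex.ofRealHom (ρ i))).im = 0
    rw [h4]
    simp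

end main

end Vale.Agent.P011.Pow.ExT
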