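import Vale.Agent.P011.Pow.ExTor

/-!
Symmetric elements which commute with a symmetric square root, whose conjugates are positive at the
real places and which have a given class of reduced norms.
-/

open Module Matrix Polynomial NumberField IsDedekindDomain

set_option linter.unusedSectionVars false

namespace Vale.Agent.P011.Pow.ExT

open Vale.Agent.P011.Arith Vale.Agent.P011.Even Vale.Agent.P011.Two Vale.Agent.P011.Two2
open Vale.Agent.P011.One (Xa)

variable {k K D : Type} [Field k] [NumberField k] [Field K] [NumberField K] [StarRing K]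
    [DivisionRing D] [StarRing D] [Algebra k K] [Algebra k D] [Algebra K D] [IsScalarTower k K D]
    {d : kˣ} {s : K} {n : ℕ}

theorem exists_tor (hS : Setting k K D d s) {m : ℕ} (hm : 2 ≤ m)
    (hdeg : finrank K D = (2 * m) ^ 2) {Ω : Type} [Field Ω] [Algebra K Ω]
    (f : D →ₐ[K] Matrix (Fin (2 * m)) (Fin (2 * m)) Ω) {a ν : kˣ} (ha : ¬ IsSquare (a : k))
    (had : ¬ IsSquare ((a * d : kˣ) : k)) {t : D} (ht : t ∈ Xa D a)
    (hreal : ∀ φ : k →+* ℝ, φ d < 0 → 0 < φ a)
    (hμ : ∀ (L : Type) [Field L] [NumberField L] [Algebra k L] (T : L),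
      T * T = algebraMap k L a → finrank k L = 2 → ∃ μ : Lˣ, nrm k L μ * ν ∈ NF d ∧
        ∀ ψ : L →+* ℝ, ψ (algebraMap k L d) < 0 → 0 < ψ μ) :
    ∃ (z : D) (p : k[X]), star z = z ∧ z * t = t * z ∧ aeval z p ≠ 0 ∧
      (∀ φ : k →+* ℝ, φ d < 0 → ∃ ρ : Fin (2 * m) → ℝ, Function.Injective ρ ∧
        (minpoly k z).map φ = ∏ i, (X - C (ρ i)) ∧ ∀ i, 0 < (p.map φ).eval (ρ i)) ∧
      ∃ N : kˣ, (f (aeval z p)).det = algebraMap K Ω (algebraMap k K N) ∧ N * ν ∈ NF d := by
  have hntK : ∀ c : K, algebraMap K D c ≠ t := Vale.Agent.P011.One.Xa_ne hS ha ht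
  have i1 := hS.fin
  have i2 := hS.cen
  obtain ⟨L, _, _, _, K', _, _, _, _, C', _, _, _, _, _, _, T, j, hS', hC, hI⟩ :=
    exists_isCent hS ha had hdeg ht
  obtain ⟨μ, hμN, hμp⟩ := hμ L T hI.sqT hI.rkL
  have i3 := hS'.fin
  have i4 := hS'.cen
  obtain ⟨g⟩ := Vale.Agent.P011S.exists_split (K := K') (D := C') hC (AlgebraicClosure K')
  obtain ⟨V, hV⟩ := exists_ctrl hS'.ns μ
  have hne : V.Nonempty ∨ ∃ φ : L →+* ℝ, φ (inc k L d) < 0 := by
    obtain ⟨p, hp, -, hpV⟩ := hV.jet
    rcases p with v | φ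
    · exact Or.inl ⟨v, hpV v rfl⟩
    · exact Or.inr ⟨φ, notMem_LSR.mp hp⟩
  obtain ⟨E, _, _, _, i, hE, hstar, hsplit, hrl, hdE, hnorm, him⟩ :=
    exists_torus_real hS' hm hC g hV.fin hV.nonsplit hne
  choose ab hab using fun v : HeightOneSpectrum (𝓞 L) => exists_above (E := E) v
  obtain ⟨ε, hεN, -, hεp⟩ := pnc_ab (E := E) hdE hV hsplit hrl ab hab 1 (fun φ hφ => by
    rw [Units.val_one, map_one, map_one, one_mul]
    exact hμp φ hφ)
  -- the field `E` over `k`
  let algkE : Algebra k E := ((algebraMap L E).comp (algebraMap k L)).toAlgebra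
  have tow : IsScalarTower k L E := IsScalarTower.of_algebraMap_eq fun _ => rfl
  let J : E →ₐ[k] D :=
    { toRingHom := j.comp i.toRingHom
      commutes' := fun c => by
        change j (i (algebraMap L E (algebraMap k L c))) = _
        rw [i.commutes, hI.jk] }
  have hJ : ∀ x, J x = j (i x) := fun _ => rfl
  have hJinj : Function.Injective J := J.toRingHom.injective
  have hfL : FiniteDimensional k L := Module.finite_of_finrank_pos (by rw [hI.rkL]; exact two_pos)
  have hfE : FiniteDimensional L E := Module.finite_of_finrank_pos (by rw [hE]; omega)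
  have hfkE : FiniteDimensional k E := Module.Finite.trans L E
  have hEk : finrank k E = 2 * m := by
    rw [← Module.finrank_mul_finrank k L E, hI.rkL, hE]
  obtain ⟨g', hg'⟩ := Field.exists_primitive_element k E
  have hgen : ∀ x : E, ∃ p : k[X], x = aeval g' p := by
    intro x
    have h1 : x ∈ IntermediateField.adjoin k {g'} := by rw [hg']; exact IntermediateField.mem_top
    rw [← IntermediateField.mem_toSubalgebra,
      IntermediateField.adjoin_simple_toSubalgebra_of_isAlgebraic (IsAlgebraic.of_finite k g'),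
      Algebra.adjoin_singleton_eq_range_aeval] at h1
    obtain ⟨p, hp⟩ := h1
    exact ⟨p, hp.symm⟩
  have hdg : (minpoly k g').natDegree = 2 * m := by
    have h2 : finrank k (IntermediateField.adjoin k {g'}) = (minpoly k g').natDegree :=
      IntermediateField.adjoin.finrank (Algebra.IsIntegral.isIntegral g')
    rw [hg', IntermediateField.finrank_top', hEk] at h2
    exact h2.symm
  obtain ⟨p, hp⟩ := hgen (ε : E)
  have hz : aeval (J g') p = J (ε : E) := by rw [hp, ← Polynomial.aeval_algHom_apply]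
  have hT : ∀ c : k, algebraMap k L c ≠ T := fun c hc => ha ⟨c, (algebraMap k L).injective (by
        rw [← hI.sqT, ← hc, map_mul])⟩
  have hT' : ∀ c : K, algebraMap K K' c ≠ algebraMap L K' T := fun c hc => hntK c (by
    rw [← hI.jK, hc, ← IsScalarTower.algebraMap_apply, hI.jT])
  have hbc : ∀ l : L, Algebra.norm K (algebraMap L K' l) = algebraMap k K (Algebra.norm k l) := by
    intro l
    obtain ⟨u, v, rfl⟩ := hI.repL l
    rw [norm_quad hI.rkL hI.sqT hT, map_add, map_mul, ← hI.comp, ← hI.comp,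
      norm_quad hI.rkK (a := algebraMap k K a) (by rw [← map_mul, hI.sqT, ← hI.comp]) hT']
    simp only [map_sub, map_mul, map_pow]
  refine ⟨J g', p, ?_, hI.comm _, ?_, ?_, nrm k L (nrm L E ε), ?_, ?_⟩
  · rw [hJ, ← hI.star, hstar]
  · rw [hz]
    exact (_root_.map_ne_zero J).mpr ε.ne_zero
  · intro φ hφ
    have him' : ∀ ψ : E →+* ℂ, ψ.comp (algebraMap k E) = Complex.ofRealHom.comp φ →
        ∀ x, (ψ x).im = 0 := by
      intro ψ hψ
      have h0 : ∀ c : k, ψ (algebraMap L E (algebraMap k L c)) = ((φ c : ℝ) : ℂ) := fun c =>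
        RingHom.congr_fun hψ c
      have h1 : ψ (algebraMap L E T) * ψ (algebraMap L E T) = ((φ a : ℝ) : ℂ) := by
        rw [← map_mul, ← map_mul, hI.sqT, h0]
      have h2 : (ψ (algebraMap L E T)).im = 0 := by
        have h3 := congrArg Complex.re h1
        have h4 := congrArg Complex.im h1
        rw [Complex.mul_re, Complex.ofReal_re] at h3
        rw [Complex.mul_im, Complex.ofReal_im] at h4
        by_contra h5
        have h6 : (ψ (algebraMap L E T)).re = 0 := by
          have : (ψ (algebraMap L E T)).re * (ψ (algebraMap L E T)).im = 0 := by linarith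
          exact (mul_eq_zero.mp this).resolve_right h5
        rw [h6] at h3
        nlinarith [hreal φ hφ, mul_self_nonneg (ψ (algebraMap L E T)).im]
      obtain ⟨φ', hφ'⟩ := exists_real (ψ.comp (algebraMap L E)) (fun x => by
        obtain ⟨u, v, rfl⟩ := hI.repL x
        rw [RingHom.comp_apply, map_add, map_add, map_mul, map_mul, h0, h0, Complex.add_im,
          Complex.mul_im, h2, Complex.ofReal_im, Complex.ofReal_im]
        ring)
      refine him φ' ?_ ψ hφ'.symm
      have h3 := RingHom.congr_fun hφ' (algebraMap k L d)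
      rw [RingHom.comp_apply, RingHom.comp_apply, h0] at h3
      have h4 : φ' (algebraMap k L d) = φ d := Complex.ofReal_injective h3
      change φ' (algebraMap k L d) < 0
      rw [h4]
      exact hφ
    obtain ⟨ρ, hρi, hρ⟩ := real_roots him' hdg
    refine ⟨ρ, hρi, ?_, fun i' => ?_⟩
    · rw [minpoly.algHom_eq J hJinj g']
      exact hρ
    · obtain ⟨ψ, hψ, hψp⟩ := exists_psi_root hgen (φ := φ) (ρ := ρ i') (by
        rw [← Polynomial.eval_map, hρ, eval_prod]
        apply Finset.prod_eq_zero (Finset.mem_univ i')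
        rw [eval_sub, eval_X, eval_C, sub_self])
      rw [eval_map, ← hψp, ← hp]
      have h1 := hεp ψ (by
        have h2 : ψ (algebraMap L E (inc k L d)) = φ d := RingHom.congr_fun hψ _
        rw [h2]
        exact hφ)
      rwa [Units.val_one, map_one, mul_one] at h1
  · rw [hz, hJ]
    have h1 := hI.det f g rfl hdeg hC (hnorm ε)
    rw [hbc] at h1
    exact h1
  · have h1 := nrm_mem_NF (F := k) (b := d) hεN
    rw [map_mul] at h1
    have h2 := mul_mem h1 hμN
    have h3 : nrm k L μ ^ 2 ∈ NF d := Sq_le_NF _ ⟨_, rfl⟩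
    have h4 := mul_mem h2 (inv_mem h3)
    have h5 : nrm k L (nrm L E ε) * nrm k L μ * (nrm k L μ * ν) * (nrm k L μ ^ 2)⁻¹ =
        nrm k L (nrm L E ε) * ν := by
      rw [pow_two, mul_inv]
      have : nrm k L (nrm L E ε) * nrm k L μ * (nrm k L μ * ν) * ((nrm k L μ)⁻¹ * (nrm k L μ)⁻¹) =
        nrm k L (nrm L E ε) * ν * (nrm k L μ * (nrm k L μ)⁻¹) * (nrm k L μ * (nrm k L μ)⁻¹) := by
        ac_rfl
      rw [this, mul_inv_cancel, mul_one, mul_one]
    rwa [h5] at h4

end Vale.Agent.P011.Pow.ExT
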