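import Vale.Agent.P011.Pow.IsCent
import Vale.Agent.P011.One.Final

/-!
The trace of a normal subgroup of finite index on the centralizer of a symmetric square root.
-/

open NumberField IsDedekindDomain Polynomial Module

set_option linter.unusedSectionVars false

namespace Vale.Agent.P011.Pow

open Vale.Agent.P011.Arith Vale.Agent.P011.Even Vale.Agent.P011.Two Vale.Agent.P011.One

variable {k K D L K' C : Type} [Field k] [Field K] [DivisionRing D] [StarRing D]
    [Algebra k K] [Algebra k D] [Algebra K D] [Field L] [Field K'] [DivisionRing C] [StarRing C]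
    [Algebra k L] [Algebra K K'] [Algebra L K'] [Algebra L C] [Algebra K' C]
    {t : D} {a : kˣ} {T : L} {j : C →+* D}
    [CharZero K] [FiniteDimensional K D] [Algebra.IsCentral K D] [FiniteDimensional K' C]
    [Algebra.IsCentral K' C] {m n : ℕ}
    {Ω : Type} [Field Ω] [Algebra K Ω] (f : D →ₐ[K] Matrix (Fin n) (Fin n) Ω)
    {Ω' : Type} [Field Ω'] [Algebra K' Ω'] (g : C →ₐ[K'] Matrix (Fin m) (Fin m) Ω')

/-- The trace of a normal subgroup of finite index on the centralizer. -/
theorem IsCent.exists_trace (h : IsCent k K D L K' C t a T j) (hn : n = 2 * m)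
    (hdeg : finrank K D = n ^ 2) (hC : finrank K' C = m ^ 2) (N : Subgroup (SUD f))
    [hN : N.Normal] (hi : N.index ≠ 0) :
    ∃ N' : Subgroup (SUD g), N'.Normal ∧ N'.index ≠ 0 ∧
      ∀ x : C, x ∈ Im N' ↔ x ∈ GU g ∧ j x ∈ Im N := by
  have hmem : ∀ x : SUD g, Units.map (j : C →* D) (x : Cˣ) ∈ SUD f := fun x =>
    h.mem_GU f g hn hdeg hC x.2
  let r : SUD g →* SUD f := ((Units.map (j : C →* D)).comp (SUD g).subtype).codRestrict _ hmem
  refine ⟨N.comap r, inferInstance, ?_, ?_⟩
  · rw [Subgroup.index_comap]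
    exact ne_zero_of_dvd_ne_zero hi (Subgroup.relIndex_dvd_index_of_normal _ _)
  · intro x
    constructor
    · rintro ⟨y, hy, rfl⟩
      exact ⟨y.2, r y, hy, rfl⟩
    · rintro ⟨hx, y, hy, hxy⟩
      obtain ⟨z, hz, rfl⟩ := exists_SUD hx
      refine ⟨⟨z, hz⟩, ?_, rfl⟩
      have h1 : r ⟨z, hz⟩ = y := Subtype.ext (Units.ext hxy.symm)
      change r ⟨z, hz⟩ ∈ N
      rw [h1]
      exact hy

end Vale.Agent.P011.Pow
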