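import Vale.Agent.P011.Pow.IsCent
import Vale.Agent.P011.W.HermEl

/-!
The reduced norm in the centralizer of a symmetric square root.
-/

open NumberField IsDedekindDomain Polynomial Module

set_option linter.unusedSectionVars false

namespace Vale.Agent.P011.Pow

open Vale.Agent.P011.Arith Vale.Agent.P011.Even Vale.Agent.P011.Two Vale.Agent.P011.One
open Vale.Agent.P011.W (HasNrd exists_maxfield hasNrd_norm hasNrd_of_det)

section quad

variable {R F : Type} [Field R] [Field F] [Algebra R F]

/-- The norm of an element of a quadratic extension. -/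
theorem norm_quad (h2 : finrank R F = 2) {S : F} {a : R} (hS : S * S = algebraMap R F a)
    (hrep : ∀ x : F, ∃ u v : R, x = algebraMap R F u + algebraMap R F v * S) (u v : R) :
    Algebra.norm R (algebraMap R F u + algebraMap R F v * S) = u ^ 2 - a * v ^ 2 := by
  classical
  have hspan : ⊤ ≤ Submodule.span R (Set.range ![(1 : F), S]) := by
    intro x _
    obtain ⟨u, v, rfl⟩ := hrep x
    refine add_mem ?_ ?_
    · rw [Algebra.algebraMap_eq_smul_one]
      exact Submodule.smul_mem _ _ (Submodule.subset_span ⟨0, rfl⟩)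
    · rw [← Algebra.smul_def]
      exact Submodule.smul_mem _ _ (Submodule.subset_span ⟨1, rfl⟩)
  let b : Basis (Fin 2) R F := basisOfTopLeSpanOfCardEqFinrank ![(1 : F), S] hspan (by
    rw [h2, Fintype.card_fin])
  have hb : ∀ i, b i = ![(1 : F), S] i := fun i => by
    rw [show b = basisOfTopLeSpanOfCardEqFinrank ![(1 : F), S] hspan (by
      rw [h2, Fintype.card_fin]) from rfl, coe_basisOfTopLeSpanOfCardEqFinrank]
  have hb0 : b 0 = 1 := hb 0
  have hb1 : b 1 = S := hb 1
  have e0 : (algebraMap R F u + algebraMap R F v * S) * b 0 = u • b 0 + v • b 1 := by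
    rw [hb0, hb1, mul_one, Algebra.smul_def, Algebra.smul_def, mul_one]
  have e1 : (algebraMap R F u + algebraMap R F v * S) * b 1 = (v * a) • b 0 + u • b 1 := by
    rw [hb0, hb1, Algebra.smul_def, Algebra.smul_def, mul_one, map_mul, ← hS]
    ring
  rw [Algebra.norm_eq_matrix_det b, Matrix.det_fin_two, Algebra.leftMulMatrix_eq_repr_mul,
    Algebra.leftMulMatrix_eq_repr_mul, Algebra.leftMulMatrix_eq_repr_mul,
    Algebra.leftMulMatrix_eq_repr_mul, e0, e1]
  simp only [map_add, map_smul, Finsupp.add_apply, Finsupp.smul_apply, Basis.repr_self,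
    Finsupp.single_eq_same, smul_eq_mul, mul_one]
  rw [Finsupp.single_eq_of_ne (by decide), Finsupp.single_eq_of_ne (by decide)]
  ring

end quad

section cont

variable {k D : Type} [Field k] [NumberField k] [DivisionRing D] [Algebra k D] {N n : ℕ}

theorem cont_poly {F L : Type} [NormedField F] [Field L] [Algebra F L] (la : L →ₗ[F] F) {N : ℕ}
    (P : MvPolynomial (Fin N) L) :
    Continuous fun r : Fin N → F => la (MvPolynomial.eval (fun i => algebraMap F L (r i)) P) := by
  have h1 : (fun r : Fin N → F => la (MvPolynomial.eval (fun i => algebraMap F L (r i)) P)) =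
      fun r => ∑ d ∈ P.support, la (MvPolynomial.coeff d P) * ∏ i, r i ^ d i := by
    funext r
    rw [MvPolynomial.eval_eq', map_sum]
    refine Finset.sum_congr rfl fun d _ => ?_
    have h2 : MvPolynomial.coeff d P * ∏ i, algebraMap F L (r i) ^ d i =
        (∏ i, r i ^ d i) • MvPolynomial.coeff d P := by
      rw [Algebra.smul_def, map_prod, mul_comm]
      simp only [map_pow]
    rw [h2, map_smul, smul_eq_mul, mul_comm]
  rw [h1]
  fun_prop

/-- The determinant of a matrix depending linearly on coordinates. -/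
theorem cont_det {F L : Type} [NormedField F] [Field L] [Algebra F L] (la : L →ₗ[F] F) {n N : ℕ}
    (M : Fin N → Matrix (Fin n) (Fin n) L) :
    Continuous fun y : Fin N → F => la (∑ j, y j • M j).det := by
  let P : Matrix (Fin n) (Fin n) (MvPolynomial (Fin N) L) :=
    ∑ j, (MvPolynomial.X j : MvPolynomial (Fin N) L) • (M j).map MvPolynomial.C
  have h := cont_poly la P.det
  have h1 : (fun y : Fin N → F => la (MvPolynomial.eval (fun i => algebraMap F L (y i)) P.det)) =
      fun y : Fin N → F => la (∑ j, y j • M j).det := by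
    funext y
    congr 1
    rw [RingHom.map_det]
    congr 1
    rw [map_sum]
    refine Finset.sum_congr rfl fun l _ => ?_
    ext i j
    rw [RingHom.mapMatrix_apply, Matrix.map_apply, Matrix.smul_apply, Matrix.smul_apply,
      Matrix.map_apply, smul_eq_mul, map_mul, MvPolynomial.eval_X, MvPolynomial.eval_C,
      Algebra.smul_def]
  rwa [h1] at h

/-- Continuity of the determinant at a point. -/
theorem det_near (B : Basis (Fin N) k D) {Ω : Type} [Field Ω] [Algebra k Ω]
    (G : D →ₗ[k] Matrix (Fin n) (Fin n) Ω) (Λ : Ω →ₗ[k] k) (q : Pl k) (x₀ : D) {ε : ℝ}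
    (hε : 0 < ε) : ∃ η : ℝ, 0 < η ∧ ∀ x : D, nm B q (x - x₀) < η →
      plAbv q (Λ (G x).det - Λ (G x₀).det) < ε := by
  have hG : ∀ x : D, G x = ∑ j, B.repr x j • G (B j) := by
    intro x
    conv_lhs => rw [← B.sum_repr x]
    rw [map_sum]
    exact Finset.sum_congr rfl fun j _ => map_smul _ _ _
  have hc := @cont_det k Ω (plAbv q).toNormedField _ _ Λ n N fun j => G (B j)
  let _ : NormedField k := (plAbv q).toNormedField
  have hc' := (Metric.continuous_iff.mp hc) (fun j => B.repr x₀ j) ε hε
  obtain ⟨η, hη, h⟩ := hc'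
  refine ⟨η, hη, fun x hx => ?_⟩
  have h1 := h (fun j => B.repr x j) ?_
  · rw [hG x, hG x₀]
    rw [dist_eq_norm] at h1
    exact h1
  · rw [dist_pi_lt_iff hη]
    intro j
    rw [dist_eq_norm]
    have h2 := nm_lt_coord B q hx j
    rw [map_sub] at h2
    exact h2

end cont

section main

variable {k K D L K' C : Type} [Field k] [NumberField k] [Field K] [StarRing K]
    [DivisionRing D] [StarRing D] [Algebra k K] [Algebra k D] [Algebra K D] [IsScalarTower k K D]
    [Field L] [NumberField L] [Algebra k L] [Field K'] [StarRing K'] [NumberField K']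
    [Algebra K K'] [DivisionRing C] [StarRing C] [Algebra L K'] [Algebra L C] [Algebra K' C]
    [IsScalarTower L K' C] {d : kˣ} {s : K} {t : D} {a : kˣ} {T : L} {j : C →+* D}

/-- The product of the two square roots. -/
def om (K' : Type) [Field K'] [Algebra K K'] [Algebra L K'] (s : K) (T : L) : K' :=
  algebraMap K K' s * algebraMap L K' T

/-- The image of the base field. -/
def kk (k K K' : Type) [Field k] [Field K] [Field K'] [Algebra k K] [Algebra K K'] : k →+* K' :=
  (algebraMap K K').comp (algebraMap k K)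

theorem om_sq (hS : Setting k K D d s) (h : IsCent k K D L K' C t a T j) :
    om K' s T * om K' s T = kk k K K' (a * d) := by
  rw [om]
  calc _ = algebraMap K K' (s ^ 2) * algebraMap L K' (T * T) := by
        rw [map_pow, map_mul]; ring
    _ = _ := by
      rw [hS.sq, h.sqT, ← h.comp, mul_comm]
      exact (map_mul (kk k K K') _ _).symm

theorem star_kk (hSC : Setting L K' C (inc k L d) (algebraMap K K' s))
    (h : IsCent k K D L K' C t a T j) (c : k) : star (kk k K K' c) = kk k K K' c := by
  rw [hSC.fix]
  exact ⟨algebraMap k L c, (h.comp c).symm⟩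

theorem star_om (hSC : Setting L K' C (inc k L d) (algebraMap K K' s)) : star (om K' s T) = -om K' s T := by
  rw [om, star_mul, hSC.star_s, (hSC.fix _).mpr ⟨T, rfl⟩]
  ring

/-- The reduced norms of the unitary elements of the centralizer. -/
theorem exists_pu (hS : Setting k K D d s) (hSC : Setting L K' C (inc k L d) (algebraMap K K' s))
    (h : IsCent k K D L K' C t a T j) {n m : ℕ} (hn : n = 2 * m)
    (hdeg : finrank K D = n ^ 2) (hC : finrank K' C = m ^ 2) {Ω : Type} [Field Ω] [Algebra K Ω]
    (f : D →ₐ[K] Matrix (Fin n) (Fin n) Ω) {e : C} (he : e * star e = 1)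
    (hdet : (f (j e)).det = 1) :
    ∃ p u : k, HasNrd K' m e (kk k K K' p + kk k K K' u * om K' s T) ∧
      p ^ 2 - (a * d : k) * u ^ 2 = 1 := by
  have hKc : CharZero K := charZero_of_injective_algebraMap (algebraMap k K).injective
  have hK'c : CharZero K' := charZero_of_injective_algebraMap (algebraMap K K').injective
  have := hS.fin
  have := hS.cen
  have := hSC.fin
  have := hSC.cen
  obtain ⟨ν, hν, hν2⟩ := exists_nrd_cent hdeg hC (by rw [h.rkK, hn]) j h.jK e
  have hnorm : Algebra.norm K ν = 1 := by
    apply (algebraMap K Ω).injective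
    rw [map_one, ← hdet]
    exact (hν2 Ω f).symm
  have hstar : ν * star ν = 1 := by
    have h1 : HasNrd K' m (star e) (star ν) := W.HasNrd.star (fun c => hSC.star_alg c) hν
    have h2 := W.HasNrd.mul hν h1
    rw [he] at h2
    have h3 : HasNrd K' m (1 : C) 1 := fun Ω _ _ f => by rw [map_one, map_one, Matrix.det_one]
    exact W.HasNrd.unique hC h2 h3
  obtain ⟨x, y, hxy⟩ := h.repK ν
  obtain ⟨p, q, hx⟩ := hS.span x
  obtain ⟨r, u, hy⟩ := hS.span y
  have hTT : algebraMap L K' T * algebraMap L K' T = algebraMap K K' (algebraMap k K a) := by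
    rw [← map_mul, h.sqT, h.comp]
  have hN := norm_quad h.rkK hTT h.repK x y
  rw [← hxy, hnorm] at hN
  have hνν : ν * (algebraMap K K' x - algebraMap K K' y * algebraMap L K' T) = 1 := by
    rw [hxy]
    calc _ = algebraMap K K' (x ^ 2) - (algebraMap L K' T * algebraMap L K' T) *
          algebraMap K K' (y ^ 2) := by
          rw [map_pow, map_pow]; ring
      _ = 1 := by rw [hTT, ← map_mul, ← map_sub, ← hN, map_one]
  have hν0 : ν ≠ 0 := left_ne_zero_of_mul_eq_one hstar
  have hst : star ν = algebraMap K K' x - algebraMap K K' y * algebraMap L K' T :=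
    mul_left_cancel₀ hν0 (hstar.trans hνν.symm)
  obtain ⟨S', hS'⟩ : ∃ S', S' = algebraMap K K' s := ⟨_, rfl⟩
  obtain ⟨T', hT'⟩ : ∃ T', T' = algebraMap L K' T := ⟨_, rfl⟩
  have hsS : star S' = -S' := by rw [hS']; exact hSC.star_s
  have hsT : star T' = T' := by rw [hT']; exact (hSC.fix _).mpr ⟨T, rfl⟩
  have hS0 : S' ≠ 0 := by rw [hS']; exact hSC.s_ne
  have hkk : ∀ c : k, star (kk k K K' c) = kk k K K' c := star_kk hSC h
  have ex : algebraMap K K' x = kk k K K' p + kk k K K' q * S' := by
    rw [hx, map_add, map_mul, hS']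
    rfl
  have ey : algebraMap K K' y = kk k K K' r + kk k K K' u * S' := by
    rw [hy, map_add, map_mul, hS']
    rfl
  have h1 : kk k K K' q * S' = kk k K K' r * T' := by
    have h2 := hst
    rw [hxy, ex, ey, ← hT', star_add, star_add, star_mul, star_mul, star_add, star_mul, hsS, hsT,
      hkk, hkk, hkk, hkk] at h2
    have h3 : (2 : K') ≠ 0 := two_ne_zero
    apply mul_left_cancel₀ h3
    linear_combination -h2
  have hq : q = 0 := by
    by_contra hq
    have hq' : kk k K K' q ≠ 0 := (_root_.map_ne_zero _).mpr hq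
    have h2 : S' = kk k K K' (r / q) * T' := by
      rw [map_div₀]
      field_simp
      linear_combination h1
    have h3 : star S' = S' := by
      rw [h2, star_mul, hsT, hkk, mul_comm]
    rw [hsS] at h3
    exact hS0 (self_eq_neg.mp h3.symm)
  have hr : r = 0 := by
    rw [hq, map_zero, zero_mul] at h1
    have hT0 : T' ≠ 0 := by
      rw [hT']
      intro h0
      rw [h0, mul_zero] at hTT
      exact (_root_.map_ne_zero _).mpr ((_root_.map_ne_zero _).mpr a.ne_zero) hTT.symm
    rcases mul_eq_zero.mp h1.symm with h2 | h2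
    · exact (_root_.map_eq_zero _).mp h2
    · exact absurd h2 hT0
  have hνe : ν = kk k K K' p + kk k K K' u * om K' s T := by
    rw [hxy, ex, ey, hq, hr, om, ← hS', ← hT', map_zero]
    ring
  refine ⟨p, u, by rw [← hνe]; exact hν, ?_⟩
  apply (algebraMap k K).injective
  rw [map_one, ← (show (1 : K) = x ^ 2 - algebraMap k K a * y ^ 2 from hN).symm, hx, hy, hq, hr,
    map_zero, zero_mul, add_zero, zero_add, map_sub, map_mul, map_pow, map_pow, map_mul, mul_pow,
    hS.sq]
  ring

/-- The coordinates of the reduced norm are close to those of one. -/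
theorem pu_near (hS : Setting k K D d s) (hSC : Setting L K' C (inc k L d) (algebraMap K K' s))
    (h : IsCent k K D L K' C t a T j) {m N : ℕ} (hC : finrank K' C = m ^ 2)
    (B : Basis (Fin N) k D) (v : HeightOneSpectrum (𝓞 k)) {ε : Z0} (hε : ε ≠ 0) :
    ∃ η : ℝ, 0 < η ∧ ∀ (e : C) (p u : k),
      HasNrd K' m e (kk k K K' p + kk k K K' u * om K' s T) →
      nm B (.inl v) (j e - 1) < η → v.valuation k (p - 1) < ε ∧ v.valuation k u < ε := by
  have hKc : CharZero K := charZero_of_injective_algebraMap (algebraMap k K).injective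
  have hK'c : CharZero K' := charZero_of_injective_algebraMap (algebraMap K K').injective
  have := hSC.fin
  have := hSC.cen
  obtain ⟨g⟩ := Vale.Agent.P011S.exists_split (K := K') (D := C) hC (AlgebraicClosure K')
  let algK : Algebra k K' := (kk k K K').toAlgebra
  let algC : Algebra k C := ((algebraMap K' C).comp (kk k K K')).toAlgebra' fun c x =>
    Algebra.commutes _ _
  have tow : IsScalarTower k K' (AlgebraicClosure K') := inferInstance
  have hck : ∀ c : k, j (algebraMap K' C (kk k K K' c)) = algebraMap k D c := fun c => by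
    rw [IsScalarTower.algebraMap_apply k K D]
    exact h.jK _
  let jl : C →ₗ[k] D :=
    { toFun := j
      map_add' := map_add j
      map_smul' := fun c x => by
        rw [RingHom.id_apply, Algebra.smul_def, Algebra.smul_def, map_mul]
        exact congrArg (· * j x) (hck c) }
  obtain ⟨r, hr⟩ := jl.exists_leftInverse_of_injective (LinearMap.ker_eq_bot.mpr h.inj)
  have hr' : ∀ x : C, r (j x) = x := fun x => LinearMap.congr_fun hr x
  let gl : C →ₗ[k] Matrix (Fin m) (Fin m) (AlgebraicClosure K') :=
    { toFun := g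
      map_add' := map_add g
      map_smul' := fun c x => by
        rw [RingHom.id_apply, Algebra.smul_def, map_mul]
        change g (algebraMap K' C (kk k K K' c)) * g x = _
        rw [AlgHom.commutes, ← Algebra.smul_def]
        ext i l
        rw [Matrix.smul_apply, Matrix.smul_apply, Algebra.smul_def, Algebra.smul_def,
          IsScalarTower.algebraMap_apply k K' (AlgebraicClosure K')]
        rfl }
  let il : k × k →ₗ[k] K' :=
    { toFun := fun x => kk k K K' x.1 + kk k K K' x.2 * om K' s T
      map_add' := fun x y => by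
        rw [Prod.fst_add, Prod.snd_add, map_add, map_add]; ring
      map_smul' := fun c x => by
        rw [Prod.smul_fst, Prod.smul_snd, smul_eq_mul, smul_eq_mul, map_mul, map_mul,
          RingHom.id_apply, Algebra.smul_def]
        change _ = kk k K K' c * _
        ring }
  have hker : LinearMap.ker il = ⊥ := by
    rw [LinearMap.ker_eq_bot']
    rintro ⟨x, y⟩ hxy
    have h1 : kk k K K' x + kk k K K' y * om K' s T = 0 := hxy
    have h2 := congrArg star h1
    rw [star_add, star_mul, star_om hSC, star_kk hSC h, star_kk hSC h, star_zero] at h2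
    have h3 : (2 : K') ≠ 0 := two_ne_zero
    have h4 : kk k K K' x = 0 := by
      apply mul_left_cancel₀ h3
      linear_combination h1 + h2
    have h5 : x = 0 := (_root_.map_eq_zero _).mp h4
    have h6 : om K' s T ≠ 0 := by
      intro h0
      have h7 := om_sq hS h
      rw [h0, mul_zero] at h7
      exact (_root_.map_ne_zero (kk k K K')).mpr (mul_ne_zero a.ne_zero d.ne_zero) h7.symm
    have h7 : y = 0 := by
      rw [h4, zero_add] at h1
      rcases mul_eq_zero.mp h1 with h8 | h8
      · exact (_root_.map_eq_zero _).mp h8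
      · exact absurd h8 h6
    rw [h5, h7]
    rfl
  obtain ⟨r2, hr2⟩ := il.exists_leftInverse_of_injective hker
  have hr2' : ∀ p u : k, r2 (kk k K K' p + kk k K K' u * om K' s T) = (p, u) := fun p u =>
    LinearMap.congr_fun hr2 (p, u)
  obtain ⟨ρ, hρ'⟩ := (Algebra.linearMap K' (AlgebraicClosure K')).exists_leftInverse_of_injective
    (LinearMap.ker_eq_bot.mpr (algebraMap K' (AlgebraicClosure K')).injective)
  have hρ : ∀ c, ρ (algebraMap K' (AlgebraicClosure K') c) = c := fun c =>
    LinearMap.congr_fun hρ' c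
  let Λ : AlgebraicClosure K' →ₗ[k] k × k := r2.comp (ρ.restrictScalars k)
  have hΛ : ∀ p u : k, Λ (algebraMap K' (AlgebraicClosure K')
      (kk k K K' p + kk k K K' u * om K' s T)) = (p, u) := fun p u => by
    change r2 (ρ _) = _
    rw [hρ, hr2']
  obtain ⟨c, hc⟩ := HeightOneSpectrum.valuation_surjective k v ε
  have hc0 : c ≠ 0 := by
    rintro rfl
    rw [map_zero] at hc
    exact hε hc.symm
  have hcpos : 0 < plAbv (.inl v) c := (plAbv _).pos hc0
  obtain ⟨η₁, hη₁, H1⟩ := det_near B (gl.comp r) ((LinearMap.fst k k k).comp Λ) (.inl v) 1 hcpos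
  obtain ⟨η₂, hη₂, H2⟩ := det_near B (gl.comp r) ((LinearMap.snd k k k).comp Λ) (.inl v) 1 hcpos
  refine ⟨min η₁ η₂, lt_min hη₁ hη₂, fun e p u hν hne => ?_⟩
  have e1 : ((gl.comp r) (j e)).det = algebraMap K' (AlgebraicClosure K')
      (kk k K K' p + kk k K K' u * om K' s T) := by
    change (g (r (j e))).det = _
    rw [hr', hν _ g]
  have e2 : ((gl.comp r) 1).det = algebraMap K' (AlgebraicClosure K')
      (kk k K K' 1 + kk k K K' 0 * om K' s T) := by
    change (g (r 1)).det = _
    rw [← map_one j, hr', map_one, Matrix.det_one, map_one, map_zero, zero_mul, add_zero, map_one]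
  have h1 := H1 _ (hne.trans_le (min_le_left _ _))
  have h2 := H2 _ (hne.trans_le (min_le_right _ _))
  have f1 : ∀ z, ((LinearMap.fst k k k).comp Λ) z = (Λ z).1 := fun _ => rfl
  have f2 : ∀ z, ((LinearMap.snd k k k).comp Λ) z = (Λ z).2 := fun _ => rfl
  rw [e1, e2, f1, f1, hΛ, hΛ] at h1
  rw [e1, e2, f2, f2, hΛ, hΛ] at h2
  rw [← hc, ← plAbv_lt, ← plAbv_lt]
  refine ⟨h1, ?_⟩
  have h3 : ((p, u) : k × k).2 - ((1, 0) : k × k).2 = u := sub_zero u
  rwa [h3] at h2

end main

end Vale.Agent.P011.Pow
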