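import Vale.Agent.P011.W.LocC

/-!
A local central division algebra of even degree does not stay division over a quadratic extension:
the abstract part.
-/

open Module

namespace Vale.Agent.P011.Pow.LQ

open Vale.Agent.P011.Even.LocDiv Vale.Agent.P011.W

/-- A finite division ring has at most one automorphism of order two. -/
theorem inv_unique {κ : Type} [DivisionRing κ] [Finite κ] (α β : κ →+* κ)
    (hα : ∀ x, α (α x) = x) (hβ : ∀ x, β (β x) = x) {x₀ y₀ : κ} (hx : α x₀ ≠ x₀)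
    (hy : β y₀ ≠ y₀) : ∀ x, α x = β x := by
  let _ : Field κ := littleWedderburn κ
  let p := ringChar κ
  have hp : Fact p.Prime := ⟨CharP.char_is_prime κ p⟩
  let _ : Algebra (ZMod p) κ := ZMod.algebra κ p
  have mk : ∀ γ : κ →+* κ, (∀ x, γ (γ x) = x) → ∃ g : Gal(κ/ZMod p), ∀ x, g x = γ x := by
    intro γ hγ
    let e : κ ≃+* κ := RingEquiv.ofRingHom γ γ (RingHom.ext hγ) (RingHom.ext hγ)
    refine ⟨AlgEquiv.ofRingEquiv (f := e) fun r => ?_, fun x => rfl⟩
    have h : (e : κ →+* κ).comp (algebraMap (ZMod p) κ) = algebraMap (ZMod p) κ :=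
      Subsingleton.elim _ _
    exact congrArg (fun f => f r) h
  obtain ⟨a, ha⟩ := mk α hα
  obtain ⟨b, hb⟩ := mk β hβ
  have ha2 : a ^ 2 = 1 := by
    ext x
    rw [pow_two, AlgEquiv.mul_apply, ha, ha, hα]
    rfl
  have hb2 : b ^ 2 = 1 := by
    ext x
    rw [pow_two, AlgEquiv.mul_apply, hb, hb, hβ]
    rfl
  have ha1 : a ≠ 1 := by
    intro h
    apply hx
    rw [← ha, h]
    rfl
  have hb1 : b ≠ 1 := by
    intro h
    apply hy
    rw [← hb, h]
    rfl
  have hab : a = b := by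
    by_contra hne
    classical
    have : Fintype Gal(κ/ZMod p) := Fintype.ofFinite _
    have h1 := IsCyclic.card_pow_eq_one_le (α := Gal(κ/ZMod p)) (n := 2) (by norm_num)
    have h2 : ({1, a, b} : Finset Gal(κ/ZMod p)) ⊆
        Finset.univ.filter fun g : Gal(κ/ZMod p) => g ^ 2 = 1 := by
      intro g hg
      simp only [Finset.mem_insert, Finset.mem_singleton] at hg
      simp only [Finset.mem_filter, Finset.mem_univ, true_and]
      rcases hg with rfl | rfl | rfl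
      · exact one_pow 2
      · exact ha2
      · exact hb2
    have h3 := Finset.card_le_card h2
    have h4 : ({1, a, b} : Finset Gal(κ/ZMod p)).card = 3 :=
      Finset.card_eq_three.mpr ⟨1, a, b, ha1.symm, hb1.symm, hne, rfl⟩
    omega
  intro x
  rw [← ha, ← hb, hab]

section res

variable {E : Type} [NormedDivisionRing E] [IsUltrametricDist E]

/-- The map on the residue ring induced by an isometric endomorphism. -/
noncomputable def resMap (g : E →+* E) (hg : ∀ x, ‖g x‖ = ‖x‖) : Res E →+* Res E :=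
  Ideal.quotientMap (idealM E)
    ((g.comp (ringO E).subtype).codRestrict (ringO E) fun x => by
      rw [RingHom.comp_apply, mem_ringO, hg]
      exact x.2) (by
    intro x hx
    rw [Ideal.mem_comap, mem_idealM]
    change ‖g (x : E)‖ < 1
    rw [hg]
    exact hx)

theorem resMap_mk (g : E →+* E) (hg : ∀ x, ‖g x‖ = ‖x‖) (x : ringO E) :
    resMap g hg (Ideal.Quotient.mk _ x) = Ideal.Quotient.mk _ ⟨g x, by
      rw [mem_ringO, hg]; exact x.2⟩ := rfl

theorem mk_eq_iff (x y : ringO E) : (Ideal.Quotient.mk (idealM E) x = Ideal.Quotient.mk _ y) ↔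
    ‖(x : E) - y‖ < 1 := by
  rw [Ideal.Quotient.eq, mem_idealM]
  rfl

/-- Two isometric involutions of a locally compact division ring which are nontrivial modulo the
maximal ideal are congruent. -/
theorem inv_congr [ProperSpace E] (α β : E →+* E) (hαn : ∀ x, ‖α x‖ = ‖x‖)
    (hβn : ∀ x, ‖β x‖ = ‖x‖) (hα : ∀ x, α (α x) = x) (hβ : ∀ x, β (β x) = x) {x₀ y₀ : E}
    (hx0 : ‖x₀‖ ≤ 1) (hy0 : ‖y₀‖ ≤ 1) (hx : 1 ≤ ‖α x₀ - x₀‖) (hy : 1 ≤ ‖β y₀ - y₀‖) :
    ∀ x : E, ‖x‖ ≤ 1 → ‖α x - β x‖ < 1 := by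
  let dr : DivisionRing (Res E) := DivisionRing.ofIsUnitOrEqZero (res_isUnit_or E)
  intro x hx1
  have h1 : ∀ (γ : E →+* E) (hγ : ∀ x, ‖γ x‖ = ‖x‖), (∀ x, γ (γ x) = x) →
      ∀ a : Res E, resMap γ hγ (resMap γ hγ a) = a := by
    intro γ hγ hγ2 a
    obtain ⟨x, rfl⟩ := Ideal.Quotient.mk_surjective a
    rw [resMap_mk, resMap_mk]
    congr 1
    exact Subtype.ext (hγ2 x)
  have h2 : ∀ (γ : E →+* E) (hγ : ∀ x, ‖γ x‖ = ‖x‖) (x : ringO E), 1 ≤ ‖γ x - x‖ →
      resMap γ hγ (Ideal.Quotient.mk _ x) ≠ Ideal.Quotient.mk _ x := by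
    intro γ hγ x hx h
    rw [resMap_mk, mk_eq_iff] at h
    exact absurd h (not_lt.mpr hx)
  have h3 := inv_unique (κ := Res E) (resMap α hαn) (resMap β hβn) (h1 α hαn hα) (h1 β hβn hβ)
    (h2 α hαn ⟨x₀, hx0⟩ hx) (h2 β hβn ⟨y₀, hy0⟩ hy) (Ideal.Quotient.mk _ ⟨x, hx1⟩)
  rw [resMap_mk, resMap_mk, mk_eq_iff] at h3
  exact h3

end res

end Vale.Agent.P011.Pow.LQ
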