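import Vale.Agent.P011.Pow.LQa

/-!
A local central division algebra of even degree does not stay division over a quadratic extension:
the core.
-/

open Module

namespace Vale.Agent.P011.Pow.LQ

open Vale.Agent.P011.Even.LocDiv Vale.Agent.P011.W

section

variable {k E : Type} [NontriviallyNormedField k] [CompleteSpace k] [NormedDivisionRing E]
  [NormedAlgebra k E] [IsUltrametricDist E] [FiniteDimensional k E] [CharZero k]
  [Algebra.IsCentral k E] {R : Frame E} {W : Type} [Field W] [Algebra k W] (C : Cyc k E W R)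

theorem m_eq {q : ℕ} (hq : finrank k E = q ^ 2) : C.m = q := by
  obtain ⟨X, hX, hdim⟩ := C.exists_X
  let Xa : E →ₐ[k] Matrix (Fin C.m) (Fin C.m) W :=
    { X with
      commutes' := fun c => by
        change X (algebraMap k E c) = _
        rw [← C.ι.commutes, hX]
        ext i j
        rw [Matrix.algebraMap_matrix_apply, Matrix.diagonal_apply, C.σ_alg] }
  have hfdW : FiniteDimensional k W := FiniteDimensional.of_injective C.ι.toLinearMap C.inj
  have hW : finrank W (Fin C.m → W) = C.m := by rw [Module.finrank_fin_fun]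
  rw [hW] at hdim
  have h1 : C.m ≤ finrank k W := by
    let s : Fin C.m → (W →ₐ[k] W) := fun i => C.σ ^ (i : ℕ)
    have hs : ∀ i : Fin C.m, s i C.ω = C.ω ^ (R.j ^ (i : ℕ)) := by
      intro i
      have h2 : ∀ n : ℕ, (C.σ ^ n) C.ω = C.σ^[n] C.ω := by
        intro n
        rw [AlgHom.coe_pow]
      rw [← C.σ_ω]
      exact h2 i
    have hinj : Function.Injective s := by
      intro a b hab
      by_contra hne
      have hne' : (a : ℕ) ≠ b := fun h => hne (Fin.ext h)
      have h2 := congrArg (fun g : W →ₐ[k] W => C.ι (g C.ω)) hab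
      simp only [hs, map_pow, C.hω] at h2
      have h3 := C.norm_ζ_sub hne' a.2 b.2
      rw [h2, sub_self, norm_zero] at h3
      exact zero_ne_one h3
    have h2 := Nat.card_le_card_of_injective s hinj
    rw [Nat.card_eq_fintype_card, Fintype.card_fin] at h2
    exact h2.trans (card_algHom_le_finrank k W W)
  have h2 : finrank k E ≤ C.m * C.m := by
    have hc : CharZero W := charZero_of_injective_algebraMap (algebraMap k W).injective
    have h3 := Vale.Agent.P011S.SF.split_indep C.m0 Xa (finBasis k E)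
      (finBasis k E).linearIndependent
    have h4 := h3.fintype_card_le_finrank
    rw [Fintype.card_fin, Module.finrank_matrix, Fintype.card_fin, Module.finrank_self,
      mul_one] at h4
    exact h4
  have h3 : finrank k E = C.m ^ 2 := by
    apply le_antisymm (by rw [pow_two]; exact h2)
    rw [← hdim, pow_two]
    exact Nat.mul_le_mul_left _ h1
  exact (Nat.pow_left_injective (n := 2) (by norm_num) (hq.symm.trans h3)).symm

end

theorem res_comm {A : Type} [NormedDivisionRing A] [IsUltrametricDist A] (R : Frame A) {x y : A}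
    (hx : ‖x‖ = 1) (hy : ‖y‖ = 1) : ‖x * y - y * x‖ < 1 := by
  obtain ⟨b, hb⟩ := R.gen y hy
  have h1 := R.comm_mod hx b
  have hb1 : ‖R.ζ ^ b‖ ≤ 1 := by rw [norm_pow, R.norm_ζ, one_pow]
  have h0 : ‖x - x‖ < 1 := by rw [sub_self, norm_zero]; exact one_pos
  have h2 := mul_close hx.le hy.le h0 hb
  have h3 := mul_close hb1 hx.le hb h0
  refine norm_sub_lt_trans h2 (norm_sub_lt_trans h1 ?_)
  rw [norm_sub_rev]
  exact h3

/-- Square roots modulo the maximal ideal in residue characteristic two. -/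
theorem exists_sq {R : Type} [NontriviallyNormedField R] [IsUltrametricDist R] [ProperSpace R]
    (h2 : ‖(2 : R)‖ < 1) {n : R} (hn : ‖n‖ = 1) : ∃ r : R, ‖r ^ 2 - n‖ < 1 := by
  obtain ⟨g, N, hN, hg, hgen, hdvd, hN1⟩ := exists_gen R
  obtain ⟨i, hi⟩ := hgen n hn
  have hodd : ¬ Even N := by
    rintro ⟨t, ht⟩
    have h3 : ‖((N : ℕ) : R)‖ < 1 := by
      rw [ht, ← two_mul, Nat.cast_mul, norm_mul]
      calc _ ≤ ‖((2 : ℕ) : R)‖ * 1 := by
            gcongr
            exact IsUltrametricDist.norm_natCast_le_one R t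
        _ < 1 := by rw [mul_one, Nat.cast_two]; exact h2
    have h4 : (1 : R) = (N + 1) + -(N : R) := by ring
    have h5 : ‖(1 : R)‖ < 1 := by
      rw [h4]
      refine (IsUltrametricDist.norm_add_le_max _ _).trans_lt (max_lt hN1 ?_)
      rwa [norm_neg]
    rw [norm_one] at h5
    exact lt_irrefl _ h5
  obtain ⟨t, ht⟩ := Nat.not_even_iff_odd.mp hodd
  refine ⟨g ^ (i * (t + 1)), ?_⟩
  have h3 : (g ^ (i * (t + 1))) ^ 2 = g ^ i * g ^ (N * i) := by
    rw [← pow_mul, ← pow_add]
    congr 1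
    rw [ht]
    ring
  have h4 : ‖g ^ (N * i) - 1‖ < 1 := (hdvd _).mpr ⟨i, rfl⟩
  have hgi : ‖g ^ i‖ = 1 := by rw [norm_pow, hg, one_pow]
  rw [h3]
  have h5 : ‖g ^ i * g ^ (N * i) - g ^ i‖ < 1 := by
    have : g ^ i * g ^ (N * i) - g ^ i = g ^ i * (g ^ (N * i) - 1) := by ring
    rw [this, norm_mul, hgi, one_mul]
    exact h4
  exact norm_sub_lt_trans h5 (by rwa [norm_sub_rev])

section core

variable {R A Δ : Type} [NontriviallyNormedField R] [IsUltrametricDist R] [ProperSpace R]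
  [CharZero R] [NormedDivisionRing A] [IsUltrametricDist A] [NormedAlgebra R A]
  [FiniteDimensional R A] [NormedDivisionRing Δ] [IsUltrametricDist Δ] [NormedAlgebra R Δ]
  [FiniteDimensional R Δ] [Algebra.IsCentral R Δ]

/-- The core: contradiction from a division algebra containing a central quadratic extension. -/
theorem lq_core (i : Δ →ₐ[R] A) (hi : ∀ x, ‖i x‖ = ‖x‖) (σ : A →ₐ[R] A) (hσ : ∀ x, ‖σ x‖ = ‖x‖)
    (hσ2 : ∀ x, σ (σ x) = x) (hσi : ∀ x, σ (i x) = i x) {z : A} (hz0 : z ≠ 0)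
    (hz : ∀ x, z * x = x * z)
    (hσz : σ z = -z) {a : R} (hza : z * z = algebraMap R A a) {h : ℕ} (hh : 0 < h)
    (hq : finrank R Δ = (2 * h) ^ 2) : False := by
  have hPA : ProperSpace A := FiniteDimensional.proper R A
  have hPΔ : ProperSpace Δ := FiniteDimensional.proper R Δ
  have hal : ∀ c : R, ‖algebraMap R A c‖ = ‖c‖ := fun c => norm_algebraMap' A c
  have hce : ∀ (c : R) (x : A), algebraMap R A c * x = x * algebraMap R A c := fun c x =>
    Algebra.commutes c x
  -- frames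
  obtain ⟨c, hc0, hc1⟩ := NormedField.exists_norm_lt_one R
  have hcne : c ≠ 0 := norm_pos_iff.mp hc0
  obtain ⟨F⟩ := exists_frame (E := Δ) (algebraMap R Δ c)
    ((_root_.map_ne_zero _).mpr hcne) (by rw [norm_algebraMap']; exact hc1)
  obtain ⟨G⟩ := exists_frame (E := A) (algebraMap R A c)
    ((_root_.map_ne_zero _).mpr hcne) (by rw [norm_algebraMap']; exact hc1)
  obtain ⟨W, _, _, _, ⟨C⟩⟩ := exists_cyc (k := R) F
  have hm : C.m = 2 * h := m_eq C hq
  obtain ⟨ϖ, hϖ⟩ := C.exists_ϖ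
  -- the middle power of the uniformizer
  set P : A := i (F.π ^ h) with hP
  set Z : A := i F.ζ with hZ
  have hP0 : P ≠ 0 := (_root_.map_ne_zero i).mpr (pow_ne_zero _ F.π0)
  have hPP : P * P = algebraMap R A ϖ := by
    rw [hP, ← map_mul, ← pow_add, ← two_mul, ← hm, ← hϖ, AlgHom.commutes]
  have hZn : ‖Z‖ = 1 := by rw [hZ, hi, F.norm_ζ]
  have hPZ : P * Z = Z ^ (F.j ^ h) * P := by
    rw [hP, hZ, ← map_mul, pi_pow, map_mul, map_pow]
  have hne : ‖Z ^ (F.j ^ h) - Z‖ = 1 := by
    have h1 := C.norm_ζ_sub (a := h) (b := 0) hh.ne' (by omega) (by omega)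
    rw [pow_zero, pow_one] at h1
    rw [hZ, ← map_pow, ← map_sub, hi, h1]
  -- no central element has the norm of `P`
  have hB : ∀ l : A, (∀ x, l * x = x * l) → ‖l‖ ≠ ‖P‖ := by
    intro l hl hn
    have hl0 : l ≠ 0 := by
      rintro rfl
      rw [norm_zero] at hn
      exact hP0 (norm_eq_zero.mp hn.symm)
    have hl' : ∀ x, l⁻¹ * x = x * l⁻¹ := by
      intro x
      rw [eq_mul_inv_iff_mul_eq₀ hl0, mul_assoc, ← hl x, inv_mul_cancel_left₀ hl0]
    have hu : ‖P * l⁻¹‖ = 1 := by
      rw [norm_mul, norm_inv, hn, mul_inv_cancel₀ (norm_ne_zero_iff.mpr hP0)]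
    have h1 := res_comm G hu hZn
    have h2 : P * l⁻¹ * Z - Z * (P * l⁻¹) = (Z ^ (F.j ^ h) - Z) * (P * l⁻¹) := by
      rw [mul_assoc, hl', ← mul_assoc, hPZ, sub_mul, mul_assoc]
    rw [h2, norm_mul, hu, mul_one, hne] at h1
    exact lt_irrefl _ h1
  have hzc : ∀ (r : R) (x : A), (z - algebraMap R A r) * x = x * (z - algebraMap R A r) := by
    intro r x
    rw [sub_mul, mul_sub, hz, hce]
  have h2A : (2 : A) ≠ 0 := by
    have h1 : (2 : A) = algebraMap R A 2 := by rw [map_ofNat]
    rw [h1]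
    exact (_root_.map_ne_zero _).mpr two_ne_zero
  have hznR : ∀ r : R, z - algebraMap R A r ≠ 0 := by
    intro r h0
    have h1 : z = algebraMap R A r := sub_eq_zero.mp h0
    have h3 := hσz
    rw [h1, AlgHom.commutes, ← h1] at h3
    have h4 : 2 * z = 0 := by
      rw [two_mul]
      nth_rewrite 1 [h3]
      exact neg_add_cancel z
    rcases mul_eq_zero.mp h4 with h5 | h5
    · exact h2A h5
    · exact hz0 h5
  have hprod : ∀ r : R, (z - algebraMap R A r) * σ (z - algebraMap R A r) =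
      algebraMap R A (r ^ 2 - a) := by
    intro r
    rw [map_sub, hσz, AlgHom.commutes, map_sub, map_pow, ← hza]
    have h1 := hz (algebraMap R A r)
    have h3 : (z - algebraMap R A r) * (-z - algebraMap R A r) =
        -(z * z) - z * algebraMap R A r + algebraMap R A r * z +
          algebraMap R A r * algebraMap R A r := by noncomm_ring
    rw [h3, h1, pow_two]
    abel
  -- the values of `z - r`
  have hval : ∀ r : R, ∃ ρ : R, ρ ≠ 0 ∧ ‖ρ‖ = ‖z - algebraMap R A r‖ := by
    intro r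
    have h1 : ‖z - algebraMap R A r‖ ^ 2 = ‖r ^ 2 - a‖ := by
      have h2 := congrArg norm (hprod r)
      rw [norm_mul, hσ, hal] at h2
      rw [pow_two, h2]
    have hc0' : r ^ 2 - a ≠ 0 := by
      intro h0
      rw [h0, norm_zero] at h1
      exact hznR r (norm_eq_zero.mp (pow_eq_zero_iff (two_ne_zero) |>.mp h1))
    obtain ⟨n, hn⟩ := norm_eq_zpow F.π0 F.π1 F.πm (x := algebraMap R Δ (r ^ 2 - a))
      ((_root_.map_ne_zero _).mpr hc0')
    rw [norm_algebraMap'] at hn
    obtain ⟨t, ht⟩ := C.dvd_of_norm' hn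
    have hϖ0 : ϖ ≠ 0 := by
      rintro rfl
      rw [map_zero] at hϖ
      exact pow_ne_zero _ F.π0 hϖ.symm
    have hϖn : ‖ϖ‖ = ‖P‖ ^ 2 := by
      rw [← hal, ← hPP, norm_mul, pow_two]
    have hPn : ‖F.π‖ ^ (C.m : ℤ) = ‖ϖ‖ := by
      rw [← norm_algebraMap' Δ ϖ, hϖ, norm_pow, zpow_natCast]
    have h3 : ‖z - algebraMap R A r‖ ^ 2 = ‖ϖ‖ ^ t := by
      rw [h1, hn, ht, zpow_mul, hPn]
    rcases Int.even_or_odd' t with ⟨t', rfl | rfl⟩
    · refine ⟨ϖ ^ t', zpow_ne_zero _ hϖ0, ?_⟩
      have h4 : (‖ϖ‖ ^ t') ^ 2 = ‖z - algebraMap R A r‖ ^ 2 := by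
        rw [h3, ← zpow_natCast, ← zpow_mul, mul_comm]
        rfl
      rw [norm_zpow]
      exact (pow_left_inj₀ (by positivity) (norm_nonneg _) two_ne_zero).mp h4
    · exfalso
      apply hB ((z - algebraMap R A r) * algebraMap R A (ϖ ^ (-t')))
      · intro x
        rw [mul_assoc, hce, ← mul_assoc, hzc, mul_assoc]
      · have h4 : (‖(z - algebraMap R A r) * algebraMap R A (ϖ ^ (-t'))‖) ^ 2 = ‖P‖ ^ 2 := by
          rw [norm_mul, mul_pow, h3, hal, norm_zpow, ← hϖn, ← zpow_natCast, ← zpow_mul,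
            ← zpow_add₀ (norm_ne_zero_iff.mpr hϖ0)]
          have h5 : 2 * t' + 1 + -t' * (2 : ℕ) = 1 := by push_cast; ring
          rw [h5, zpow_one]
        exact (pow_left_inj₀ (norm_nonneg _) (norm_nonneg _) two_ne_zero).mp h4
  -- the nearest point
  have hcl : IsClosed (Set.range (algebraMap R A)) := by
    have hiso : Isometry (algebraMap R A) := AddMonoidHomClass.isometry_of_norm _ hal
    exact hiso.isClosedEmbedding.isClosed_range
  obtain ⟨_, ⟨r₀, rfl⟩, hr₀⟩ := hcl.exists_infDist_eq_dist (Set.range_nonempty _) z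
  have hmin : ∀ r : R, ‖z - algebraMap R A r₀‖ ≤ ‖z - algebraMap R A r‖ := by
    intro r
    rw [← dist_eq_norm, ← hr₀, ← dist_eq_norm]
    exact Metric.infDist_le_dist_of_mem ⟨r, rfl⟩
  obtain ⟨ρ, hρ0, hρ⟩ := hval r₀
  have hρn : ‖ρ‖ ≠ 0 := norm_ne_zero_iff.mpr hρ0
  obtain ⟨u, hu⟩ : ∃ u, u = (z - algebraMap R A r₀) * algebraMap R A ρ⁻¹ := ⟨_, rfl⟩
  have hu1 : ‖u‖ = 1 := by
    rw [hu, norm_mul, hal, norm_inv, ← hρ, mul_inv_cancel₀ hρn]
  have hur : ∀ r : R, 1 ≤ ‖u - algebraMap R A r‖ := by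
    intro r
    have h1 : u - algebraMap R A r =
        (z - algebraMap R A (r₀ + ρ * r)) * algebraMap R A ρ⁻¹ := by
      rw [hu, map_add, map_mul, sub_mul, sub_mul, add_mul, ← map_mul, ← map_mul, ← map_mul]
      have h2 : ρ * r * ρ⁻¹ = r := by field_simp
      rw [h2]
      abel
    rw [h1, norm_mul, hal, norm_inv, ← div_eq_mul_inv, one_le_div (norm_pos_iff.mpr hρ0), hρ]
    exact hmin _
  have huc : ∀ x, u * x = x * u := by
    intro x
    rw [hu, mul_assoc, hce, ← mul_assoc, hzc, mul_assoc]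
  have hσu : σ u = (-z - algebraMap R A r₀) * algebraMap R A ρ⁻¹ := by
    rw [hu, map_mul, map_sub, hσz, AlgHom.commutes, AlgHom.commutes]
  have htr : u + σ u = algebraMap R A (-2 * r₀ * ρ⁻¹) := by
    rw [hσu, hu, ← add_mul, map_mul, map_mul]
    congr 1
    rw [map_neg, map_ofNat]
    noncomm_ring
  have hnm : u * σ u = algebraMap R A ((r₀ ^ 2 - a) * ρ⁻¹ * ρ⁻¹) := by
    have h1 := hprod r₀
    rw [map_sub, hσz, AlgHom.commutes] at h1
    rw [hσu, hu, mul_assoc, hce, ← mul_assoc, ← mul_assoc, h1, map_mul, map_mul]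
  have hσu1 : ‖σ u‖ = 1 := by rw [hσ, hu1]
  -- the involution is not trivial on the residue field
  have hσuu : 1 ≤ ‖σ u - u‖ := by
    by_contra hlt
    push Not at hlt
    have hle2 : ‖(2 : R)‖ ≤ 1 := by
      have := IsUltrametricDist.norm_natCast_le_one R 2
      simpa using this
    rcases hle2.lt_or_eq with h2 | h2
    · obtain ⟨r, hr⟩ := exists_sq h2 (n := (r₀ ^ 2 - a) * ρ⁻¹ * ρ⁻¹) (by
        rw [← hal, ← hnm, norm_mul, hu1, hσu1, one_mul])
      have hr1 : ‖r‖ ≤ 1 := by
        have h3 : ‖r ^ 2‖ = 1 := by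
          refine norm_eq_one_of_close (a := (r₀ ^ 2 - a) * ρ⁻¹ * ρ⁻¹) (b := r ^ 2) ?_ ?_
          · rw [← hal, ← hnm, norm_mul, hu1, hσu1, one_mul]
          · rw [norm_sub_rev]; exact hr
        rw [norm_pow] at h3
        exact ((pow_eq_one_iff_of_nonneg (norm_nonneg _) two_ne_zero).mp h3).le
      obtain ⟨y, hy⟩ : ∃ y, y = algebraMap R A r := ⟨_, rfl⟩
      have hyn : ‖y‖ ≤ 1 := by rw [hy, hal]; exact hr1
      have hyr : ‖u * σ u - y ^ 2‖ < 1 := by
        rw [hnm, hy, ← map_pow, ← map_sub, hal, norm_sub_rev]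
        exact hr
      have h2A' : ‖(2 : A)‖ < 1 := by
        have h3 : (2 : A) = algebraMap R A 2 := by rw [map_ofNat]
        rw [h3, hal]
        exact h2
      have h3 : (u - y) ^ 2 = (-(u * (σ u - u)) + (u * σ u - y ^ 2)) + (2 * y ^ 2 - 2 * (u * y)) := by
        have h4 := huc y
        have h5 : (u - y) ^ 2 = u * u - u * y - y * u + y * y := by noncomm_ring
        rw [h5, ← h4]
        noncomm_ring
      have h4 : ‖(u - y) ^ 2‖ < 1 := by
        rw [h3]
        refine (IsUltrametricDist.norm_add_le_max _ _).trans_lt (max_lt ?_ ?_)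
        · refine (IsUltrametricDist.norm_add_le_max _ _).trans_lt (max_lt ?_ hyr)
          rw [norm_neg, norm_mul, hu1, one_mul]
          exact hlt
        · rw [sub_eq_add_neg]
          refine (IsUltrametricDist.norm_add_le_max _ _).trans_lt (max_lt ?_ ?_)
          · rw [norm_mul, norm_pow]
            calc _ ≤ ‖(2 : A)‖ * 1 := by
                  gcongr
                  exact pow_le_one₀ (norm_nonneg _) hyn
              _ < 1 := by rw [mul_one]; exact h2A'
          · rw [norm_neg, norm_mul, norm_mul, hu1, one_mul]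
            calc _ ≤ ‖(2 : A)‖ * 1 := by gcongr
              _ < 1 := by rw [mul_one]; exact h2A'
      rw [norm_pow] at h4
      have h5 : ‖u - y‖ < 1 := by
        by_contra hcon
        push Not at hcon
        exact absurd h4 (not_lt.mpr (one_le_pow₀ hcon))
      have h6 := hur r
      rw [← hy] at h6
      exact absurd h5 (not_lt.mpr h6)
    · have h3 := hur (-r₀ * ρ⁻¹)
      have h4 : 2 * (u - algebraMap R A (-r₀ * ρ⁻¹)) = -(σ u - u) := by
        have h5 : (2 : A) * algebraMap R A (-r₀ * ρ⁻¹) = u + σ u := by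
          rw [htr]
          have h6 : (2 : A) = algebraMap R A 2 := by rw [map_ofNat]
          rw [h6, ← map_mul]
          congr 1
          ring
        rw [mul_sub, h5, two_mul]
        abel
      have h5 := congrArg norm h4
      have h6 : ‖(2 : A)‖ = 1 := by
        have h7 : (2 : A) = algebraMap R A 2 := by rw [map_ofNat]
        rw [h7, hal]
        exact h2
      rw [norm_mul, h6, one_mul, norm_neg] at h5
      rw [h5] at h3
      exact absurd hlt (not_lt.mpr h3)
  -- the conjugation by `P`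
  have hP0' : ‖P‖ ≠ 0 := norm_ne_zero_iff.mpr hP0
  let β : A →+* A :=
    { toFun := fun x => P * x * P⁻¹
      map_one' := by rw [mul_one, mul_inv_cancel₀ hP0]
      map_mul' := fun x y => by
        simp only [mul_assoc]
        rw [inv_mul_cancel_left₀ hP0]
      map_zero' := by rw [mul_zero, zero_mul]
      map_add' := fun x y => by rw [mul_add, add_mul] }
  have hβ : ∀ x, β x = P * x * P⁻¹ := fun _ => rfl
  have hβn : ∀ x, ‖β x‖ = ‖x‖ := fun x => by
    rw [hβ, norm_mul, norm_mul, norm_inv, mul_comm ‖P‖, mul_assoc, mul_inv_cancel₀ hP0', mul_one]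
  have hβ2 : ∀ x, β (β x) = x := fun x => by
    have h1 : P * (P * x * P⁻¹) * P⁻¹ = (P * P) * x * (P * P)⁻¹ := by
      rw [mul_inv_rev]
      simp only [mul_assoc]
    rw [hβ, hβ, h1, hPP, hce, mul_assoc, mul_inv_cancel₀, mul_one]
    rw [← hPP]
    exact mul_ne_zero hP0 hP0
  have hβZ : β Z = Z ^ (F.j ^ h) := by
    rw [hβ, hPZ, mul_assoc, mul_inv_cancel₀ hP0, mul_one]
  have h1 := inv_congr (σ : A →+* A) β hσ hβn hσ2 hβ2 (x₀ := u) (y₀ := Z) hu1.le hZn.le hσuu
    (by rw [hβZ, hne]) Z hZn.le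
  have h2 : (σ : A →+* A) Z = Z := hσi _
  rw [h2, hβZ, norm_sub_rev, hne] at h1
  exact lt_irrefl _ h1

end core

end Vale.Agent.P011.Pow.LQ
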