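import Vale.Agent.P011.One.Four

/-!
The statement to be proved by induction on the degree.
-/

open Module NumberField IsDedekindDomain Topology

set_option linter.unusedSectionVars false

namespace Vale.Agent.P011.Pow

open Vale.Agent.P011.Arith Vale.Agent.P011.Even Vale.Agent.P011.Two Vale.Agent.P011.One

/-- In degree `n`: the normal subgroups of finite index contain the elements close to one at
finitely many places. -/
def MP (n : ℕ) : Prop :=
  ∀ (k K D : Type) [Field k] [NumberField k] [Field K] [NumberField K] [StarRing K]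
    [DivisionRing D] [StarRing D] [Algebra k K] [Algebra k D] [Algebra K D] [IsScalarTower k K D]
    (d : kˣ) (s : K), Setting k K D d s → finrank K D = n ^ 2 →
    ∀ (Ω : Type) [Field Ω] [Algebra K Ω] (f : D →ₐ[K] Matrix (Fin n) (Fin n) Ω) (M : ℕ)
      (B : Basis (Fin M) k D) (N : Subgroup (SUD f)) [N.Normal], N.index ≠ 0 →
      ∃ S : Set (Pl k), S.Finite ∧ PF B (GU f) (Im N) S

variable {k K D : Type} [Field k] [NumberField k] [Field K] [NumberField K] [StarRing K]
  [DivisionRing D] [StarRing D] [Algebra k K] [Algebra k D] [Algebra K D] [IsScalarTower k K D]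
  {d : kˣ} {s : K} {Ω : Type} [Field Ω] [Algebra K Ω] {n : ℕ}

/-- The form with the places of `Tdiv`. -/
theorem MP.tdiv (hMP : MP n) (hS : Setting k K D d s) (hn : 3 ≤ n) (hdeg : finrank K D = n ^ 2)
    (f : D →ₐ[K] Matrix (Fin n) (Fin n) Ω) {M : ℕ} (B : Basis (Fin M) k D)
    (N : Subgroup (SUD f)) [N.Normal] (hi : N.index ≠ 0) :
    PF B (GU f) (Im N) (Tdiv k K D) := by
  obtain ⟨S, hSf, h⟩ := hMP k K D d s hS hdeg Ω f M B N hi
  exact pf_tdiv hS hn hdeg f B im_sub one_im (fun _ ha _ hb => mul_im ha hb) hi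
    (fun x hx => pow_im (fun g => Subgroup.pow_index_mem _ g) hx) hSf h

/-- The form with the adic topology. -/
theorem MP.isOpen (hMP : MP n) (hS : Setting k K D d s) (hn : 3 ≤ n) (hdeg : finrank K D = n ^ 2)
    (f : D →ₐ[K] Matrix (Fin n) (Fin n) Ω) (H : Subgroup (SUD f)) (hi : H.index ≠ 0) :
    IsOpen[adicTop (Adiv k K D) (SUD f)] (H : Set (SUD f)) := by
  have hfin := hS.fin
  have hKf : FiniteDimensional k K := Module.finite_of_finrank_pos (by rw [hS.rank]; norm_num)
  have hDf : FiniteDimensional k D := Module.Finite.trans K D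
  have : H.FiniteIndex := ⟨hi⟩
  have hi' : H.normalCore.index ≠ 0 := Subgroup.FiniteIndex.index_ne_zero
  obtain ⟨S, hSf, h⟩ := hMP k K D d s hS hdeg Ω f _ (finBasis k D) H.normalCore hi'
  refine isOpen_of_pf hS hn hdeg f (finBasis k D) H hi'
    (fun g => H.normalCore_le (Subgroup.pow_index_mem _ g)) hSf (h.mono ?_)
  rintro _ ⟨g, hg, rfl⟩
  exact ⟨g, H.normalCore_le hg, rfl⟩

/-- The form from the statement on a centralizer. -/
theorem pf_of_abAt (hS : Setting k K D d s) (hn : 3 ≤ n) (hdeg : finrank K D = n ^ 2)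
    (f : D →ₐ[K] Matrix (Fin n) (Fin n) Ω) {M : ℕ} (B : Basis (Fin M) k D) {a : kˣ} {t : D}
    (ht : t ∈ Xa D a) (N : Subgroup (SUD f)) [N.Normal] (hi : N.index ≠ 0)
    (hab : AbAt B f (Im N) t) : ∃ S : Set (Pl k), S.Finite ∧ PF B (GU f) (Im N) S :=
  pf_of_ab hS hn hdeg f B ht (Nat.pos_of_ne_zero hi) one_im (fun _ ha _ hb => mul_im ha hb)
    im_sub (hq1_im f N hi (Nat.pos_of_ne_zero hi) fun g => Subgroup.pow_index_mem _ g) hab

/-- Degree four. -/
theorem mp_four : MP 4 := by
  intro k K D _ _ _ _ _ _ _ _ _ _ _ d s hS hdeg Ω _ _ f M B N _ hi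
  obtain ⟨a, σ, hσ, hne⟩ := exists_Xa hS (by rw [hdeg]; norm_num)
  exact pf_of_abAt hS (by norm_num) hdeg f B hσ N hi
    (ab_end hS (by rw [hdeg]; norm_num) (not_isSquare_of_mem hσ hne) hσ rfl f B
      (Nat.pos_of_ne_zero hi) (fun _ ha _ hb => mul_im ha hb)
      (hq1_im f N hi (Nat.pos_of_ne_zero hi) fun g => Subgroup.pow_index_mem _ g))

/-- The induction step on the centralizer, as a statement: in every `D` of degree `2 n` there is
a symmetric square root `t` of an element of `k` such that the elements of the centralizer of `t`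
close to one at finitely many places lie in a given normal subgroup of finite index. -/
def Step (n : ℕ) : Prop :=
  ∀ (k K D : Type) [Field k] [NumberField k] [Field K] [NumberField K] [StarRing K]
    [DivisionRing D] [StarRing D] [Algebra k K] [Algebra k D] [Algebra K D] [IsScalarTower k K D]
    (d : kˣ) (s : K), Setting k K D d s → finrank K D = (2 * n) ^ 2 →
    ∃ (a : kˣ) (t : D), t ∈ Xa D a ∧
      ∀ (Ω : Type) [Field Ω] [Algebra K Ω] (f : D →ₐ[K] Matrix (Fin (2 * n)) (Fin (2 * n)) Ω)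
        (M : ℕ) (B : Basis (Fin M) k D) (N : Subgroup (SUD f)) [N.Normal], N.index ≠ 0 →
        AbAt B f (Im N) t

theorem MP.step (hn : 2 ≤ n) (h : Step n) : MP (2 * n) := by
  intro k K D _ _ _ _ _ _ _ _ _ _ _ d s hS hdeg Ω _ _ f M B N _ hi
  obtain ⟨a, t, ht, h1⟩ := h k K D d s hS hdeg
  exact pf_of_abAt hS (by omega) hdeg f B ht N hi (h1 Ω f M B N hi)

/-- **The induction.** -/
theorem mp_pow (hstep : ∀ e, 2 ≤ e → MP (2 ^ e) → Step (2 ^ e)) {e : ℕ} (he : 2 ≤ e) :
    MP (2 ^ e) := by
  induction e, he using Nat.le_induction with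
  | base => exact mp_four
  | succ e he ih =>
    have h1 : 2 ≤ 2 ^ e := by
      calc 2 = 2 ^ 1 := (pow_one 2).symm
        _ ≤ 2 ^ e := Nat.pow_le_pow_right (by norm_num) (by omega)
    have h2 := MP.step h1 (hstep e he ih)
    rwa [← pow_succ'] at h2

end Vale.Agent.P011.Pow
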