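import Vale.Agent.P011.Two2.FinPre

/-!
Square roots at a nonsplit finite place: the class of the reduced norm of a symmetric element `g`
with `g * Y = star Y * g`, where `Y ^ 2` is `d` times a local square.
-/

open Module Matrix NumberField IsDedekindDomain TensorProduct
open Vale.Agent.P011.T2

set_option linter.unusedSectionVars false

namespace Vale.Agent.P011.Pow

open Vale.Agent.P011.Even Vale.Agent.P011.Arith Vale.Agent.P011.Two2

namespace ML

section lin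

variable {L : Type} [Field L]

/-- Idempotent endomorphisms of the same rank are conjugate. -/
theorem proj_conj {V : Type} [AddCommGroup V] [Module L V] [FiniteDimensional L V]
    {f g : V →ₗ[L] V} (hf : IsIdempotentElem f) (hg : IsIdempotentElem g)
    (h : finrank L (LinearMap.range f) = finrank L (LinearMap.range g)) :
    ∃ φ : V ≃ₗ[L] V, ∀ x, φ (f x) = g (φ x) := by
  have h' : finrank L (LinearMap.ker f) = finrank L (LinearMap.ker g) := by
    have h1 := f.finrank_range_add_finrank_ker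
    have h2 := g.finrank_range_add_finrank_ker
    omega
  obtain ⟨a⟩ : Nonempty (LinearMap.range f ≃ₗ[L] LinearMap.range g) :=
    ⟨LinearEquiv.ofFinrankEq _ _ h⟩
  obtain ⟨b⟩ : Nonempty (LinearMap.ker f ≃ₗ[L] LinearMap.ker g) :=
    ⟨LinearEquiv.ofFinrankEq _ _ h'⟩
  let P := (LinearMap.range f).prodEquivOfIsCompl (LinearMap.ker f)
    (LinearMap.IsIdempotentElem.isCompl hf)
  let Q := (LinearMap.range g).prodEquivOfIsCompl (LinearMap.ker g)
    (LinearMap.IsIdempotentElem.isCompl hg)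
  have hP : ∀ y, P y = (y.1 : V) + y.2 := fun y => rfl
  have hQ : ∀ y, Q y = (y.1 : V) + y.2 := fun y => rfl
  have key : ∀ y, Q ((a.prodCongr b) (P.symm (f (P y)))) =
      g (Q ((a.prodCongr b) (P.symm (P y)))) := by
    intro y
    have h1 : f (P y) = P (y.1, 0) := by
      rw [hP, hP, map_add, LinearMap.mem_ker.mp y.2.2, add_zero,
        (LinearMap.IsIdempotentElem.mem_range_iff hf).mp y.1.2]
      simp
    rw [h1, LinearEquiv.symm_apply_apply, LinearEquiv.symm_apply_apply, hQ, hQ, map_add]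
    simp only [LinearEquiv.prodCongr_apply, map_zero, ZeroMemClass.coe_zero, add_zero]
    rw [LinearMap.mem_ker.mp (b y.2).2, add_zero,
      (LinearMap.IsIdempotentElem.mem_range_iff hg).mp (a y.1).2]
  refine ⟨P.symm.trans ((a.prodCongr b).trans Q), fun x => ?_⟩
  have := key (P.symm x)
  rw [LinearEquiv.apply_symm_apply] at this
  exact this

/-- Matrices of square one and of trace zero are conjugate. -/
theorem conj_invol [CharZero L] {n : ℕ} {y z : Matrix (Fin n) (Fin n) L} (hy : y * y = 1)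
    (hz : z * z = 1) (ty : y.trace = 0) (tz : z.trace = 0) :
    ∃ P : Matrix (Fin n) (Fin n) L, IsUnit P ∧ P * y = z * P := by
  have hidem : ∀ w : Matrix (Fin n) (Fin n) L, w * w = 1 →
      IsIdempotentElem (Matrix.toLin' ((2 : L)⁻¹ • (1 + w))) := by
    intro w hw
    have h1 : ((2 : L)⁻¹ • (1 + w)) * ((2 : L)⁻¹ • (1 + w)) = (2 : L)⁻¹ • (1 + w) := by
      have h3 : (1 + w) * (1 + w) = (2 : L) • (1 + w) := by
        rw [add_mul, mul_add, mul_add, one_mul, one_mul, mul_one, hw, two_smul, add_comm w 1]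
      rw [smul_mul_assoc, mul_smul_comm, h3, smul_smul, smul_smul]
      congr 1
      norm_num
    have h2 := Matrix.toLin'_mul ((2 : L)⁻¹ • (1 + w)) ((2 : L)⁻¹ • (1 + w))
    rw [h1] at h2
    exact h2.symm
  have htr : ∀ w : Matrix (Fin n) (Fin n) L, w * w = 1 → w.trace = 0 →
      ((finrank L (LinearMap.range (Matrix.toLin' ((2 : L)⁻¹ • (1 + w)))) : ℕ) : L) =
        (2 : L)⁻¹ * n := by
    intro w hw tw
    rw [← (LinearMap.IsIdempotentElem.isProj_range _ (hidem w hw)).trace,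
      Matrix.trace_toLin'_eq, Matrix.trace_smul,
      Matrix.trace_add, tw, add_zero, Matrix.trace_one, Fintype.card_fin, smul_eq_mul]
  obtain ⟨φ, hφ⟩ := proj_conj (hidem y hy) (hidem z hz) (by
    have h1 := htr y hy ty
    rw [← htr z hz tz] at h1
    exact_mod_cast h1)
  obtain ⟨P, hP⟩ : ∃ P, P = LinearMap.toMatrix' (φ : (Fin n → L) →ₗ[L] (Fin n → L)) := ⟨_, rfl⟩
  have hPv : ∀ x, P *ᵥ x = φ x := by
    intro x
    rw [hP, LinearMap.toMatrix'_mulVec]
    rfl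
  have hφ' : ∀ x, P *ᵥ (((2 : L)⁻¹ • (1 + y)) *ᵥ x) = ((2 : L)⁻¹ • (1 + z)) *ᵥ (P *ᵥ x) := by
    intro x
    have := hφ x
    rw [Matrix.toLin'_apply, Matrix.toLin'_apply] at this
    rw [hPv, hPv, this]
  have h2 : P * ((2 : L)⁻¹ • (1 + y)) = ((2 : L)⁻¹ • (1 + z)) * P := by
    apply Matrix.toLin'.injective
    refine LinearMap.ext fun x => ?_
    rw [Matrix.toLin'_apply, Matrix.toLin'_apply, ← Matrix.mulVec_mulVec, hφ',
      Matrix.mulVec_mulVec]
  refine ⟨P, ?_, ?_⟩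
  · rw [hP, LinearMap.isUnit_toMatrix'_iff, Module.End.isUnit_iff]
    exact φ.bijective
  · rw [mul_smul_comm, smul_mul_assoc, mul_add, add_mul, mul_one, one_mul] at h2
    have h3 := smul_right_injective (Matrix (Fin n) (Fin n) L)
      (inv_ne_zero (two_ne_zero (α := L))) h2
    exact add_left_cancel h3

/-- Two hermitian matrices for which the image of the idempotent `e` is a lagrangian. -/
theorem herm_conj [StarRing L] {n : ℕ} {e H H' : Matrix (Fin n) (Fin n) L} (he : e * e = e)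
    (hs : Hᴴ = H) (hs' : H'ᴴ = H')
    (hH : (1 - e) * H = H * eᴴ) (hH' : (1 - e) * H' = H' * eᴴ) (hu : IsUnit H') :
    ∃ t : Matrix (Fin n) (Fin n) L, H = t * H' * tᴴ := by
  have hd := (Matrix.isUnit_iff_isUnit_det _).mp hu
  obtain ⟨J, hJ⟩ : ∃ J, J = H'⁻¹ := ⟨_, rfl⟩
  obtain ⟨f, hf⟩ : ∃ f, f = 1 - e := ⟨_, rfl⟩
  have j1 : H' * J = 1 := by rw [hJ, Matrix.mul_nonsing_inv _ hd]
  have j2 : J * H' = 1 := by rw [hJ, Matrix.nonsing_inv_mul _ hd]
  have j3 : Jᴴ = J := by rw [hJ, Matrix.conjTranspose_nonsing_inv, hs']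
  rw [← hf] at hH hH'
  have f1 : e * f = 0 := by rw [hf, mul_sub, mul_one, he, sub_self]
  have f2 : f * f = f := by rw [hf, sub_mul, one_mul, ← hf, f1, sub_zero]
  have f3 : eᴴ * J = J * f := by
    calc eᴴ * J = (J * H') * eᴴ * J := by rw [j2, one_mul]
      _ = J * (H' * eᴴ) * J := by simp only [mul_assoc]
      _ = J * f * (H' * J) := by rw [← hH']; simp only [mul_assoc]
      _ = _ := by rw [j1, mul_one]
  refine ⟨e * H * J + f, ?_⟩
  have e1 : (e * H * J + f)ᴴ = J * H * eᴴ + (1 - eᴴ) := by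
    rw [Matrix.conjTranspose_add, Matrix.conjTranspose_mul, Matrix.conjTranspose_mul, j3, hs, hf,
      Matrix.conjTranspose_sub, Matrix.conjTranspose_one, mul_assoc]
  have e2 : (e * H * J + f) * H' = e * H + f * H' := by
    rw [add_mul, mul_assoc (e * H), j2, mul_one]
  have t1 : e * H * (J * H * eᴴ) = 0 := by
    calc e * H * (J * H * eᴴ) = e * H * (J * (H * eᴴ)) := by simp only [mul_assoc]
      _ = e * H * (J * f) * H := by rw [← hH]; simp only [mul_assoc]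
      _ = e * (H * eᴴ) * J * H := by rw [← f3]; simp only [mul_assoc]
      _ = e * f * H * J * H := by rw [← hH]; simp only [mul_assoc]
      _ = 0 := by rw [f1]; simp only [zero_mul]
  have t2 : e * H * (1 - eᴴ) = e * H := by
    rw [mul_sub, mul_one, mul_assoc, ← hH, ← mul_assoc, f1, zero_mul, sub_zero]
  have t3 : f * H' * (J * H * eᴴ) = f * H := by
    calc f * H' * (J * H * eᴴ) = f * (H' * J) * (H * eᴴ) := by simp only [mul_assoc]
      _ = f * (f * H) := by rw [j1, mul_one, hH]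
      _ = _ := by rw [← mul_assoc, f2]
  have t4 : f * H' * (1 - eᴴ) = 0 := by
    rw [mul_sub, mul_one, mul_assoc, ← hH', ← mul_assoc, f2, sub_self]
  rw [e1, e2, mul_add, add_mul, add_mul, t1, t2, t3, t4, zero_add, add_zero, hf, sub_mul, one_mul]
  abel

/-- The determinants of two hermitian matrices with `H y = yᴴ H`. -/
theorem det_class [CharZero L] [StarRing L] {n : ℕ} {δ₁ δ₂ : L} (hδ₁ : star δ₁ = -δ₁)
    (hδ₂ : star δ₂ = -δ₂) (h₁0 : δ₁ ≠ 0) (h₂0 : δ₂ ≠ 0) {y₁ y₂ H₁ H₂ : Matrix (Fin n) (Fin n) L}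
    (hy₁ : y₁ * y₁ = Matrix.scalar _ (δ₁ * δ₁)) (hy₂ : y₂ * y₂ = Matrix.scalar _ (δ₂ * δ₂))
    (ty₁ : y₁.trace = 0) (ty₂ : y₂.trace = 0) (hs₁ : H₁ᴴ = H₁) (hs₂ : H₂ᴴ = H₂)
    (hH₁ : H₁ * y₁ = y₁ᴴ * H₁) (hH₂ : H₂ * y₂ = y₂ᴴ * H₂) (hu : IsUnit H₂) :
    ∃ p : L, H₁.det = p * star p * H₂.det := by
  have hsq : ∀ {δ : L} {y : Matrix (Fin n) (Fin n) L}, δ ≠ 0 → y * y = Matrix.scalar _ (δ * δ) →
      (δ⁻¹ • y) * (δ⁻¹ • y) = 1 := by
    intro δ y h0 h
    rw [smul_mul_smul_comm, h, Matrix.scalar_apply, ← Matrix.smul_one_eq_diagonal, smul_smul]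
    have : δ⁻¹ * δ⁻¹ * (δ * δ) = 1 := by field_simp
    rw [this, one_smul]
  have hst : ∀ {δ : L} {y H : Matrix (Fin n) (Fin n) L}, star δ = -δ → H * y = yᴴ * H →
      H * (δ⁻¹ • y) = -((δ⁻¹ • y)ᴴ * H) := by
    intro δ y H h1 h2
    rw [Matrix.conjTranspose_smul, star_inv₀, h1, inv_neg, neg_smul, neg_mul, neg_neg,
      mul_smul_comm, smul_mul_assoc, h2]
  obtain ⟨x₁, hx₁⟩ : ∃ x, x = δ₁⁻¹ • y₁ := ⟨_, rfl⟩
  obtain ⟨x₂, hx₂⟩ : ∃ x, x = δ₂⁻¹ • y₂ := ⟨_, rfl⟩
  have q₁ := hsq h₁0 hy₁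
  have q₂ := hsq h₂0 hy₂
  have r₁ := hst hδ₁ hH₁
  have r₂ := hst hδ₂ hH₂
  rw [← hx₁] at q₁ r₁
  rw [← hx₂] at q₂ r₂
  obtain ⟨P, hP, hPx⟩ := conj_invol q₁ q₂ (by rw [hx₁, Matrix.trace_smul, ty₁, smul_zero])
    (by rw [hx₂, Matrix.trace_smul, ty₂, smul_zero])
  have hK : Pᴴ * H₂ * P * x₁ = -(x₁ᴴ * (Pᴴ * H₂ * P)) := by
    calc Pᴴ * H₂ * P * x₁ = Pᴴ * (H₂ * x₂) * P := by
          rw [mul_assoc, hPx]; simp only [mul_assoc]
      _ = -((x₂ * P)ᴴ * H₂ * P) := by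
          rw [r₂, Matrix.conjTranspose_mul, mul_neg, neg_mul]; simp only [mul_assoc]
      _ = _ := by rw [← hPx, Matrix.conjTranspose_mul]; simp only [mul_assoc]
  -- the idempotent
  obtain ⟨e, he⟩ : ∃ e, e = ((2 : L)⁻¹ • (1 + x₁))ᴴ := ⟨_, rfl⟩
  have h2s : star (2 : L)⁻¹ = (2 : L)⁻¹ := by rw [star_inv₀, star_ofNat]
  have he1 : e = (2 : L)⁻¹ • (1 + x₁ᴴ) := by
    rw [he, Matrix.conjTranspose_smul, h2s, Matrix.conjTranspose_add, Matrix.conjTranspose_one]
  have he2 : eᴴ = (2 : L)⁻¹ • (1 + x₁) := by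
    rw [he, Matrix.conjTranspose_conjTranspose]
  have hee : e * e = e := by
    have h3 : x₁ᴴ * x₁ᴴ = 1 := by rw [← Matrix.conjTranspose_mul, q₁, Matrix.conjTranspose_one]
    have h4 : (1 + x₁ᴴ) * (1 + x₁ᴴ) = (2 : L) • (1 + x₁ᴴ) := by
      rw [add_mul, mul_add, mul_add, one_mul, one_mul, mul_one, h3, two_smul, add_comm x₁ᴴ 1]
    rw [he1, smul_mul_smul_comm, h4, smul_smul]
    congr 1
    norm_num
  have hHe : ∀ H : Matrix (Fin n) (Fin n) L, H * x₁ = -(x₁ᴴ * H) → (1 - e) * H = H * eᴴ := by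
    intro H hH
    have h3 : (1 : Matrix (Fin n) (Fin n) L) - e = (2 : L)⁻¹ • (1 - x₁ᴴ) := by
      have h5 : (1 : Matrix (Fin n) (Fin n) L) = (2 : L)⁻¹ • (1 + 1) := by
        rw [← two_smul L (1 : Matrix (Fin n) (Fin n) L), smul_smul, inv_mul_cancel₀ two_ne_zero,
          one_smul]
      rw [he1]
      nth_rewrite 1 [h5]
      rw [← smul_sub]
      congr 1
      abel
    rw [h3, he2, smul_mul_assoc, mul_smul_comm, mul_add, mul_one, hH, sub_mul, one_mul,
      ← sub_eq_add_neg]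
  have hsK : (Pᴴ * H₂ * P)ᴴ = Pᴴ * H₂ * P := by
    rw [Matrix.conjTranspose_mul, Matrix.conjTranspose_mul, Matrix.conjTranspose_conjTranspose,
      hs₂, mul_assoc]
  have huK : IsUnit (Pᴴ * H₂ * P) := by
    refine (IsUnit.mul ?_ hu).mul hP
    exact hP.star
  obtain ⟨t, ht⟩ := herm_conj hee hs₁ hsK (hHe _ r₁) (hHe _ hK) huK
  refine ⟨t.det * star P.det, ?_⟩
  rw [ht, Matrix.det_mul, Matrix.det_mul, Matrix.det_mul, Matrix.det_mul,
    Matrix.det_conjTranspose, Matrix.det_conjTranspose, star_mul', star_star]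
  ring

end lin


theorem exists_anti {K D : Type} [Field K] [DivisionRing D] [Algebra K D] [Algebra.IsCentral K D]
    {Y : D} {c : D} (hc : ∀ x, c * x = x * c) (hY : Y * Y = c) (hK : ∀ c : K, algebraMap K D c ≠ Y) :
    ∃ z : D, z ≠ 0 ∧ z * Y = -(Y * z) := by
  by_cases h : ∀ x, Y * x = x * Y
  · have h1 : Y ∈ Subalgebra.center K D := by
      rw [Subalgebra.mem_center_iff]
      exact fun x => (h x).symm
    have h2 := Algebra.IsCentral.out h1
    rw [Algebra.mem_bot] at h2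
    obtain ⟨a, ha⟩ := h2
    exact absurd ha (hK a)
  · push Not at h
    obtain ⟨x, hx⟩ := h
    refine ⟨Y * x - x * Y, sub_ne_zero.mpr hx, ?_⟩
    rw [sub_mul, mul_sub, neg_sub, mul_assoc x, hY, ← mul_assoc Y Y, hY, ← mul_assoc Y x Y, hc]

end ML

open ML

variable {k K D : Type} [Field k] [NumberField k] [Field K] [StarRing K]
    [DivisionRing D] [StarRing D] [Algebra k K] [Algebra k D] [Algebra K D] [IsScalarTower k K D]
    {d : kˣ} {s : K} {n : ℕ}

/-- **The class of the symmetric elements `g` with `g * Y = star Y * g`**, where `Y ^ 2 = b` and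
`b * d` is a local square at the nonsplit place `v`. -/
theorem mat_lemma (hS : Setting k K D d s) (hn : 0 < n) (hdeg : finrank K D = n ^ 2) {Ω : Type}
    [Field Ω] [Algebra K Ω] (f : D →ₐ[K] Matrix (Fin n) (Fin n) Ω) {v : HeightOneSpectrum (𝓞 k)}
    (hv : d ∉ LS (v.valuation k)) {b₁ b₂ : kˣ} {Y₁ Y₂ g₁ g₂ : D}
    (hY₁ : Y₁ * Y₁ = algebraMap k D b₁) (hY₂ : Y₂ * Y₂ = algebraMap k D b₂)
    (hK₁ : ∀ c : K, algebraMap K D c ≠ Y₁) (hK₂ : ∀ c : K, algebraMap K D c ≠ Y₂)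
    (hb₁ : b₁ * d ∈ LS (v.valuation k)) (hb₂ : b₂ * d ∈ LS (v.valuation k))
    (hg₁ : star g₁ = g₁) (hg₂ : star g₂ = g₂) (_h0₁ : g₁ ≠ 0) (h0₂ : g₂ ≠ 0)
    (h₁ : g₁ * Y₁ = star Y₁ * g₁) (h₂ : g₂ * Y₂ = star Y₂ * g₂) {ν₁ ν₂ : kˣ}
    (hν₁ : (f g₁).det = algebraMap K Ω (algebraMap k K ν₁))
    (hν₂ : (f g₂).det = algebraMap K Ω (algebraMap k K ν₂)) :
    ν₁ * ν₂ ∈ NF d ⊔ LS (v.valuation k) := by
  have := hS.fin
  have := hS.cen
  have : CharZero K := charZero_of_injective_algebraMap (algebraMap k K).injective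
  let F := v.adicCompletion k
  obtain ⟨L, _, _, _, ρ, G, i, hGu, hGs, hG, hik, hi, hQ⟩ := exists_model hS hn hdeg v hv
  have hσ : ∀ x, hS.sig x = star x := fun x => rfl
  have : CharZero L := charZero_of_injective_algebraMap (algebraMap F L).injective
  let _ : Algebra K L := i.toAlgebra
  let gg : D →ₐ[K] Matrix (Fin n) (Fin n) L :=
    { toFun := fun x => ρ ((1 : F) ⊗ₜ[k] x)
      map_one' := by rw [← Algebra.TensorProduct.one_def, map_one]
      map_mul' := fun x y => by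
        rw [← map_mul, Algebra.TensorProduct.tmul_mul_tmul, one_mul]
      map_zero' := by rw [TensorProduct.tmul_zero, map_zero]
      map_add' := fun x y => by rw [TensorProduct.tmul_add, map_add]
      commutes' := fun c => hi c }
  have hgg : ∀ x, gg x = ρ ((1 : F) ⊗ₜ[k] x) := fun x => rfl
  have hGg : ∀ x, G * gg (star x) = (gg x)ᴴ * G := by
    intro x
    have h := hG ((1 : F) ⊗ₜ x)
    rw [LinearMap.baseChange_tmul, hσ] at h
    exact h
  have hunit : ∀ c : D, c ≠ 0 → IsUnit (gg c) := fun c hc => (IsUnit.mk0 c hc).map gg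
  -- the square roots
  obtain ⟨θ, hθ0, hθs, hθd⟩ := hQ.gen
  have hroot : ∀ b : kˣ, b * d ∈ LS (v.valuation k) → ∃ δ : L, star δ = -δ ∧ δ ≠ 0 ∧
      δ * δ = algebraMap F L (algebraMap k F (b : k)) := by
    intro b hb
    obtain ⟨c, hc⟩ := (isSquare_iff v (b * d)).mpr hb
    have hc0 : c ≠ 0 := by
      rintro rfl
      rw [mul_zero] at hc
      exact (_root_.map_ne_zero (algebraMap k F)).mpr (b * d : kˣ).ne_zero hc
    refine ⟨algebraMap F L c * θ⁻¹, ?_, mul_ne_zero ((_root_.map_ne_zero _).mpr hc0)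
      (inv_ne_zero hθ0), ?_⟩
    · rw [star_mul', hQ.fix', star_inv₀, hθs, inv_neg, mul_neg]
    · have h1 : algebraMap F L c * algebraMap F L c =
          algebraMap F L (algebraMap k F (b : k)) * θ ^ 2 := by
        rw [hθd, ← map_mul, ← hc, Units.val_mul, map_mul, map_mul]
        rfl
      have h2 : algebraMap F L c * θ⁻¹ * (algebraMap F L c * θ⁻¹) =
          algebraMap F L c * algebraMap F L c * (θ ^ 2)⁻¹ := by
        rw [pow_two, mul_inv]; ring
      rw [h2, h1, mul_assoc, mul_inv_cancel₀ (pow_ne_zero 2 hθ0), mul_one]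
  have hsq : ∀ {b : kˣ} {Y : D}, Y * Y = algebraMap k D b →
      gg Y * gg Y = Matrix.scalar _ (algebraMap F L (algebraMap k F (b : k))) := by
    intro b Y hY
    rw [← map_mul, hY, IsScalarTower.algebraMap_apply k K D, hgg, hi, hik]
  have htr : ∀ {b : kˣ} {Y : D}, Y * Y = algebraMap k D b → (∀ c : K, algebraMap K D c ≠ Y) →
      (gg Y).trace = 0 := by
    intro b Y hY hK
    obtain ⟨z, hz0, hz⟩ := exists_anti (fun x => Algebra.commutes (b : k) x) hY hK
    have h3 : gg Y = -(gg z * gg Y * gg z⁻¹) := by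
      rw [← map_mul, ← map_mul, hz, ← map_neg]
      congr 1
      rw [neg_mul, neg_neg, mul_assoc, mul_inv_cancel₀ hz0, mul_one]
    have h4 : (gg z * gg Y * gg z⁻¹).trace = (gg Y).trace := by
      rw [Matrix.trace_mul_comm, ← mul_assoc, ← map_mul, inv_mul_cancel₀ hz0, map_one, one_mul]
    have h5 : (gg Y).trace = -(gg Y).trace := by
      conv_lhs => rw [h3]
      rw [Matrix.trace_neg, h4]
    exact self_eq_neg.mp h5
  have hherm : ∀ {g : D}, star g = g → (G * gg g)ᴴ = G * gg g := by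
    intro g hg
    rw [Matrix.conjTranspose_mul, hGs, ← hGg, hg]
  have hint : ∀ {g Y : D}, g * Y = star Y * g → G * gg g * gg Y = (gg Y)ᴴ * (G * gg g) := by
    intro g Y h
    rw [mul_assoc, ← map_mul, h, map_mul, ← mul_assoc, hGg, mul_assoc]
  obtain ⟨δ₁, e1, e2, e3⟩ := hroot b₁ hb₁
  obtain ⟨δ₂, e4, e5, e6⟩ := hroot b₂ hb₂
  obtain ⟨p, hp⟩ := det_class e1 e4 e2 e5 (by rw [hsq hY₁, e3]) (by rw [hsq hY₂, e6])
    (htr hY₁ hK₁) (htr hY₂ hK₂) (hherm hg₁) (hherm hg₂) (hint h₁) (hint h₂)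
    (hGu.mul (hunit g₂ h0₂))
  have hd1 : (gg g₁).det = algebraMap F L (algebraMap k F (ν₁ : k)) := by
    rw [det_compare hn hdeg f gg g₁ hν₁]
    exact hik _
  have hd2 : (gg g₂).det = algebraMap F L (algebraMap k F (ν₂ : k)) := by
    rw [det_compare hn hdeg f gg g₂ hν₂]
    exact hik _
  have hGd : G.det ≠ 0 := ((Matrix.isUnit_iff_isUnit_det G).mp hGu).ne_zero
  rw [Matrix.det_mul, Matrix.det_mul, hd1, hd2] at hp
  have hp1 : algebraMap F L (algebraMap k F (ν₁ : k)) =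
      p * star p * algebraMap F L (algebraMap k F (ν₂ : k)) := by
    apply mul_left_cancel₀ hGd
    rw [hp]; ring
  have hν0 : ∀ ν : kˣ, algebraMap F L (algebraMap k F (ν : k)) ≠ 0 := fun ν =>
    (_root_.map_ne_zero _).mpr ((_root_.map_ne_zero _).mpr ν.ne_zero)
  have hp0 : p ≠ 0 := by
    rintro rfl
    rw [zero_mul, zero_mul] at hp1
    exact hν0 ν₁ hp1
  obtain ⟨ν, hν, hνN⟩ := norm_mem_LN hQ hp0
  rw [← mem_LN_iff v]
  refine sq_mul_mem_LN hνN ⟨iu v ν₂, ?_⟩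
  apply Units.ext
  apply (algebraMap F L).injective
  have e7 : algebraMap F L ((ν : F) * (algebraMap k F (ν₂ : k)) ^ 2) =
      p * star p * (algebraMap F L (algebraMap k F (ν₂ : k))) ^ 2 := by
    rw [map_mul, map_pow]
    exact congrArg (· * _) hν
  refine Eq.trans ?_ e7.symm
  change algebraMap F L (algebraMap k F ((ν₁ * ν₂ : kˣ) : k)) = _
  rw [Units.val_mul, map_mul, map_mul, hp1]
  ring

end Vale.Agent.P011.Pow
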