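import Vale.Agent.P011.Pow.AvDiv

/-!
Uniform smallness of the Cayley elements `h` of the tori.
-/

open Module NumberField IsDedekindDomain
open scoped TensorProduct

set_option linter.unusedSectionVars false

namespace Vale.Agent.P011.Pow

open Vale.Agent.P011.Arith Vale.Agent.P011.Even
open Vale.Agent.P011.W (HasNrd)
open Vale.Agent.P011.One (Tdiv)

section av

variable {F : Type} [Field F] (a : F → ℝ)

theorem av_sum_le (h0 : a 0 = 0) (hu : ∀ x y, a (x + y) ≤ max (a x) (a y))
    {ι : Type} (s : Finset ι) (f : ι → F) {C : ℝ} (hC : 0 ≤ C) (hf : ∀ i ∈ s, a (f i) ≤ C) :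
    a (∑ i ∈ s, f i) ≤ C := by
  classical
  induction s using Finset.induction_on with
  | empty => rw [Finset.sum_empty, h0]; exact hC
  | insert b s hb ih =>
    rw [Finset.sum_insert hb]
    exact (hu _ _).trans (max_le (hf b (Finset.mem_insert_self b s))
      (ih fun i hi => hf i (Finset.mem_insert_of_mem hi)))

/-- Integral elements have absolute value at most one. -/
theorem av_int (a : AbsoluteValue F ℝ) (hu : ∀ x y, a (x + y) ≤ max (a x) (a y)) {x : F}
    (hx : IsIntegral ℤ x) : a x ≤ 1 := by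
  by_contra hlt
  push Not at hlt
  have hnat : ∀ n : ℕ, a (n : F) ≤ 1 := fun n => by
    induction n with
    | zero => rw [Nat.cast_zero, a.map_zero]; exact zero_le_one
    | succ n ih =>
      rw [Nat.cast_succ]
      exact (hu _ _).trans (max_le ih (by rw [a.map_one]))
  have hint : ∀ n : ℤ, a (n : F) ≤ 1 := fun n => by
    rcases n.eq_nat_or_neg with ⟨m, rfl | rfl⟩
    · rw [Int.cast_natCast]; exact hnat m
    · rw [Int.cast_neg, Int.cast_natCast, a.map_neg]; exact hnat m
  obtain ⟨p, hp, he⟩ := hx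
  rw [Polynomial.eval₂_eq_sum_range, Finset.sum_range_succ, hp.coeff_natDegree, map_one,
    one_mul] at he
  rcases Nat.eq_zero_or_pos p.natDegree with h0 | h0
  · rw [h0] at he
    simp at he
  · have h1 : x ^ p.natDegree = -∑ i ∈ Finset.range p.natDegree,
        (algebraMap ℤ F) (p.coeff i) * x ^ i := by
      rw [eq_neg_iff_add_eq_zero, add_comm]
      exact he
    have h2 : a (x ^ p.natDegree) ≤ a x ^ (p.natDegree - 1) := by
      rw [h1, a.map_neg]
      refine av_sum_le a a.map_zero hu _ _ (by positivity) fun i hi => ?_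
      rw [a.map_mul, a.map_pow]
      have h3 : a x ^ i ≤ a x ^ (p.natDegree - 1) :=
        pow_le_pow_right₀ hlt.le (by rw [Finset.mem_range] at hi; omega)
      have h4 : a ((algebraMap ℤ F) (p.coeff i)) ≤ 1 := hint _
      calc _ ≤ 1 * a x ^ (p.natDegree - 1) :=
            mul_le_mul h4 h3 (by positivity) zero_le_one
        _ = _ := one_mul _
    rw [a.map_pow] at h2
    have h5 : a x ^ (p.natDegree - 1) < a x ^ p.natDegree :=
      pow_lt_pow_right₀ hlt (by omega)
    linarith

end av

/-- The ramification index is at most the degree. -/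
theorem val_above_le {k F : Type} [Field k] [NumberField k] [Field F] [NumberField F]
    [Algebra k F] {w : HeightOneSpectrum (𝓞 F)} {v : HeightOneSpectrum (𝓞 k)} (h : Ab w v) :
    ∃ e : ℕ, e ≠ 0 ∧ e ≤ finrank k F ∧
      ∀ x : k, w.valuation F (algebraMap k F x) = (v.valuation k x) ^ e := by
  have : w.asIdeal.LiesOver v.asIdeal := ⟨h.symm⟩
  have := v.isMaximal
  refine ⟨v.asIdeal.ramificationIdx' w.asIdeal,
    Ideal.IsDedekindDomain.ramificationIdx'_ne_zero_of_liesOver w.asIdeal v.ne_bot, ?_,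
    fun x => ?_⟩
  · have hinj : Function.Injective (algebraMap (𝓞 k) (𝓞 F)) :=
      FaithfulSMul.algebraMap_injective (𝓞 k) (𝓞 F)
    have : NoZeroSMulDivisors (𝓞 k) (𝓞 F) := ⟨fun {c x} h => by
      rw [Algebra.smul_def, mul_eq_zero] at h
      exact h.imp_left fun h0 => hinj (by rw [h0, map_zero])⟩
    exact Ideal.ramificationIdx_le_finrank (𝓞 F) k F (p := v.asIdeal) w.asIdeal
  · exact (HeightOneSpectrum.valuation_liesOver F v w x).symm

/-- (H) -/
theorem near_h {k L K' C : Type} [Field k] [NumberField k] [Field L] [NumberField L]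
    [Algebra k L] [Field K'] [NumberField K'] [StarRing K'] [DivisionRing C] [StarRing C]
    [Algebra L K'] [Algebra L C] [Algebra K' C] [IsScalarTower L K' C] {dL : Lˣ} {sL : K'}
    (hSC : Setting L K' C dL sL) {m : ℕ} (hC : finrank K' C = m ^ 2)
    {w' : HeightOneSpectrum (𝓞 L)} (hw' : (Sum.inl w' : Pl L) ∈ Tdiv L K' C)
    {v : HeightOneSpectrum (𝓞 k)} (hv : Ab w' v) {M : ℕ} (B' : Basis (Fin M) L C) (ω : K')
    {ε : ℝ} (hε : 0 < ε) :
    ∃ γ : Z0, γ ≠ 0 ∧ ∀ (F : Type) [Field F] [NumberField F] [Algebra k F] (ψ : F →+* C),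
      finrank k F = 2 →
      (∀ c : k, ψ (algebraMap k F c) = algebraMap L C (algebraMap k L c)) →
      ∀ r : F, (∀ w : HeightOneSpectrum (𝓞 F), Ab w v → w.valuation F r < γ) →
      ∀ h : C, h * star h = 1 →
        h * (1 - ψ r * algebraMap K' C ω) = 1 + ψ r * algebraMap K' C ω →
        nm B' (.inl w') (h - 1) < ε := by
  have := hSC.fin
  have : StarModule K' C := ⟨hSC.star_smul⟩
  obtain ⟨W, hW⟩ := exists_above (E := K') w'
  obtain ⟨A, hA, hAalg, -, hAeq, -, hAB⟩ := exists_av hSC hC W (div_of_tdiv hSC hw' hW)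
  obtain ⟨δ, hδ, hδ1⟩ := (hAB w' hW M B').2.1 ε hε
  -- the absolute value on `k`
  obtain ⟨e₁, he₁, hv₁⟩ := val_above hW
  obtain ⟨e₂, he₂, hv₂⟩ := val_above hv
  have hval : ∀ c : k, W.valuation K' (algebraMap L K' (algebraMap k L c)) =
      v.valuation k c ^ (e₂ * e₁) := fun c => by rw [hv₁, hv₂, pow_mul]
  have hAk : ∀ c : k, A (algebraMap L C (algebraMap k L c)) =
      plAbv (.inl W) (algebraMap L K' (algebraMap k L c)) := fun c => by
    rw [IsScalarTower.algebraMap_apply L K' C, hAalg]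
  have hone : ∀ c : k, v.valuation k c = 1 → A (algebraMap L C (algebraMap k L c)) = 1 := by
    intro c hc
    rw [hAk, ← norm_algebraMap_eq]
    have h1 : W.valuation K' (algebraMap L K' (algebraMap k L c)) = 1 := by
      rw [hval, hc, one_pow]
    rw [← valued_alg W] at h1
    refine le_antisymm ((norm_le_one_iff W _).mpr h1.le) ?_
    by_contra hlt
    push Not at hlt
    rw [norm_lt_one_iff, h1] at hlt
    exact lt_irrefl _ hlt
  obtain ⟨η, hη, hη1⟩ : ∃ η : ℝ, 0 < η ∧ η * A (algebraMap K' C ω) < min 1 δ := by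
    have hm : 0 < min 1 δ := lt_min one_pos hδ
    have h0 := A.nonneg (algebraMap K' C ω)
    refine ⟨min 1 δ / (A (algebraMap K' C ω) + 1), by positivity, ?_⟩
    rw [div_mul_eq_mul_div, div_lt_iff₀ (by positivity)]
    nlinarith
  obtain ⟨γ₁, hγ₁, hγ1⟩ := exists_gamma W hη
  obtain ⟨c₀, hc₀, hc1⟩ := exists_small v (γ := min γ₁ 1) (by
    rcases min_choice γ₁ 1 with h | h <;> rw [h]
    · exact hγ₁
    · exact one_ne_zero)
  rw [lt_min_iff] at hc1
  have hc0v : v.valuation k c₀ ≠ 0 := (Valuation.ne_zero_iff _).mpr hc₀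
  have hAc : A (algebraMap L C (algebraMap k L c₀)) < η := by
    rw [hAk]
    refine hγ1 _ ?_
    rw [hval]
    exact (pow_le_of_le_one zero_le hc1.2.le (mul_ne_zero he₂ he₁)).trans_lt hc1.1
  refine ⟨v.valuation k c₀ ^ 2, pow_ne_zero 2 hc0v, ?_⟩
  intro F _ _ _ ψ h2 hψ r hr h hh hcay
  -- the absolute value on `F`
  let a : AbsoluteValue F ℝ :=
    { toFun := fun x => A (ψ x)
      map_mul' := fun x y => by rw [map_mul, map_mul]
      nonneg' := fun x => A.nonneg _
      eq_zero' := fun x => by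
        rw [A.eq_zero, map_eq_zero]
      add_le' := fun x y => by rw [map_add]; exact A.add_le _ _ }
  have hu : ∀ x y, a (x + y) ≤ max (a x) (a y) := fun x y => by
    change A (ψ (x + y)) ≤ max (A (ψ x)) (A (ψ y))
    rw [map_add]
    exact hA _ _
  have hc0F : algebraMap k F c₀ ≠ 0 := (map_ne_zero _).mpr hc₀
  obtain ⟨s, hs, y, hy⟩ := exists_clear v (r / algebraMap k F c₀) fun w hw => by
    obtain ⟨e, he, he2, hve⟩ := val_above_le hw
    rw [map_div₀, hve]
    have h3 := hr w hw
    have h4 : v.valuation k c₀ ^ 2 ≤ v.valuation k c₀ ^ e :=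
      pow_le_pow_right_of_le_one' hc1.2.le (by omega)
    rw [div_le_one₀ (pow_pos (zero_lt_iff.mpr hc0v) e)]
    exact (h3.trans_le h4).le
  have hs1 : v.valuation k (s : k) = 1 := by
    have h4 := v.valuation_le_one (K := k) s
    have h5 : ¬ v.valuation k (s : k) < 1 := fun h =>
      hs ((HeightOneSpectrum.valuation_lt_one_iff_mem (K := k) v s).mp h)
    exact le_antisymm h4 (not_lt.mp h5)
  have hay : a (y : F) ≤ 1 := av_int a hu (RingOfIntegers.isIntegral_coe y)
  have hak : ∀ c : k, a (algebraMap k F c) = A (algebraMap L C (algebraMap k L c)) := fun c => by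
    change A (ψ _) = _
    rw [hψ]
  have har : A (ψ r) < η := by
    change a r < η
    have h3 : a (y : F) = a (r / algebraMap k F c₀) := by
      rw [hy, a.map_mul, hak, hone _ hs1, one_mul]
    have h4 : r = r / algebraMap k F c₀ * algebraMap k F c₀ := by field_simp
    have h5 : a r = a (r / algebraMap k F c₀) * a (algebraMap k F c₀) := by
      conv_lhs => rw [h4]
      exact a.map_mul _ _
    rw [h5, ← h3, hak]
    have h6 := A.nonneg (algebraMap L C (algebraMap k L c₀))
    nlinarith
  obtain ⟨q, hq⟩ : ∃ q, q = ψ r * algebraMap K' C ω := ⟨_, rfl⟩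
  rw [← hq] at hcay
  have hAq : A q < min 1 δ := by
    rw [hq, A.map_mul]
    refine lt_of_le_of_lt ?_ hη1
    exact mul_le_mul_of_nonneg_right har.le (A.nonneg _)
  rw [lt_min_iff] at hAq
  have h1q : A (1 - q) = 1 := by
    rw [← A.map_one]
    refine hAeq _ _ ?_
    rw [sub_sub_cancel_left, A.map_neg, A.map_one]
    exact hAq.1
  have hA2 : A 2 ≤ 1 := by
    have h3 := hA 1 1
    rw [A.map_one, max_self] at h3
    have h4 : (2 : C) = 1 + 1 := by norm_num
    rw [h4]
    exact h3
  have h3 : (h - 1) * (1 - q) = 2 * q := by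
    rw [sub_mul, hcay, one_mul, two_mul]
    abel
  have h4 : A (h - 1) = A 2 * A q := by
    have := congrArg A h3
    rwa [A.map_mul, A.map_mul, h1q, mul_one] at this
  refine hδ1 h hh ?_
  rw [h4]
  have := A.nonneg q
  nlinarith [hAq.2]

end Vale.Agent.P011.Pow
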