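import Vale.Agent.P011.One.AbY

/-!
The choice of the numbers `y` and `a'`.
-/

open NumberField IsDedekindDomain

namespace Vale.Agent.P011.Pow

open Vale.Agent.P011.Arith Vale.Agent.P011.Even Vale.Agent.P011.One

section places

variable {k : Type} [Field k] [NumberField k]

/-- There are infinitely many finite places. -/
theorem exists_out {S : Set (HeightOneSpectrum (𝓞 k))} (hS : S.Finite) :
    ∃ v : HeightOneSpectrum (𝓞 k), v ∉ S := by
  by_contra hcon
  push Not at hcon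
  have hle : ∀ (v : HeightOneSpectrum (𝓞 k)) (m : ℤ), v.valuation k (m : k) ≤ 1 := by
    intro v m
    have h1 : v.valuation k (algebraMap (𝓞 k) k (m : 𝓞 k)) ≤ 1 := v.valuation_le_one _
    rwa [map_intCast] at h1
  have hfin : (⋃ v ∈ S, {p : ℕ | p.Prime ∧ v.valuation k (p : k) < 1}).Finite := by
    refine hS.biUnion fun v _ => Set.Subsingleton.finite ?_
    rintro p ⟨hp, hpv⟩ q ⟨hq, hqv⟩
    by_contra hne
    have hc : IsCoprime (p : ℤ) (q : ℤ) := ((Nat.coprime_primes hp hq).mpr hne).isCoprime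
    obtain ⟨x, y, hxy⟩ := hc
    have h1 : ((x : k) * p + y * q) = 1 := by exact_mod_cast congrArg (Int.cast : ℤ → k) hxy
    have h2 : v.valuation k ((x : k) * p + y * q) < 1 := by
      refine Valuation.map_add_lt _ ?_ ?_
      · rw [map_mul]
        exact (mul_le_mul' (hle v x) le_rfl).trans_lt (by rwa [one_mul])
      · rw [map_mul]
        exact (mul_le_mul' (hle v y) le_rfl).trans_lt (by rwa [one_mul])
    rw [h1, map_one] at h2
    exact lt_irrefl _ h2
  obtain ⟨p, hp, hpn⟩ := Nat.infinite_setOfPred_prime.exists_notMem_finite hfin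
  have hval : ∀ v : HeightOneSpectrum (𝓞 k), v.valuation k ((p : k)⁻¹) ≤ 1 := by
    intro v
    have h1 : ¬ v.valuation k (p : k) < 1 := fun h =>
      hpn (Set.mem_biUnion (hcon v) ⟨hp, h⟩)
    rw [map_inv₀]
    exact inv_le_one_of_one_le₀ (not_lt.mp h1)
  obtain ⟨x, hx⟩ := HeightOneSpectrum.mem_integers_of_valuation_le_one k _ hval
  have h1 : IsIntegral ℤ ((p : k)⁻¹) := by
    rw [← hx]
    exact RingOfIntegers.isIntegral_coe x
  have h2 : IsIntegral ℤ ((p : ℚ)⁻¹) := by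
    refine (isIntegral_algebraMap_iff (algebraMap ℚ k).injective).mp ?_
    rwa [map_inv₀, map_natCast]
  obtain ⟨m, hm⟩ := IsIntegrallyClosed.isIntegral_iff.mp h2
  have hp0 : (p : ℚ) ≠ 0 := Nat.cast_ne_zero.mpr hp.ne_zero
  have h3 : (m : ℚ) * p = 1 := by
    have : (m : ℚ) = (p : ℚ)⁻¹ := hm
    rw [this, inv_mul_cancel₀ hp0]
  have h4 : m * (p : ℤ) = 1 := by exact_mod_cast h3
  have h5 : (p : ℤ) ∣ 1 := ⟨m, by rw [mul_comm, h4]⟩
  have h6 := Int.natCast_dvd_natCast.mp (by simpa using h5 : (p : ℤ) ∣ ((1 : ℕ) : ℤ))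
  exact hp.one_lt.ne' (Nat.dvd_one.mp h6)

/-- The choice near a given element. -/
theorem loc_target (v : HeightOneSpectrum (𝓞 k)) (c z : kˣ) (hz : (z : k) ≠ 1) :
    ∃ (l : kˣ) (γ : Z0), γ ≠ 0 ∧ ∀ κ y : k, v.valuation k κ < v.valuation k (l : k) →
      v.valuation k (y - (1 - z) / 2) < γ →
      v.valuation k y = v.valuation k ((1 - (z : k)) / 2) ∧
      v.valuation k (c * y ^ 2 * κ ^ 2) < v.valuation k (2 * y) ∧
      v.valuation k (1 - 2 * y + c * y ^ 2 * κ ^ 2 - z) < v.valuation k 4 * v.valuation k (z : k) := by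
  have h2 : (2 : k) ≠ 0 := two_ne_zero
  have hg0 : (1 - (z : k)) / 2 ≠ 0 := div_ne_zero (sub_ne_zero.mpr hz.symm) h2
  obtain ⟨g, hg⟩ : ∃ g : kˣ, (g : k) = (1 - z) / 2 := ⟨Units.mk0 _ hg0, rfl⟩
  obtain ⟨two, htwo⟩ : ∃ two : kˣ, (two : k) = 2 := ⟨Units.mk0 2 h2, rfl⟩
  obtain ⟨l₁, hl₁⟩ := exists_small_ab v (c * g ^ 2) (two * two * z)
  obtain ⟨l₂, hl₂⟩ := exists_small_ab v (c * g ^ 2) (two * g)
  obtain ⟨l, hl, hl'⟩ : ∃ l : kˣ, v.valuation k (l : k) ≤ v.valuation k (l₁ : k) ∧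
      v.valuation k (l : k) ≤ v.valuation k (l₂ : k) := by
    rcases le_total (v.valuation k (l₁ : k)) (v.valuation k (l₂ : k)) with h | h
    · exact ⟨l₁, le_rfl, h⟩
    · exact ⟨l₂, h, le_rfl⟩
  refine ⟨l, min (v.valuation k (g : k)) (v.valuation k (2 * (z : k))), ?_,
    fun κ y hκ hy => ?_⟩
  · rcases min_choice (v.valuation k (g : k)) (v.valuation k (2 * (z : k))) with h | h <;> rw [h]
    · exact (Valuation.ne_zero_iff _).mpr g.ne_zero
    · exact (Valuation.ne_zero_iff _).mpr (mul_ne_zero h2 z.ne_zero)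
  rw [← hg] at hy ⊢
  rw [lt_min_iff] at hy
  have hyv : v.valuation k y = v.valuation k (g : k) := by
    have h4 := Valuation.map_add_eq_of_lt_left (v.valuation k) hy.1
    rwa [add_sub_cancel] at h4
  have hc : v.valuation k (c * y ^ 2 * κ ^ 2) =
      v.valuation k (((c * g ^ 2 : kˣ) : k) * κ ^ 2) := by
    rw [Units.val_mul, Units.val_pow_eq_pow_val]
    simp only [map_mul, map_pow, hyv]
  refine ⟨hyv, ?_, ?_⟩
  · have h3 := hl₂ κ (hκ.trans_le hl')
    rw [← hc, Units.val_mul, htwo, map_mul _ 2, ← hyv, ← map_mul] at h3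
    exact h3
  · have e : 1 - 2 * y + c * y ^ 2 * κ ^ 2 - z = -(2 * (y - g)) + c * y ^ 2 * κ ^ 2 := by
      rw [hg]
      field_simp
      ring
    rw [e]
    refine Valuation.map_add_lt _ ?_ ?_
    · have h20 : (0 : Z0) < v.valuation k 2 := zero_lt_iff.mpr ((Valuation.ne_zero_iff _).mpr h2)
      have h4 := (mul_lt_mul_iff_right₀ h20).mpr hy.2
      rw [map_mul (v.valuation k) 2 (z : k)] at h4
      rw [Valuation.map_neg, map_mul, val_four_eq, sq, mul_assoc]
      exact h4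
    · have h3 := hl₁ κ (hκ.trans_le hl)
      rw [← hc] at h3
      refine h3.trans_le (le_of_eq ?_)
      rw [Units.val_mul, Units.val_mul, htwo, map_mul, map_mul, val_four_eq, sq]

/-- The choice near zero. -/
theorem loc_zero (v : HeightOneSpectrum (𝓞 k)) (c : kˣ) (κ : k) :
    ∃ γ : Z0, γ ≠ 0 ∧ ∀ y : k, v.valuation k y < γ →
      v.valuation k (1 - 2 * y + c * y ^ 2 * κ ^ 2 - 1) < v.valuation k 4 := by
  have h2 : (2 : k) ≠ 0 := two_ne_zero
  have h4 : v.valuation k 4 ≠ 0 := val_four_ne _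
  have key : ∃ l : kˣ, ∀ y : k, v.valuation k y < v.valuation k (l : k) →
      v.valuation k (c * y ^ 2 * κ ^ 2) < v.valuation k 4 := by
    by_cases hκ : κ = 0
    · refine ⟨1, fun y _ => ?_⟩
      rw [hκ, zero_pow two_ne_zero, mul_zero, map_zero]
      exact zero_lt_iff.mpr h4
    · obtain ⟨l, hl⟩ := exists_small_ab v (c * Units.mk0 κ hκ ^ 2) (Units.mk0 4 (by norm_num))
      refine ⟨l, fun y hy => ?_⟩
      have h5 := hl y hy
      rw [Units.val_mul, Units.val_pow_eq_pow_val, Units.val_mk0, Units.val_mk0] at h5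
      rwa [mul_right_comm] at h5
  obtain ⟨l, hl⟩ := key
  refine ⟨min (v.valuation k 2) (v.valuation k (l : k)), ?_, fun y hy => ?_⟩
  · rcases min_choice (v.valuation k 2) (v.valuation k (l : k)) with h | h <;> rw [h]
    · exact (Valuation.ne_zero_iff _).mpr h2
    · exact (Valuation.ne_zero_iff _).mpr l.ne_zero
  rw [lt_min_iff] at hy
  have e : 1 - 2 * y + c * y ^ 2 * κ ^ 2 - 1 = -(2 * y) + c * y ^ 2 * κ ^ 2 := by ring
  rw [e]
  refine Valuation.map_add_lt _ ?_ (hl y hy.2)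
  rw [Valuation.map_neg, map_mul, val_four_eq, sq]
  exact (mul_lt_mul_iff_right₀ (zero_lt_iff.mpr ((Valuation.ne_zero_iff _).mpr h2))).mpr hy.1

/-- An element of a class modulo squares which is integral and different from one. -/
theorem exists_rep (v : HeightOneSpectrum (𝓞 k)) (a d : kˣ) : ∃ z : kˣ,
    z * d ∉ LS (v.valuation k) ∧ a * (z * d) ∉ LS (v.valuation k) ∧ v.valuation k (z : k) ≤ 1 ∧
      (z : k) ≠ 1 := by
  have h2 : (2 : k) ≠ 0 := two_ne_zero
  obtain ⟨u, hu1, hu2⟩ := exists_class v a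
  obtain ⟨r, hr1, hr2⟩ : ∃ r : kˣ, v.valuation k (r : k) ≤ 1 ∧
      v.valuation k (r : k) ≤ v.valuation k ((u / d : kˣ) : k)⁻¹ := by
    rcases le_total (v.valuation k ((u / d : kˣ) : k)⁻¹) 1 with h | h
    · refine ⟨(u / d)⁻¹, ?_, le_of_eq ?_⟩
      · rwa [Units.val_inv_eq_inv_val]
      · rw [Units.val_inv_eq_inv_val]
    · exact ⟨1, by rw [Units.val_one, map_one], by rw [Units.val_one, map_one]; exact h⟩
  have hint : v.valuation k ((u / d * r ^ 2 : kˣ) : k) ≤ 1 := by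
    have h0 : v.valuation k ((u / d : kˣ) : k) ≠ 0 :=
      (Valuation.ne_zero_iff _).mpr (Units.ne_zero _)
    rw [Units.val_mul, Units.val_pow_eq_pow_val, map_mul, map_pow, sq, ← mul_assoc]
    refine mul_le_one' ?_ hr1
    calc _ ≤ v.valuation k ((u / d : kˣ) : k) * v.valuation k ((u / d : kˣ) : k)⁻¹ :=
          mul_le_mul' le_rfl hr2
      _ = 1 := by rw [map_inv₀, mul_inv_cancel₀ h0]
  have hcl : ∀ s : kˣ, u / d * s ^ 2 * d ∉ LS (v.valuation k) ∧
      a * (u / d * s ^ 2 * d) ∉ LS (v.valuation k) := by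
    intro s
    have h8 : u / d * s ^ 2 * d / s ^ 2 = u := by
      rw [mul_right_comm, mul_div_cancel_right, div_mul_cancel]
    refine ⟨fun h => hu1 ?_, fun h => hu2 ?_⟩
    · have h7 := (LS (v.valuation k)).div_mem h (sq_mem_LS s)
      rwa [h8] at h7
    · have h7 := (LS (v.valuation k)).div_mem h (sq_mem_LS s)
      rwa [mul_div_assoc, h8] at h7
  by_cases h5 : ((u / d * r ^ 2 : kˣ) : k) = 1
  · obtain ⟨two, htwo⟩ : ∃ two : kˣ, (two : k) = 2 := ⟨Units.mk0 2 h2, rfl⟩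
    have h6 : u / d * r ^ 2 = 1 := Units.ext h5
    have h7 : u / d * (r * two) ^ 2 = two ^ 2 := by
      rw [mul_pow, ← mul_assoc, h6, one_mul]
    refine ⟨u / d * (r * two) ^ 2, (hcl _).1, (hcl _).2, ?_, ?_⟩
    · rw [h7, Units.val_pow_eq_pow_val, htwo, map_pow]
      exact pow_le_one' (val_two_le _) 2
    · rw [h7, Units.val_pow_eq_pow_val, htwo]
      norm_num
  · exact ⟨u / d * r ^ 2, (hcl _).1, (hcl _).2, hint, h5⟩

/-- The estimate in the quadratic field. -/
theorem torus_est {F : Type} [Field F] [NumberField F] [Algebra k F] {a' : kˣ} {y κ c : k} {σ : F}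
    (hσ : σ * σ = algebraMap k F a') (ha' : (a' : k) = 1 - 2 * y + c) (hy0 : y ≠ 0)
    {v : HeightOneSpectrum (𝓞 k)} {w : HeightOneSpectrum (𝓞 F)} (hw : Ab w v)
    (hint : v.valuation k (a' : k) ≤ 1) (hc : v.valuation k c < v.valuation k (2 * y)) :
    1 + σ ≠ 0 ∧ w.valuation F (algebraMap k F (y * κ) / (1 + σ)) * w.valuation F 2 ≤
      w.valuation F (algebraMap k F κ) := by
  have h2 : (2 : F) ≠ 0 := two_ne_zero
  have hy0' : algebraMap k F y ≠ 0 := (_root_.map_ne_zero _).mpr hy0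
  have h1 : (1 + σ) * (1 - σ) = algebraMap k F (2 * y - c) := by
    have h3 : algebraMap k F (2 * y - c) = 1 - algebraMap k F a' := by
      rw [ha']
      simp only [map_add, map_sub, map_mul, map_one, map_ofNat]
      ring
    rw [h3, ← hσ]
    ring
  have h3 : v.valuation k (2 * y - c) = v.valuation k (2 * y) :=
    Valuation.map_sub_eq_of_lt_left _ hc
  have h4 : w.valuation F (1 + σ) * w.valuation F (1 - σ) = w.valuation F (2 * algebraMap k F y) := by
    have h5 : (2 : F) * algebraMap k F y = algebraMap k F (2 * y) := by rw [map_mul, map_ofNat]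
    rw [← map_mul, h1, h5]
    exact le_antisymm ((val_le_val_iff hw _ _).mpr h3.le) ((val_le_val_iff hw _ _).mpr h3.ge)
  have h6 : w.valuation F σ ≤ 1 := by
    have h7 : w.valuation F σ * w.valuation F σ ≤ 1 := by
      rw [← map_mul, hσ]
      exact (val_le_one_iff hw _).mpr hint
    by_contra hcon
    rw [not_le] at hcon
    have h8 : (1 : Z0) < w.valuation F σ * w.valuation F σ :=
      lt_of_lt_of_le hcon (le_mul_of_one_le_left' hcon.le)
    exact absurd h7 (not_le.mpr h8)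
  have h7 : w.valuation F (1 - σ) ≤ 1 := by
    have := (w.valuation F).map_sub 1 σ
    rw [map_one] at this
    exact this.trans (max_le le_rfl h6)
  have h8 : w.valuation F (2 * algebraMap k F y) ≤ w.valuation F (1 + σ) := by
    rw [← h4]
    exact (mul_le_mul' le_rfl h7).trans (mul_one _).le
  have h9 : (0 : Z0) < w.valuation F (2 * algebraMap k F y) :=
    zero_lt_iff.mpr ((Valuation.ne_zero_iff _).mpr (mul_ne_zero h2 hy0'))
  have h10 : (0 : Z0) < w.valuation F (1 + σ) := lt_of_lt_of_le h9 h8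
  refine ⟨fun h => ?_, ?_⟩
  · rw [h, map_zero] at h10
    exact lt_irrefl _ h10
  · rw [map_div₀, div_mul_eq_mul_div, div_le_iff₀ h10, map_mul, map_mul]
    calc w.valuation F (algebraMap k F y) * w.valuation F (algebraMap k F κ) *
          w.valuation F 2 = w.valuation F (algebraMap k F κ) *
            w.valuation F (2 * algebraMap k F y) := by
          rw [map_mul _ 2, mul_comm (w.valuation F (algebraMap k F y)), mul_assoc,
            mul_comm (w.valuation F (algebraMap k F y))]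
      _ ≤ _ := mul_le_mul' le_rfl h8

theorem mem_of_near {v : HeightOneSpectrum (𝓞 k)} {x z : kˣ}
    (h : v.valuation k ((x : k) - z) < v.valuation k 4 * v.valuation k (z : k)) :
    x / z ∈ LS (v.valuation k) := by
  apply LS_of_close
  have hz0 : (z : k) ≠ 0 := z.ne_zero
  rwa [Units.val_div_eq_div_val, div_sub_one hz0, map_div₀,
    div_lt_iff₀ (zero_lt_iff.mpr ((Valuation.ne_zero_iff _).mpr hz0))]

/-- **The numbers.** -/
theorem exists_numbers (a d : kˣ) (ha : ¬ IsSquare (a : k))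
    {R N : Set (HeightOneSpectrum (𝓞 k))} (hR : R.Finite) (hN : N.Finite) (hRN : Disjoint R N) :
    ∃ (S : Set (HeightOneSpectrum (𝓞 k))) (l : HeightOneSpectrum (𝓞 k) → kˣ), S.Finite ∧ R ⊆ S ∧
      ∀ κ : k, (∀ v ∈ S, v.valuation k κ < v.valuation k (l v : k)) → ∃ (y : k) (a' : kˣ), y ≠ 0 ∧
        (a' : k) = 1 - 2 * y + a * d * y ^ 2 * κ ^ 2 ∧
        (∀ v ∈ R, a' ∉ LS (v.valuation k) ∧ a * a' ∉ LS (v.valuation k)) ∧
        (∀ v ∈ N, a' ∈ LS (v.valuation k)) ∧
        (∀ φ : k →+* ℝ, 0 < φ a' ∧ φ y < 1) ∧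
        (∀ (L : Type) [Field L] [NumberField L] [Algebra k L] (T : L), Module.finrank k L = 2 →
          T * T = algebraMap k L a → ¬ IsSquare (algebraMap k L (a' : k)) ∧
            ¬ IsSquare (algebraMap k L ((a' * d : kˣ) : k))) ∧
        ∀ v ∈ R, ∀ (F : Type) [Field F] [NumberField F] [Algebra k F] (σ : F),
          σ * σ = algebraMap k F a' → ∀ w : HeightOneSpectrum (𝓞 F), Ab w v → 1 + σ ≠ 0 ∧
            w.valuation F (algebraMap k F (y * κ) / (1 + σ)) * w.valuation F 2 ≤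
              w.valuation F (algebraMap k F κ) := by
  classical
  obtain ⟨v₁, hv₁⟩ := exists_out (hR.union hN)
  obtain ⟨v₂, hv₂⟩ := exists_out ((hR.union hN).union (Set.finite_singleton v₁))
  simp only [Set.mem_union, not_or, Set.mem_singleton_iff] at hv₁ hv₂
  obtain ⟨⟨hv₂R, hv₂N⟩, hv₂₁⟩ := hv₂
  obtain ⟨hv₁R, hv₁N⟩ := hv₁
  -- the classes
  choose z hz1 hz2 hz3 hz4 using fun v : HeightOneSpectrum (𝓞 k) =>
    exists_rep v a (if v = v₂ then d else 1)
  choose l γ hγ hlγ using fun v : HeightOneSpectrum (𝓞 k) => loc_target v (a * d) (z v) (hz4 v)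
  obtain ⟨S, hSd⟩ : ∃ S : Set (HeightOneSpectrum (𝓞 k)), S = R ∪ {v₁, v₂} := ⟨_, rfl⟩
  have hSf : S.Finite := by
    rw [hSd]
    exact hR.union ((Set.finite_singleton v₂).insert v₁)
  have hSN : ∀ v ∈ S, v ∉ N := by
    intro v hv hvN
    rw [hSd] at hv
    rcases hv with hv | hv | hv
    · exact Set.disjoint_left.mp hRN hv hvN
    · exact hv₁N (hv ▸ hvN)
    · exact hv₂N ((Set.mem_singleton_iff.mp hv) ▸ hvN)
  have hS₁ : v₁ ∈ S := by rw [hSd]; exact Or.inr (Or.inl rfl)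
  have hS₂ : v₂ ∈ S := by rw [hSd]; exact Or.inr (Or.inr rfl)
  refine ⟨S, l, hSf, by rw [hSd]; exact Set.subset_union_left, fun κ hκ => ?_⟩
  choose δ hδ hδ' using fun v : HeightOneSpectrum (𝓞 k) => loc_zero v (a * d) κ
  -- the real places
  have hreal : ∀ φ : k →+* ℝ, ∃ ε : ℝ, 0 < ε ∧ ε ≤ 1 ∧ ∀ y : ℝ, |y| < ε →
      0 < 1 - 2 * y + φ (a * d * κ ^ 2) * y ^ 2 := by
    intro φ
    obtain ⟨ε, hε, h3⟩ := real_near_zero (c := φ (a * d * κ ^ 2))
    exact ⟨min ε 1, lt_min hε one_pos, min_le_right _ _,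
      fun y hy => h3 y (hy.trans_le (min_le_left _ _))⟩
  choose ε hε hε1 hy using hreal
  obtain ⟨ε₀, hε₀, hmin⟩ : ∃ ε₀ : ℝ, 0 < ε₀ ∧ ∀ φ, ε₀ ≤ ε φ := by
    rcases isEmpty_or_nonempty (k →+* ℝ) with h | h
    · exact ⟨1, one_pos, fun φ => (h.false φ).elim⟩
    · obtain ⟨φ₀, h⟩ := Finite.exists_min ε
      exact ⟨ε φ₀, hε φ₀, h⟩
  obtain ⟨y, hy1, hy2⟩ := exists_app (hSf.union hN)
    (fun v => if v ∈ S then (1 - (z v : k)) / 2 else 0)
    (fun v => if v ∈ S then γ v else δ v) (fun v _ => by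
      by_cases h : v ∈ S
      · rw [if_pos h]
        exact hγ v
      · rw [if_neg h]
        exact hδ v) (fun _ => 0) hε₀
  have hyS : ∀ v ∈ S, v.valuation k (y - (1 - (z v : k)) / 2) < γ v := by
    intro v hv
    have := hy1 v (Or.inl hv)
    rwa [if_pos hv, if_pos hv] at this
  have hyN : ∀ v ∈ N, v.valuation k y < δ v := by
    intro v hv
    have h3 : v ∉ S := fun h => hSN v h hv
    have := hy1 v (Or.inr hv)
    rwa [if_neg h3, if_neg h3, sub_zero] at this
  have key : ∀ v ∈ S, v.valuation k y = v.valuation k ((1 - (z v : k)) / 2) ∧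
      v.valuation k (((a * d : kˣ) : k) * y ^ 2 * κ ^ 2) < v.valuation k (2 * y) ∧
      v.valuation k (1 - 2 * y + ((a * d : kˣ) : k) * y ^ 2 * κ ^ 2 - z v) <
        v.valuation k 4 * v.valuation k (z v : k) := fun v hv => hlγ v κ y (hκ v hv) (hyS v hv)
  have hzv : ∀ v ∈ S, v.valuation k (1 - 2 * y + ((a * d : kˣ) : k) * y ^ 2 * κ ^ 2) =
      v.valuation k (z v : k) := by
    intro v hv
    have h3 : v.valuation k (1 - 2 * y + ((a * d : kˣ) : k) * y ^ 2 * κ ^ 2 - z v) <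
        v.valuation k (z v : k) :=
      (key v hv).2.2.trans_le ((mul_le_mul' (val_four_le _) le_rfl).trans (one_mul _).le)
    have h4 := Valuation.map_add_eq_of_lt_left (v.valuation k) h3
    rwa [add_sub_cancel] at h4
  have ha0 : 1 - 2 * y + ((a * d : kˣ) : k) * y ^ 2 * κ ^ 2 ≠ 0 := by
    intro h0
    have h3 := hzv v₁ hS₁
    rw [h0, map_zero] at h3
    exact (Valuation.ne_zero_iff _).mpr (z v₁).ne_zero h3.symm
  obtain ⟨a', ha'⟩ : ∃ a' : kˣ, (a' : k) = 1 - 2 * y + ((a * d : kˣ) : k) * y ^ 2 * κ ^ 2 :=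
    ⟨Units.mk0 _ ha0, rfl⟩
  have hy0 : y ≠ 0 := by
    rintro rfl
    have h3 := (key v₁ hS₁).2.1
    rw [mul_zero, map_zero] at h3
    exact not_lt_zero h3
  rw [← ha'] at ha0
  simp only [← ha'] at key hzv
  have hLS : ∀ v ∈ S, a' / z v ∈ LS (v.valuation k) := fun v hv => mem_of_near (key v hv).2.2
  have hcl : ∀ v ∈ S, ∀ c : kˣ, c * z v ∉ LS (v.valuation k) → c * a' ∉ LS (v.valuation k) := by
    intro v hv c hc h
    apply hc
    have h3 := (LS (v.valuation k)).div_mem h (hLS v hv)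
    have h4 : c * a' / (a' / z v) = c * z v := by
      rw [mul_div_assoc, div_div_cancel]
    rwa [h4] at h3
  have hne₂ : ∀ v ∈ S, v ≠ v₂ → a' ∉ LS (v.valuation k) ∧ a * a' ∉ LS (v.valuation k) := by
    intro v hv hne
    have h3 := hz1 v
    have h4 := hz2 v
    rw [if_neg hne, mul_one] at h3 h4
    have h5 := hcl v hv 1 (by rwa [one_mul])
    rw [one_mul] at h5
    exact ⟨h5, hcl v hv a h4⟩
  refine ⟨y, a', hy0, by rw [ha', Units.val_mul], fun v hv => ?_, fun v hv => ?_, fun φ => ?_,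
    fun L _ _ _ T hL hT => ?_, fun v hv F _ _ _ σ hσ w hw => ?_⟩
  · refine hne₂ v (by rw [hSd]; exact Or.inl hv) ?_
    rintro rfl
    exact hv₂R hv
  · apply LS_of_close
    rw [ha']
    exact hδ' v y (hyN v hv)
  · have h3 : |φ y| < ε φ := by
      have h4 := (hy2 φ).trans_le (hmin φ)
      rwa [map_zero, sub_zero] at h4
    refine ⟨?_, ?_⟩
    · have h4 := hy φ (φ y) h3
      have h5 : φ a' = 1 - 2 * φ y + φ (a * d * κ ^ 2) * φ y ^ 2 := by
        rw [ha', Units.val_mul]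
        simp only [map_add, map_sub, map_mul, map_pow, map_one, map_ofNat]
        ring
      rw [h5]
      exact h4
    · exact (lt_of_abs_lt h3).trans_le (hε1 φ)
  · have hT2 : T ^ 2 = algebraMap k L a := by rw [sq, hT]
    have hns : ∀ (v : HeightOneSpectrum (𝓞 k)) (u : kˣ), u ∉ LS (v.valuation k) →
        a * u ∉ LS (v.valuation k) → ¬ IsSquare (algebraMap k L (u : k)) := by
      intro v u h3 h4 h5
      obtain ⟨w, hw⟩ := exists_above (F := k) (E := L) v
      refine ls_desc hL ha hT2 hw h3 h4 ?_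
      exact Sq_le_LS _ (mem_Sq_iff.mpr h5)
    refine ⟨?_, ?_⟩
    · obtain ⟨h3, h4⟩ := hne₂ v₁ hS₁ (Ne.symm hv₂₁)
      exact hns v₁ a' h3 h4
    · have h3 := hz1 v₂
      have h4 := hz2 v₂
      rw [if_pos rfl] at h3 h4
      have h5 := hcl v₂ hS₂ d (by rwa [mul_comm])
      have h6 := hcl v₂ hS₂ (a * d) (by rwa [mul_assoc, mul_comm d])
      refine hns v₂ (a' * d) (by rwa [mul_comm]) ?_
      rwa [mul_comm a' d, ← mul_assoc]
  · have hvS : v ∈ S := by rw [hSd]; exact Or.inl hv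
    refine torus_est hσ ha' hy0 hw ?_ (key v hvS).2.1
    rw [hzv v hvS]
    exact hz3 v

end places

end Vale.Agent.P011.Pow
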