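import Vale.Agent.P011.One.QEquiv
import Vale.Agent.P011.One.WAd
import Vale.Agent.P011.Pow.MP

/-!
The conjecture for the special unitary groups of rank one in degree `2 ^ e`, in its original form.
-/

open Module NumberField IsDedekindDomain TensorProduct Topology

set_option linter.unusedSectionVars false

namespace Vale.Agent.P011.One

/-- The elements of the fixed field are fixed by the involution of `D`. -/
theorem star_fixed {k K D : Type} [Field k] [Field K] [Algebra k K] [StarRing K] [DivisionRing D]
    [StarRing D] [Algebra k D] [Algebra K D] [IsScalarTower k K D] [StarModule K D]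
    (hfix : ∀ x : K, star x = x ↔ x ∈ Set.range (algebraMap k K)) (c : k) :
    star (algebraMap k D c) = algebraMap k D c := by
  rw [IsScalarTower.algebraMap_apply k K D, Algebra.algebraMap_eq_smul_one, star_smul, star_one,
    (hfix _).mpr ⟨c, rfl⟩]

end Vale.Agent.P011.One

namespace Vale.Agent.P011.Pow

open Vale.Agent.P011.Arith Vale.Agent.P011.Even Vale.Agent.P011.Two Vale.Agent.P011.One

variable {k K D : Type} [Field k] [NumberField k] [Field K] [NumberField K] [StarRing K]
  [DivisionRing D] [StarRing D] [Algebra k K] [Algebra k D] [Algebra K D] [IsScalarTower k K D]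
  {d : kˣ} {s : K} {Ω : Type} [Field Ω] [Algebra K Ω] {n : ℕ}

/-- The conjecture in degree `2 ^ e`, in its original form, from the statement of the induction. -/
theorem MP.q1 {e : ℕ} (he : 2 ≤ e) (hMP : MP (2 ^ e)) (hS : Setting k K D d s)
    (h : ∀ c : k, star (algebraMap k D c) = algebraMap k D c)
    (hdeg : finrank K D = (2 ^ e) ^ 2)
    (f : D →ₐ[K] Matrix (Fin (2 ^ e)) (Fin (2 ^ e)) Ω) :
    ∃ δ : SUD f →* HA D (2 ^ e) (Adiv k K D), IsDiagonal δ ∧ DenseRange δ ∧
      ∀ N : Subgroup (SUD f), N.index ≠ 0 → IsOpenPreimage δ N := by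
  have hn : 3 ≤ 2 ^ e := by
    calc 3 ≤ 2 ^ 2 := by norm_num
      _ ≤ 2 ^ e := Nat.pow_le_pow_right (by norm_num) he
  have := hS.fin
  have := hS.cen
  have hKf : FiniteDimensional k K := Module.finite_of_finrank_pos (by rw [hS.rank]; norm_num)
  have hDf : FiniteDimensional k D := Module.Finite.trans K D
  obtain ⟨δ, h1, h2, h3⟩ := q1_std hS (finBasis k D) h hdeg f (Adiv k K D)
    (dense_GAt hS (by omega) rfl hdeg f (finBasis k D) h)
  exact ⟨δ, h1, h2, fun N hN => h3 N hN (hMP.isOpen hS hn hdeg f N hN)⟩

end Vale.Agent.P011.Pow
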