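import Vale.Agent.P011.Pow.Vn
import Vale.Agent.P011.Pow.QFinal

/-!
The special unitary groups of rank one in degree `2 ^ e`.
-/

open Module NumberField IsDedekindDomain Topology

set_option linter.unusedSectionVars false

namespace Vale.Agent.P011.Pow

open Vale.Agent.P011.Arith Vale.Agent.P011.Even Vale.Agent.P011.Two Vale.Agent.P011.One

theorem step_two {e : ℕ} (he : 2 ≤ e) (hMP : MP (2 ^ e)) : Step (2 ^ e) := by
  have h1 : (2 : ℕ) ^ e = 2 * 2 ^ (e - 1) := by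
    rw [← pow_succ']
    congr 1
    omega
  have h2 : 2 ≤ 2 ^ (e - 1) := by
    calc 2 = 2 ^ 1 := (pow_one 2).symm
      _ ≤ 2 ^ (e - 1) := Nat.pow_le_pow_right (by norm_num) (by omega)
  rw [h1] at hMP ⊢
  intro k K D _ _ _ _ _ _ _ _ _ _ _ d s hS hdeg
  have h3 : 2 ^ (e + 1) = 2 * (2 * 2 ^ (e - 1)) := by rw [pow_succ', h1]
  obtain ⟨a, t, ht, ha, had, hR, -, hneg⟩ := exists_base hS (e := e + 1) (by omega)
    (by rw [hdeg, h3]) (R := ∅) Set.finite_empty
  refine ⟨a, t, ht, fun Ω _ _ f M B N _ hi => ?_⟩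
  exact ab_pow rfl h2 hMP hS hdeg ht ha had (fun v hv => (hR v (Or.inr (by rw [h3]; exact hv))).1)
    hneg f B N hi

/-- **All degrees `2 ^ e`.** -/
theorem mp_two {e : ℕ} (he : 2 ≤ e) : MP (2 ^ e) := mp_pow (fun _ he hMP => step_two he hMP) he

end Vale.Agent.P011.Pow
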