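import Vale.Agent.P011.Pow.CentT
import Vale.Agent.P011.Two2.FinPre

/-!
The places above which `D` is not split are split in the centre.
-/

open NumberField IsDedekindDomain Polynomial Module TensorProduct

set_option linter.unusedSectionVars false

namespace Vale.Agent.P011.Pow

open Vale.Agent.P011.Arith Vale.Agent.P011.Even Vale.Agent.P011.Two Vale.Agent.P011.One
open Vale.Agent.P011.T2 (QuadL)
open Vale.Agent.P011.Two2 (exists_model)
open Vale.Agent.P011.W (Spl)

/-- Maps from a quadratic extension. -/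
theorem exists_lift_gen {F L E : Type} [Field F] [Field L] [Algebra F L] [Field E] [Algebra F E]
    {d : F} (hd : ¬ IsSquare d) {s : L} (hs : s ^ 2 = algebraMap F L d)
    (hspan : ∀ x : L, ∃ p q : F, x = algebraMap F L p + algebraMap F L q * s) {θ : E}
    (hθ : θ ^ 2 = algebraMap F E d) : ∃ φ : L →ₐ[F] E, φ s = θ := by
  have hirr : Irreducible (X ^ 2 - C d : F[X]) := by
    rw [Polynomial.irreducible_iff_roots_eq_zero_of_degree_le_three]
    · rw [Multiset.eq_zero_iff_forall_notMem]
      intro z hz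
      have hz' := (mem_roots'.mp hz).2
      rw [IsRoot.def, eval_sub, eval_pow, eval_X, eval_C, sub_eq_zero] at hz'
      exact hd ⟨z, by rw [← hz', sq]⟩
    · rw [natDegree_X_pow_sub_C]
    · rw [natDegree_X_pow_sub_C]; norm_num
  have := Fact.mk hirr
  let i : AdjoinRoot (X ^ 2 - C d : F[X]) →ₐ[F] L := AdjoinRoot.liftAlgHom _
    (Algebra.ofId F L) s (by
      rw [eval₂_sub, eval₂_pow, eval₂_X, eval₂_C]
      change s ^ 2 - algebraMap F L d = 0
      rw [hs, sub_self])
  have hroot : i (AdjoinRoot.root _) = s := AdjoinRoot.liftAlgHom_root _ _ _ _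
  have hi : Function.Bijective i := by
    refine ⟨i.toRingHom.injective, fun x => ?_⟩
    obtain ⟨a, b, rfl⟩ := hspan x
    refine ⟨algebraMap F _ a + algebraMap F _ b * AdjoinRoot.root _, ?_⟩
    rw [map_add, map_mul, i.commutes, i.commutes]
    rw [hroot]
  let j : AdjoinRoot (X ^ 2 - C d : F[X]) →ₐ[F] E := AdjoinRoot.liftAlgHom _
    (Algebra.ofId F E) θ (by
      rw [eval₂_sub, eval₂_pow, eval₂_X, eval₂_C]
      change θ ^ 2 - algebraMap F E d = 0
      rw [hθ, sub_self])
  let ψ := AlgEquiv.ofBijective i hi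
  refine ⟨j.comp (ψ.symm : L →ₐ[F] AdjoinRoot (X ^ 2 - C d : F[X])), ?_⟩
  have h1 : ψ.symm s = AdjoinRoot.root _ := by
    rw [AlgEquiv.symm_apply_eq]
    exact hroot.symm
  change j (ψ.symm s) = θ
  rw [h1]
  exact AdjoinRoot.liftAlgHom_root _ _ _ _

variable {k K D : Type} [Field k] [NumberField k] [Field K] [NumberField K] [StarRing K]
  [DivisionRing D] [StarRing D] [Algebra k K] [Algebra k D] [Algebra K D] [IsScalarTower k K D]
  {d : kˣ} {s : K}

/-- **The algebra splits above the nonsplit places.** -/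
theorem spl_nonsplit (hS : Setting k K D d s) {n : ℕ} (hn : 0 < n)
    (hdeg : finrank K D = n ^ 2) {v : HeightOneSpectrum (𝓞 k)} (hv : d ∉ LS (v.valuation k))
    {w : HeightOneSpectrum (𝓞 K)}
    (hw : w.asIdeal.comap (algebraMap (𝓞 k) (𝓞 K)) = v.asIdeal) :
    Spl D n (algebraMap K (w.adicCompletion K)) := by
  obtain ⟨L, _, _, _, ρ, G, i, -, -, -, hik, hi, hQ⟩ := exists_model hS hn hdeg v hv
  obtain ⟨g, -, hg⟩ := completion_map_cont hw
  have hns : ¬ IsSquare (algebraMap k (v.adicCompletion k) (d : k)) := fun h =>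
    hv ((isSquare_iff v d).mp h)
  have his : i s ^ 2 = algebraMap (v.adicCompletion k) L (algebraMap k _ (d : k)) := by
    rw [← map_pow, hS.sq, hik]
  have hspan : ∀ x : L, ∃ p q : v.adicCompletion k,
      x = algebraMap _ L p + algebraMap _ L q * i s := by
    intro x
    obtain ⟨θ, hθ0, hθ, hθd⟩ := hQ.gen
    have : CharZero L :=
      charZero_of_injective_algebraMap (algebraMap (v.adicCompletion k) L).injective
    obtain ⟨p, hp⟩ := hQ.fix ((x + star x) / 2) (by
      rw [star_div₀, star_add, star_star, star_ofNat, add_comm])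
    obtain ⟨r, hr⟩ := hQ.fix ((x - star x) / (2 * θ)) (by
      rw [star_div₀, star_sub, star_star, star_mul', star_ofNat, hθ, mul_neg, div_neg,
        ← neg_div, neg_sub])
    have hx1 : x = algebraMap _ L p + algebraMap _ L r * θ := by
      rw [hp, hr]; field_simp; ring
    have h2 : i s ^ 2 = θ ^ 2 := by
      rw [his, hθd]
      rfl
    rcases sq_eq_sq_iff_eq_or_eq_neg.mp h2 with h | h
    · exact ⟨p, r, by rw [h, hx1]⟩
    · exact ⟨p, -r, by rw [h, hx1, map_neg]; ring⟩
  let _ : Algebra (v.adicCompletion k) (w.adicCompletion K) := g.toAlgebra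
  obtain ⟨h, hh⟩ := exists_lift_gen hns his hspan (E := w.adicCompletion K)
    (θ := algebraMap K _ s) (by
      rw [← map_pow, hS.sq]
      exact (hg _).symm)
  have hhi : ∀ c : K, h (i c) = algebraMap K (w.adicCompletion K) c := by
    intro c
    obtain ⟨p, q, rfl⟩ := exists_coord hS c
    rw [map_add, map_mul, map_add, map_mul, hik, hik, hh, AlgHom.commutes, AlgHom.commutes,
      map_add, map_mul]
    congr 1
    · exact hg p
    · congr 1
      exact hg q
  let f : D →+* Matrix (Fin n) (Fin n) (w.adicCompletion K) :=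
    (h : L →+* w.adicCompletion K).mapMatrix.comp
      ((ρ : v.adicCompletion k ⊗[k] D →+* Matrix (Fin n) (Fin n) L).comp
        (Algebra.TensorProduct.includeRight : D →ₐ[k] v.adicCompletion k ⊗[k] D).toRingHom)
  refine ⟨f, fun c => ?_⟩
  change (h : L →+* w.adicCompletion K).mapMatrix (ρ ((1 : v.adicCompletion k) ⊗ₜ
    algebraMap K D c)) = _
  rw [hi]
  refine Matrix.ext fun a b => ?_
  rw [RingHom.mapMatrix_apply, Matrix.map_apply, Matrix.scalar_apply, Matrix.scalar_apply,
    Matrix.diagonal_apply, Matrix.diagonal_apply]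
  split_ifs
  · exact hhi c
  · exact map_zero h

/-- **The ramified places are split in the centre.** -/
theorem ram_split (hS : Setting k K D d s) {n : ℕ} (hn : 0 < n)
    (hdeg : finrank K D = n ^ 2) {v : HeightOneSpectrum (𝓞 k)} (hv : v ∈ Ram k K D n) :
    d ∈ LS (v.valuation k) := by
  by_contra hd
  obtain ⟨w, hw, hns⟩ := hv
  exact hns (spl_nonsplit hS hn hdeg hd hw)

end Vale.Agent.P011.Pow
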