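import Vale.Agent.P011.Arith.LocalA

/-!
Roots in the norm-one torus of a quadratic extension, at finitely many places simultaneously.
-/

open NumberField IsDedekindDomain

namespace Vale.Agent.P011.Pow

open Vale.Agent.P011.Arith

section alg

variable {F : Type*} [Field F] (c : F)

/-- The Cayley transform of `l ω`, where `ω ^ 2 = c`. -/
def cay (l : F) : QuadraticAlgebra F c 0 :=
  ⟨(1 + c * l ^ 2) / (1 - c * l ^ 2), 2 * l / (1 - c * l ^ 2)⟩

theorem cay_zero : cay c 0 = 1 := by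
  ext
  · simp [cay, QuadraticAlgebra.re_one]
  · simp [cay, QuadraticAlgebra.im_one]

theorem cay_mul {l m : F} (hl : 1 - c * l ^ 2 ≠ 0) (hm : 1 - c * m ^ 2 ≠ 0)
    (h : 1 + c * l * m ≠ 0) : cay c l * cay c m = cay c ((l + m) / (1 + c * l * m)) := by
  have h2 : (1 - c * l ^ 2) * (1 - c * m ^ 2) ≠ 0 := mul_ne_zero hl hm
  have e1 : 1 - c * ((l + m) / (1 + c * l * m)) ^ 2 =
      (1 - c * l ^ 2) * (1 - c * m ^ 2) / (1 + c * l * m) ^ 2 := by
    field_simp
    ring
  have e2 : 1 + c * ((l + m) / (1 + c * l * m)) ^ 2 =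
      ((1 + c * l ^ 2) * (1 + c * m ^ 2) + 4 * c * l * m) / (1 + c * l * m) ^ 2 := by
    field_simp
    ring
  ext
  · simp only [cay, QuadraticAlgebra.re_mul]
    rw [e1, e2]
    field_simp
    ring
  · simp only [cay, QuadraticAlgebra.im_mul]
    rw [e1]
    field_simp
    ring

/-- The parameters of the powers of a Cayley transform. -/
def tq (u : F) : ℕ → F
  | 0 => 0
  | n + 1 => (tq u n + 1) / (1 + u * tq u n)

variable {c}

theorem tq_val (V : Valuation F Z0) {u : F} (hu : V u < 1) (n : ℕ) :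
    V (tq u n) ≤ 1 ∧ V (tq u n - n) ≤ V u := by
  induction n with
  | zero => simp [tq]
  | succ n ih =>
    obtain ⟨h1, h2⟩ := ih
    have h3 : V (u * tq u n) < 1 := by
      rw [map_mul]
      exact lt_of_le_of_lt (mul_le_of_le_one_right' h1) hu
    have h4 : V (1 + u * tq u n) = 1 := V.map_one_add_of_lt h3
    have h0 : 1 + u * tq u n ≠ 0 := by
      intro h
      rw [h, map_zero] at h4
      exact zero_ne_one h4
    have hnat : ∀ m : ℕ, V (m : F) ≤ 1 := by
      intro m
      induction m with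
      | zero => rw [Nat.cast_zero, map_zero]; exact zero_le
      | succ m ih => rw [Nat.cast_succ]; exact V.map_add_le ih (by rw [map_one])
    constructor
    · rw [tq, map_div₀, h4, div_one]
      exact V.map_add_le h1 (by rw [map_one])
    · have e : tq u (n + 1) - ((n + 1 : ℕ) : F) =
          ((tq u n - n) - ((n + 1 : ℕ) : F) * (u * tq u n)) / (1 + u * tq u n) := by
        obtain ⟨y, hy⟩ : ∃ y, y = 1 + u * tq u n := ⟨_, rfl⟩
        rw [tq, ← hy]
        rw [← hy] at h0
        push_cast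
        field_simp
        rw [hy]
        ring
      rw [e, map_div₀, h4, div_one]
      refine V.map_sub_le h2 ?_
      rw [map_mul, map_mul]
      calc V ((n + 1 : ℕ) : F) * (V u * V (tq u n)) ≤ 1 * (V u * 1) :=
            mul_le_mul' (hnat _) (mul_le_mul' le_rfl h1)
        _ = V u := by rw [one_mul, mul_one]

theorem one_sub_ne (V : Valuation F Z0) {x : F} (hx : V x < 1) : 1 - x ≠ 0 := by
  intro h
  have h1 : V (1 + -x) = 1 := V.map_one_add_of_lt (by rwa [Valuation.map_neg])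
  rw [← sub_eq_add_neg, h, map_zero] at h1
  exact zero_ne_one h1

theorem one_add_ne (V : Valuation F Z0) {x : F} (hx : V x < 1) : 1 + x ≠ 0 := by
  intro h
  have h1 : V (1 + x) = 1 := V.map_one_add_of_lt hx
  rw [h, map_zero] at h1
  exact zero_ne_one h1

theorem cay_pow (V : Valuation F Z0) {r : F} (hr : V (c * r ^ 2) < 1) (n : ℕ) :
    cay c r ^ n = cay c (r * tq (c * r ^ 2) n) := by
  induction n with
  | zero => rw [pow_zero, tq, mul_zero, cay_zero]
  | succ n ih =>
    have h1 := (tq_val V hr n).1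
    have h2 : V (c * (r * tq (c * r ^ 2) n) ^ 2) < 1 := by
      rw [mul_pow, ← mul_assoc, map_mul, map_pow]
      exact lt_of_le_of_lt (mul_le_of_le_one_right' (pow_le_one' h1 2)) hr
    have h3 : V (c * (r * tq (c * r ^ 2) n) * r) < 1 := by
      have e : c * (r * tq (c * r ^ 2) n) * r = c * r ^ 2 * tq (c * r ^ 2) n := by ring
      rw [e, map_mul]
      exact lt_of_le_of_lt (mul_le_of_le_one_right' h1) hr
    rw [pow_succ, ih, cay_mul c (one_sub_ne V h2) (one_sub_ne V hr) (one_add_ne V h3), tq]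
    congr 1
    have e : c * (r * tq (c * r ^ 2) n) * r = c * r ^ 2 * tq (c * r ^ 2) n := by ring
    rw [e]
    have h4 : 1 + c * r ^ 2 * tq (c * r ^ 2) n ≠ 0 := by
      rw [← e]
      exact one_add_ne V h3
    field_simp

end alg

section step

variable {F : Type*} [Field F] [CharZero F] {c : F}

/-- One step of the iteration. -/
theorem root_step {ι : Type*} (V : ι → Valuation F Z0) (hne : Nonempty ι) {M : ℕ} (hM : 0 < M)
    (l : F) (h : ∀ i, V i (c * l ^ 2) < V i ((M : F) ^ 3)) :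
    ∃ r l' : F, cay c r ^ M * cay c l' = cay c l ∧ ∀ i, V i r * V i (M : F) = V i l ∧
      V i l' * V i ((M : F) ^ 3) ≤ V i l * V i (c * l ^ 2) := by
  have hM0 : (M : F) ≠ 0 := Nat.cast_ne_zero.mpr hM.ne'
  obtain ⟨i₀⟩ := hne
  have hnat : ∀ i, ∀ m : ℕ, V i (m : F) ≤ 1 := by
    intro i m
    induction m with
    | zero => rw [Nat.cast_zero, map_zero]; exact zero_le
    | succ m ih => rw [Nat.cast_succ]; exact (V i).map_add_le ih (by rw [map_one])
  have hVM : ∀ i, V i (M : F) ≠ 0 := fun i => (Valuation.ne_zero_iff _).mpr hM0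
  obtain ⟨r, hr⟩ : ∃ r, r = l / M := ⟨_, rfl⟩
  obtain ⟨u, hu⟩ : ∃ u, u = c * r ^ 2 := ⟨_, rfl⟩
  have e1 : c * l ^ 2 = u * (M : F) ^ 2 := by
    rw [hu, hr]
    field_simp
  have hu1 : ∀ i, V i u < V i (M : F) := by
    intro i
    have h1 := h i
    rw [e1, map_mul, map_pow, map_pow, pow_succ' (V i (M : F)) 2] at h1
    exact lt_of_mul_lt_mul_right' h1
  have hu2 : ∀ i, V i u < 1 := fun i => lt_of_lt_of_le (hu1 i) (hnat i M)
  obtain ⟨t, ht⟩ : ∃ t, t = tq u M := ⟨_, rfl⟩
  have ht1 : ∀ i, V i t ≤ 1 := fun i => ht ▸ (tq_val (V i) (hu2 i) M).1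
  have ht2 : ∀ i, V i (t - M) ≤ V i u := fun i => ht ▸ (tq_val (V i) (hu2 i) M).2
  obtain ⟨x, hx⟩ : ∃ x, x = r * t := ⟨_, rfl⟩
  have hpow : cay c r ^ M = cay c x := by
    rw [cay_pow (V i₀) (hu ▸ hu2 i₀), ← hu, ← ht, hx]
  -- `c * l * x`
  have e2 : c * l * x = u * M * t := by
    rw [hx, hu, hr]
    field_simp
  have h3 : ∀ i, V i (c * l * x) < 1 := by
    intro i
    rw [e2, map_mul, map_mul]
    calc V i u * V i (M : F) * V i t ≤ V i u * 1 * 1 :=
          mul_le_mul' (mul_le_mul' le_rfl (hnat i M)) (ht1 i)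
      _ < 1 := by rw [mul_one, mul_one]; exact hu2 i
  have h4 : ∀ i, V i (c * x ^ 2) < 1 := by
    intro i
    have e : c * x ^ 2 = u * t ^ 2 := by rw [hx, hu]; ring
    rw [e, map_mul, map_pow]
    exact lt_of_le_of_lt (mul_le_of_le_one_right' (pow_le_one' (ht1 i) 2)) (hu2 i)
  have h5 : ∀ i, V i (c * l ^ 2) < 1 := fun i => lt_of_lt_of_le (h i) (by
    rw [map_pow]
    exact pow_le_one' (hnat i M) 3)
  obtain ⟨l', hl'⟩ : ∃ l', l' = (l - x) / (1 - c * l * x) := ⟨_, rfl⟩
  have n1 : 1 - c * l * x ≠ 0 := one_sub_ne (V i₀) (h3 i₀)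
  have n2 : 1 - c * x ^ 2 ≠ 0 := one_sub_ne (V i₀) (h4 i₀)
  have n3 : 1 - c * l ^ 2 ≠ 0 := one_sub_ne (V i₀) (h5 i₀)
  have e3 : 1 + c * x * l' = (1 - c * x ^ 2) / (1 - c * l * x) := by
    rw [hl']
    obtain ⟨y, hy⟩ : ∃ y, y = 1 - c * l * x := ⟨_, rfl⟩
    rw [← hy] at n1 ⊢
    field_simp
    rw [hy]
    ring
  have e4 : 1 - c * l' ^ 2 = (1 - c * x ^ 2) * (1 - c * l ^ 2) / (1 - c * l * x) ^ 2 := by
    rw [hl']
    obtain ⟨y, hy⟩ : ∃ y, y = 1 - c * l * x := ⟨_, rfl⟩
    rw [← hy] at n1 ⊢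
    field_simp
    rw [hy]
    ring
  refine ⟨r, l', ?_, fun i => ⟨?_, ?_⟩⟩
  · rw [hpow, cay_mul c n2 (by rw [e4]; exact div_ne_zero (mul_ne_zero n2 n3) (pow_ne_zero 2 n1))
      (by rw [e3]; exact div_ne_zero n2 n1), e3]
    congr 1
    rw [hl']
    obtain ⟨y, hy⟩ : ∃ y, y = 1 - c * l * x := ⟨_, rfl⟩
    obtain ⟨z, hz⟩ : ∃ z, z = 1 - c * x ^ 2 := ⟨_, rfl⟩
    rw [← hy] at n1 ⊢
    rw [← hz] at n2 ⊢
    field_simp
    rw [hy, hz]
    ring
  · rw [hr, map_div₀, div_mul_cancel₀ _ (hVM i)]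
  · have e5 : V i (1 - c * l * x) = 1 := by
      rw [sub_eq_add_neg]
      exact (V i).map_one_add_of_lt (by rw [Valuation.map_neg]; exact h3 i)
    have e6 : (l - x) * M = l * (M - t) := by
      rw [hx, hr]
      field_simp
    have e7 : V i l' * V i ((M : F) ^ 3) = V i l * (V i (M - t) * V i (M : F) ^ 2) := by
      rw [hl', map_div₀, e5, div_one, map_pow, pow_succ' (V i (M : F)) 2, ← mul_assoc, ← map_mul,
        e6, map_mul, mul_assoc]
    rw [e7, e1, map_mul, map_pow]
    refine mul_le_mul' le_rfl (mul_le_mul' ?_ le_rfl)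
    rw [Valuation.map_sub_swap]
    exact ht2 i

theorem exists_exp_lt (x γ : Z0) (hγ : γ ≠ 0) : ∃ n : ℕ, ∀ m : ℕ, n ≤ m →
    x * WithZero.exp (-(m : ℤ)) < γ := by
  by_cases hx : x = 0
  · exact ⟨0, fun m _ => by rw [hx, zero_mul]; exact zero_lt_iff.mpr hγ⟩
  · refine ⟨(WithZero.log x - WithZero.log γ + 1).toNat, fun m hm => ?_⟩
    have h1 : WithZero.log x - WithZero.log γ + 1 ≤ m := by
      exact (Int.toNat_le.mp hm)
    rw [← WithZero.exp_log hx, ← WithZero.exp_log hγ, ← WithZero.exp_add, WithZero.exp_lt_exp]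
    omega

end step

/-- Approximate roots in the norm-one torus. -/
theorem root_torus {F : Type*} [Field F] [CharZero F] {c : F} {ι : Type*} [Finite ι]
    (V : ι → Valuation F Z0) {M : ℕ} (hM : 0 < M) (l : F)
    (h : ∀ i, V i (c * l ^ 2) < V i ((M : F) ^ 3)) (ε : ι → Z0) (hε : ∀ i, ε i ≠ 0) :
    ∃ r l' : F, cay c r ^ M * cay c l' = cay c l ∧ ∀ i, V i r * V i (M : F) ≤ V i l ∧
      V i l' ≤ V i l ∧ V i l' < ε i := by
  classical
  have hM0 : (M : F) ≠ 0 := Nat.cast_ne_zero.mpr hM.ne'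
  by_cases hne : Nonempty ι
  swap
  · refine ⟨0, l, ?_, fun i => absurd ⟨i⟩ hne⟩
    rw [cay_zero, one_pow, one_mul]
  have hnat : ∀ i, ∀ m : ℕ, V i (m : F) ≤ 1 := by
    intro i m
    induction m with
    | zero => rw [Nat.cast_zero, map_zero]; exact zero_le
    | succ m ih => rw [Nat.cast_succ]; exact (V i).map_add_le ih (by rw [map_one])
  have hVM : ∀ i, V i (M : F) ≠ 0 := fun i => (Valuation.ne_zero_iff _).mpr hM0
  have key : ∀ n : ℕ, ∃ r l' : F, cay c r ^ M * cay c l' = cay c l ∧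
      ∀ i, V i r * V i (M : F) ≤ V i l ∧ V i l' ≤ V i l * WithZero.exp (-(n : ℤ)) := by
    intro n
    induction n with
    | zero =>
      refine ⟨0, l, by rw [cay_zero, one_pow, one_mul], fun i => ⟨?_, ?_⟩⟩
      · rw [map_zero, zero_mul]
        exact zero_le
      · simp
    | succ n ih =>
      obtain ⟨r, l₁, h1, h2⟩ := ih
      have hl₁ : ∀ i, V i l₁ ≤ V i l := fun i => (h2 i).2.trans (mul_le_of_le_one_right' (by
        rw [← WithZero.exp_zero, WithZero.exp_le_exp]
        omega))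
      have hc₁ : ∀ i, V i (c * l₁ ^ 2) ≤ V i (c * l ^ 2) := by
        intro i
        rw [map_mul, map_mul, map_pow, map_pow]
        exact mul_le_mul' le_rfl (pow_le_pow_left' (hl₁ i) 2)
      obtain ⟨r₁, l₂, h3, h4⟩ := root_step V hne hM l₁ fun i => lt_of_le_of_lt (hc₁ i) (h i)
      -- closeness of `r` and `r₁`
      have hcr : ∀ i, ∀ z : F, V i z * V i (M : F) ≤ V i l → V i (c * z ^ 2) < 1 := by
        intro i z hz
        have h5 : V i (c * z ^ 2) * V i (M : F) ^ 2 ≤ V i (c * l ^ 2) := by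
          rw [map_mul, map_pow, mul_assoc, ← mul_pow, map_mul, map_pow]
          exact mul_le_mul' le_rfl (pow_le_pow_left' hz 2)
        have h6 : V i (c * z ^ 2) * V i (M : F) ^ 2 < 1 * V i (M : F) ^ 2 := by
          refine lt_of_le_of_lt h5 (lt_of_lt_of_le (h i) ?_)
          rw [map_pow, pow_succ' (V i (M : F)) 2]
          exact mul_le_mul' (hnat i M) le_rfl
        exact lt_of_mul_lt_mul_right' h6
      have hr1 : ∀ i, V i r₁ * V i (M : F) ≤ V i l := fun i => (h4 i).1.le.trans (hl₁ i)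
      have hrr : ∀ i, V i (c * r * r₁) < 1 := by
        intro i
        by_contra hcon
        push Not at hcon
        have h5 : V i ((c * r * r₁) ^ 2) < 1 := by
          have e : (c * r * r₁) ^ 2 = (c * r ^ 2) * (c * r₁ ^ 2) := by ring
          rw [e, map_mul]
          exact mul_lt_one_of_nonneg_of_lt_one_left zero_le (hcr i r (h2 i).1)
            (hcr i r₁ (hr1 i)).le
        rw [map_pow] at h5
        exact absurd h5 (not_lt.mpr (one_le_pow_of_one_le' hcon 2))
      obtain ⟨i₀⟩ := hne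
      refine ⟨(r + r₁) / (1 + c * r * r₁), l₂, ?_, fun i => ⟨?_, ?_⟩⟩
      · rw [← cay_mul c (one_sub_ne (V i₀) (hcr i₀ r (h2 i₀).1))
          (one_sub_ne (V i₀) (hcr i₀ r₁ (hr1 i₀))) (one_add_ne (V i₀) (hrr i₀)), mul_pow,
          mul_assoc, h3, h1]
      · have e5 : V i (1 + c * r * r₁) = 1 := (V i).map_one_add_of_lt (hrr i)
        rw [map_div₀, e5, div_one]
        have e6 : (r + r₁) * M = r * M + r₁ * M := add_mul _ _ _
        rw [← map_mul, e6]
        refine (V i).map_add_le ?_ ?_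
        · rw [map_mul]
          exact (h2 i).1
        · rw [map_mul]
          exact hr1 i
      · have h5 := (h4 i).2
        have h6 : V i (c * l₁ ^ 2) ≤ V i ((M : F) ^ 3) * WithZero.exp (-1 : ℤ) := by
          rw [← z0_lt_iff_le_mul ((Valuation.ne_zero_iff _).mpr (pow_ne_zero 3 hM0))]
          exact lt_of_le_of_lt (hc₁ i) (h i)
        have h7 : V i l₂ * V i ((M : F) ^ 3) ≤
            (V i l * WithZero.exp (-((n + 1 : ℕ) : ℤ))) * V i ((M : F) ^ 3) := by
          refine h5.trans ((mul_le_mul' (h2 i).2 h6).trans (le_of_eq ?_))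
          rw [mul_comm (V i ((M : F) ^ 3)), ← mul_assoc, mul_assoc (V i l), ← WithZero.exp_add]
          congr 3
          push_cast
          ring
        have h8 : V i ((M : F) ^ 3) ≠ 0 := (Valuation.ne_zero_iff _).mpr (pow_ne_zero 3 hM0)
        exact le_of_mul_le_mul_right h7 (zero_lt_iff.mpr h8)
  choose N hN using fun i => exists_exp_lt (V i l) (ε i) (hε i)
  have _ := Fintype.ofFinite ι
  obtain ⟨r, l', h1, h2⟩ := key (Finset.univ.sup N)
  refine ⟨r, l', h1, fun i => ⟨(h2 i).1, ?_, ?_⟩⟩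
  · exact (h2 i).2.trans (mul_le_of_le_one_right' (by
      rw [← WithZero.exp_zero, WithZero.exp_le_exp]
      omega))
  · exact lt_of_le_of_lt (h2 i).2 (hN i _ (Finset.le_sup (Finset.mem_univ i)))

section lift

variable {F : Type*} [Field F] {c : F}

/-- The homomorphism defined by a square root of `c`. -/
theorem exists_lift {R : Type*} [Ring R] (f : F →+* R) {om : R} (h1 : om * om = f c)
    (h2 : ∀ x, f x * om = om * f x) :
    ∃ φ : QuadraticAlgebra F c 0 →+* R, ∀ z, φ z = f z.re + f z.im * om := by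
  refine ⟨{ toFun := fun z => f z.re + f z.im * om, map_one' := ?_, map_mul' := ?_,
            map_zero' := ?_, map_add' := ?_ }, fun z => rfl⟩
  · rw [QuadraticAlgebra.re_one, QuadraticAlgebra.im_one, map_one, map_zero, zero_mul, add_zero]
  · intro x y
    rw [QuadraticAlgebra.re_mul, QuadraticAlgebra.im_mul, zero_mul, zero_mul, add_zero]
    have e : f x.im * om * (f y.im * om) = f c * (f x.im * f y.im) := by
      rw [mul_assoc, ← mul_assoc om, ← h2, mul_assoc, h1, ← mul_assoc (f x.im), ← map_mul,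
        ← map_mul, ← map_mul, mul_comm]
    rw [add_mul, mul_add, mul_add, e, map_add, map_add, map_mul, map_mul, map_mul, map_mul, map_mul,
      add_mul, ← mul_assoc (f x.re), mul_assoc (f x.im) om, ← h2, ← mul_assoc (f x.im),
      mul_assoc (f c)]
    abel
  · simp
  · intro x y
    rw [QuadraticAlgebra.re_add, QuadraticAlgebra.im_add, map_add, map_add, add_mul]
    abel

/-- The image of the Cayley transform. -/
theorem lift_cay {R : Type*} [Ring R] (f : F →+* R) {om : R} {φ : QuadraticAlgebra F c 0 →+* R}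
    (hφ : ∀ z, φ z = f z.re + f z.im * om) {l : F} (hl : 1 - c * l ^ 2 ≠ 0) :
    φ (cay c l) * (1 - f l * om) = 1 + f l * om := by
  have e1 : φ ⟨1, -l⟩ = 1 - f l * om := by
    rw [hφ]
    simp [sub_eq_add_neg]
  have e2 : φ ⟨1, l⟩ = 1 + f l * om := by
    rw [hφ]
    simp
  rw [← e1, ← e2, ← map_mul]
  congr 1
  ext
  · rw [QuadraticAlgebra.re_mul]
    simp only [cay]
    field_simp
    ring
  · rw [QuadraticAlgebra.im_mul]
    simp only [cay]
    field_simp
    ring

end lift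

end Vale.Agent.P011.Pow
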