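import Vale.Agent.P011.Even.NormCont

/-!
Roots in the norm one torus of a quadratic extension, by Newton's iteration.
-/

open NumberField IsDedekindDomain Polynomial

set_option linter.unusedSectionVars false

namespace Vale.Agent.P011.Pow

open Vale.Agent.P011.Arith Vale.Agent.P011.Even

section newton

variable {L : Type} [Field L] {w : Valuation L Z0} {g : L[X]}

theorem pow_sub_le {x y : L} {r : Z0} (hx : w x ≤ r) (hy : w y ≤ r) (hr : r ≤ 1) (n : ℕ) :
    w (x ^ (n + 2) - y ^ (n + 2)) ≤ r * w (x - y) := by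
  rw [← geom_sum₂_mul, map_mul]
  refine mul_le_mul_left ?_ _
  refine Valuation.map_sum_le w fun i hi => ?_
  have hi' : i < n + 2 := Finset.mem_range.mp hi
  rw [map_mul, map_pow, map_pow]
  calc w x ^ i * w y ^ (n + 2 - 1 - i) ≤ r ^ i * r ^ (n + 2 - 1 - i) :=
        mul_le_mul' (pow_le_pow_left₀ zero_le hx _) (pow_le_pow_left₀ zero_le hy _)
    _ = r ^ (n + 1) := by rw [← pow_add]; congr 1; omega
    _ ≤ r ^ 1 := pow_le_pow_right_of_le_one' hr (by omega)
    _ = r := pow_one r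

theorem taylor_one (hg : ∀ i, w (g.coeff i) ≤ 1) {x y : L} {r : Z0} (hx : w x ≤ r) (hy : w y ≤ r)
    (hr : r ≤ 1) : w (g.eval x - g.eval y - g.coeff 1 * (x - y)) ≤ r * w (x - y) := by
  have e1 : ∀ x : L, g.eval x = ∑ i ∈ Finset.range (g.natDegree + 2), g.coeff i * x ^ i := by
    intro x
    rw [eval_eq_sum_range' (n := g.natDegree + 2)]
    omega
  have e2 : g.eval x - g.eval y - g.coeff 1 * (x - y) = ∑ i ∈ Finset.range g.natDegree,
      g.coeff (i + 2) * (x ^ (i + 2) - y ^ (i + 2)) := by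
    rw [e1 x, e1 y, Finset.sum_range_succ', Finset.sum_range_succ', Finset.sum_range_succ',
      Finset.sum_range_succ']
    simp only [mul_sub, Finset.sum_sub_distrib, zero_add, pow_one, pow_zero]
    ring
  rw [e2]
  refine Valuation.map_sum_le w fun i _ => ?_
  rw [map_mul]
  calc _ ≤ 1 * w (x ^ (i + 2) - y ^ (i + 2)) := mul_le_mul' (hg _) le_rfl
    _ ≤ r * w (x - y) := by rw [one_mul]; exact pow_sub_le hx hy hr i

/-- Newton's iteration with a fixed slope. -/
noncomputable def nwt (g : L[X]) : ℕ → L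
  | 0 => 0
  | i + 1 => nwt g i - g.eval (nwt g i) / g.coeff 1

theorem nwt_bound (hg : ∀ i, w (g.coeff i) ≤ 1) (h : w (g.coeff 0) < w (g.coeff 1) ^ 2) (i : ℕ) :
    w (nwt g i) ≤ w (g.coeff 0) / w (g.coeff 1) ∧
      w (g.eval (nwt g i)) ≤ w (g.coeff 0) * (w (g.coeff 0) / w (g.coeff 1) ^ 2) ^ i := by
  have h1 : w (g.coeff 1) ≠ 0 := by
    intro h0
    rw [h0, zero_pow two_ne_zero] at h
    exact absurd h (by simp)
  have h1p : 0 < w (g.coeff 1) := zero_lt_iff.mpr h1
  have hc1 : g.coeff 1 ≠ 0 := (Valuation.ne_zero_iff w).mp h1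
  have hq : w (g.coeff 0) / w (g.coeff 1) ^ 2 < 1 := (div_lt_one₀ (pow_pos h1p 2)).mpr h
  have hr : w (g.coeff 0) / w (g.coeff 1) ≤ 1 := by
    rw [div_le_one₀ h1p]
    calc w (g.coeff 0) ≤ w (g.coeff 1) ^ 2 := h.le
      _ ≤ w (g.coeff 1) ^ 1 := pow_le_pow_right_of_le_one' (hg 1) (by omega)
      _ = _ := pow_one _
  induction i with
  | zero =>
    refine ⟨?_, ?_⟩
    · change w 0 ≤ _
      rw [map_zero]
      exact zero_le
    · rw [pow_zero, mul_one]
      change w (g.eval 0) ≤ _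
      rw [← coeff_zero_eq_eval_zero]
  | succ i ih =>
    obtain ⟨ih1, ih2⟩ := ih
    set x := nwt g i with hx
    set y := x - g.eval x / g.coeff 1 with hy
    have hy' : nwt g (i + 1) = y := rfl
    have hstep : w (y - x) = w (g.eval x) / w (g.coeff 1) := by
      rw [hy, sub_sub_cancel_left, Valuation.map_neg, map_div₀]
    have hgx : w (g.eval x) ≤ w (g.coeff 0) := ih2.trans (by
      calc _ ≤ w (g.coeff 0) * 1 := mul_le_mul' le_rfl (pow_le_one₀ zero_le hq.le)
        _ = _ := mul_one _)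
    have hyx : w (y - x) ≤ w (g.coeff 0) / w (g.coeff 1) := by
      rw [hstep]
      exact div_le_div_of_nonneg_right hgx h1p.le
    have hyr : w y ≤ w (g.coeff 0) / w (g.coeff 1) := by
      have e : y = (y - x) + x := by ring
      rw [e]
      exact (w.map_add _ _).trans (max_le hyx ih1)
    refine ⟨by rw [hy']; exact hyr, ?_⟩
    rw [hy']
    have h2 := taylor_one hg hyr ih1 hr
    have e3 : g.eval y = g.eval y - g.eval x - g.coeff 1 * (y - x) := by
      rw [hy]
      field_simp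
      ring
    rw [e3]
    refine h2.trans ?_
    rw [hstep, pow_succ]
    calc w (g.coeff 0) / w (g.coeff 1) * (w (g.eval x) / w (g.coeff 1)) =
        w (g.eval x) * (w (g.coeff 0) / w (g.coeff 1) ^ 2) := by
          rw [div_mul_div_comm, mul_comm, mul_div_assoc, pow_two]
      _ ≤ _ := by
          rw [← mul_assoc]
          exact mul_le_mul_left ih2 _

end newton

section AB

variable {R : Type} [CommRing R]

/-- The coordinates of a power of `1 + η ω`, where `ω ^ 2 = c`. -/
def tAB (c η : R) : ℕ → R × R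
  | 0 => (1, 0)
  | M + 1 => ((tAB c η M).1 + c * η * (tAB c η M).2, (tAB c η M).2 + η * (tAB c η M).1)

theorem tAB_map {S : Type} [CommRing S] (f : R →+* S) (c η : R) (M : ℕ) :
    tAB (f c) (f η) M = (f (tAB c η M).1, f (tAB c η M).2) := by
  induction M with
  | zero => simp [tAB]
  | succ M ih => simp only [tAB, ih, map_add, map_mul]

theorem tAB_plus {c η ω : R} (hω : ω ^ 2 = c) (M : ℕ) :
    (1 + η * ω) ^ M = (tAB c η M).1 + (tAB c η M).2 * ω := by
  induction M with
  | zero => simp [tAB]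
  | succ M ih =>
    rw [pow_succ, ih]
    simp only [tAB]
    linear_combination (tAB c η M).2 * η * hω

theorem tAB_minus {c η ω : R} (hω : ω ^ 2 = c) (M : ℕ) :
    (1 - η * ω) ^ M = (tAB c η M).1 - (tAB c η M).2 * ω := by
  have h := tAB_plus (η := η) (ω := -ω) (c := c) (by rw [neg_sq, hω]) M
  rw [mul_neg, ← sub_eq_add_neg, mul_neg, ← sub_eq_add_neg] at h
  exact h

end AB

section torus

variable {L : Type} [Field L]

/-- The polynomial of the root. -/
noncomputable def tP (c κ : L) (M : ℕ) : L[X] :=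
  (tAB (C c) X M).2 - C κ * (tAB (C c) X M).1

theorem tP_eval (c κ η : L) (M : ℕ) :
    (tP c κ M).eval η = (tAB c η M).2 - κ * (tAB c η M).1 := by
  have h := tAB_map (evalRingHom η) (C c) X M
  rw [coe_evalRingHom, eval_C, eval_X] at h
  rw [h, tP, eval_sub, eval_mul, eval_C]

theorem tAB_coeff (c : L) (M : ℕ) : (tAB (C c) X M).1.coeff 0 = 1 ∧
    (tAB (C c) X M).1.coeff 1 = 0 ∧ (tAB (C c) X M).2.coeff 0 = 0 ∧
    (tAB (C c) X M).2.coeff 1 = M := by
  induction M with
  | zero => simp [tAB, coeff_one]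
  | succ M ih =>
    obtain ⟨h1, h2, h3, h4⟩ := ih
    simp only [tAB, coeff_add]
    refine ⟨?_, ?_, ?_, ?_⟩
    · rw [h1, mul_assoc, coeff_C_mul, coeff_X_mul_zero, mul_zero, add_zero]
    · rw [h2, mul_assoc, coeff_C_mul, coeff_X_mul, h3, mul_zero, add_zero]
    · rw [h3, coeff_X_mul_zero, add_zero]
    · rw [h4, coeff_X_mul, h1, Nat.cast_add, Nat.cast_one]

theorem tAB_coeff_le {w : Valuation L Z0} {c : L} (hc : w c ≤ 1) (M : ℕ) (i : ℕ) :
    w ((tAB (C c) X M).1.coeff i) ≤ 1 ∧ w ((tAB (C c) X M).2.coeff i) ≤ 1 := by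
  induction M generalizing i with
  | zero =>
    simp only [tAB, coeff_one, coeff_zero]
    split_ifs <;> simp
  | succ M ih =>
    simp only [tAB, coeff_add]
    refine ⟨?_, ?_⟩
    · refine (w.map_add _ _).trans (max_le (ih i).1 ?_)
      rw [mul_assoc, coeff_C_mul, map_mul]
      rcases i with _ | i
      · rw [coeff_X_mul_zero, map_zero, mul_zero]
        exact zero_le
      · rw [coeff_X_mul]
        exact mul_le_one' hc (ih i).2
    · refine (w.map_add _ _).trans (max_le (ih i).2 ?_)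
      rcases i with _ | i
      · rw [coeff_X_mul_zero, map_zero]
        exact zero_le
      · rw [coeff_X_mul]
        exact (ih i).1

theorem tAB_near {w : Valuation L Z0} {c η : L} (hc : w c ≤ 1) (hη : w η < 1) (M : ℕ) :
    w ((tAB c η M).1 - 1) < 1 ∧ w (tAB c η M).1 = 1 ∧ w (tAB c η M).2 ≤ w η := by
  have key : w ((tAB c η M).1 - 1) < 1 ∧ w (tAB c η M).2 ≤ w η := by
    induction M with
    | zero => simp [tAB]
    | succ M ih =>
      obtain ⟨h1, h2⟩ := ih
      have h3 : w (tAB c η M).1 ≤ 1 := by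
        have e : (tAB c η M).1 = ((tAB c η M).1 - 1) + 1 := by ring
        rw [e]
        exact (w.map_add _ _).trans (max_le h1.le (by rw [map_one]))
      simp only [tAB]
      refine ⟨?_, ?_⟩
      · have e : (tAB c η M).1 + c * η * (tAB c η M).2 - 1 =
            ((tAB c η M).1 - 1) + c * η * (tAB c η M).2 := by ring
        rw [e]
        refine (w.map_add _ _).trans_lt (max_lt h1 ?_)
        rw [map_mul, map_mul]
        calc w c * w η * w (tAB c η M).2 ≤ 1 * w η * 1 :=
              mul_le_mul' (mul_le_mul' hc le_rfl) (h2.trans hη.le)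
          _ < 1 := by rw [one_mul, mul_one]; exact hη
      · refine (w.map_add _ _).trans (max_le h2 ?_)
        rw [map_mul]
        calc w η * w (tAB c η M).1 ≤ w η * 1 := mul_le_mul' le_rfl h3
          _ = w η := mul_one _
  refine ⟨key.1, ?_, key.2⟩
  have e : (tAB c η M).1 = 1 + ((tAB c η M).1 - 1) := by ring
  rw [e]
  exact w.map_one_add_of_lt key.1

theorem val_nat_le (w : Valuation L Z0) (M : ℕ) : w (M : L) ≤ 1 := by
  induction M with
  | zero => rw [Nat.cast_zero, map_zero]; exact zero_le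
  | succ M ih =>
    rw [Nat.cast_add, Nat.cast_one]
    exact (w.map_add _ _).trans (max_le ih (by rw [map_one]))

theorem exists_pow_lt {q b ε : Z0} (hq : q < 1) (hε : ε ≠ 0) : ∃ N : ℕ, ∀ n ≥ N, b * q ^ n < ε := by
  have hεp : 0 < ε := zero_lt_iff.mpr hε
  obtain ⟨N, hN⟩ := exists_pow_mul_le (b := b / ε) hq
  have h1 : b * q ^ N ≤ ε := by
    rw [← mul_div_assoc, div_le_one₀ hεp, mul_comm] at hN
    exact hN
  refine ⟨N + 1, fun n hn => ?_⟩
  have h2 : b * q ^ n ≤ b * q ^ N * q := by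
    rw [mul_assoc, ← pow_succ]
    exact mul_le_mul' le_rfl (pow_le_pow_right_of_le_one' hq.le hn)
  refine h2.trans_lt ?_
  rcases eq_or_ne (b * q ^ N) 0 with h3 | h3
  · rw [h3, zero_mul]
    exact hεp
  · calc b * q ^ N * q < b * q ^ N * 1 := mul_lt_mul_of_pos_left hq (zero_lt_iff.mpr h3)
      _ ≤ ε := by rw [mul_one]; exact h1

/-- Roots in the norm one torus: an element close to one is a power times an element very close
to one. -/
theorem torus_root {ι : Type} (T : Set ι) (hT : T.Finite) (w : ι → Valuation L Z0) {c κ : L}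
    {M : ℕ} (hc : ∀ i ∈ T, w i c ≤ 1) (hκ : ∀ i ∈ T, w i κ < w i M ^ 2) (ε : ι → Z0)
    (hε : ∀ i ∈ T, ε i ≠ 0) : ∃ η κ₁ : L, (∀ i ∈ T, w i η * w i M ≤ w i κ ∧ w i η < 1 ∧
      w i κ₁ < ε i) ∧ ∀ (E : Type) [CommRing E] [Algebra L E] (ω : E), ω ^ 2 = algebraMap L E c →
      (1 + algebraMap L E κ * ω) * (1 - algebraMap L E η * ω) ^ M *
        (1 - algebraMap L E κ₁ * ω) =
      (1 - algebraMap L E κ * ω) * (1 + algebraMap L E η * ω) ^ M *
        (1 + algebraMap L E κ₁ * ω) := by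
  classical
  rcases T.eq_empty_or_nonempty with hT0 | ⟨i0, hi0⟩
  · refine ⟨0, κ, fun i hi => ?_, fun E _ _ ω _ => ?_⟩
    · rw [hT0] at hi
      exact absurd hi (Set.notMem_empty i)
    · rw [map_zero, zero_mul, sub_zero, add_zero, one_pow]
      ring
  obtain ⟨c0, c1, c2, c3⟩ := tAB_coeff c M
  set g : L[X] := tP c κ M with hg
  have hg0 : g.coeff 0 = -κ := by
    rw [hg, tP, coeff_sub, coeff_C_mul, c0, c2, mul_one, zero_sub]
  have hg1 : g.coeff 1 = M := by
    rw [hg, tP, coeff_sub, coeff_C_mul, c1, c3, mul_zero, sub_zero]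
  have hM1 : ∀ i, w i (M : L) ≤ 1 := fun i => val_nat_le _ M
  have hκ1 : ∀ i ∈ T, w i κ < 1 := fun i hi =>
    (hκ i hi).trans_le (pow_le_one₀ zero_le (hM1 i))
  have hgle : ∀ i ∈ T, ∀ j, w i (g.coeff j) ≤ 1 := by
    intro i hi j
    rw [hg, tP, coeff_sub, coeff_C_mul]
    refine ((w i).map_sub _ _).trans (max_le (tAB_coeff_le (hc i hi) M j).2 ?_)
    rw [map_mul]
    exact mul_le_one' (hκ1 i hi).le (tAB_coeff_le (hc i hi) M j).1
  have hg01 : ∀ i ∈ T, w i (g.coeff 0) < w i (g.coeff 1) ^ 2 := by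
    intro i hi
    rw [hg0, hg1, Valuation.map_neg]
    exact hκ i hi
  have hMp : ∀ i ∈ T, 0 < w i (M : L) := by
    intro i hi
    by_contra hcon
    have h0 : w i (M : L) = 0 := le_zero_iff.mp (not_lt.mp hcon)
    have h1 := hκ i hi
    rw [h0, zero_pow two_ne_zero] at h1
    exact absurd h1 (by simp)
  have hq : ∀ i ∈ T, w i κ / w i M ^ 2 < 1 := fun i hi =>
    (div_lt_one₀ (pow_pos (hMp i hi) 2)).mpr (hκ i hi)
  have hN : ∀ i, ∃ N : ℕ, i ∈ T → ∀ n ≥ N, w i κ * (w i κ / w i M ^ 2) ^ n < ε i := by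
    intro i
    by_cases hi : i ∈ T
    · obtain ⟨N, hN⟩ := exists_pow_lt (b := w i κ) (hq i hi) (hε i hi)
      exact ⟨N, fun _ => hN⟩
    · exact ⟨0, fun h => absurd h hi⟩
  choose N hN using hN
  set n := ∑ i ∈ hT.toFinset, N i with hn
  have hnN : ∀ i ∈ T, N i ≤ n := fun i hi =>
    Finset.single_le_sum (f := N) (fun _ _ => Nat.zero_le _) (hT.mem_toFinset.mpr hi)
  set η := nwt g n with hη
  have hb : ∀ i ∈ T, w i η ≤ w i κ / w i M ∧ w i (g.eval η) < ε i := by
    intro i hi
    obtain ⟨h1, h2⟩ := nwt_bound (hgle i hi) (hg01 i hi) n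
    rw [hg0, hg1, Valuation.map_neg] at h1 h2
    exact ⟨h1, h2.trans_lt (hN i hi n (hnN i hi))⟩
  have hη1 : ∀ i ∈ T, w i η < 1 := by
    intro i hi
    refine (hb i hi).1.trans_lt ?_
    rw [div_lt_one₀ (hMp i hi)]
    calc w i κ < w i M ^ 2 := hκ i hi
      _ ≤ w i M ^ 1 := pow_le_pow_right_of_le_one' (hM1 i) (by omega)
      _ = _ := pow_one _
  set A := (tAB c η M).1 with hA
  set B := (tAB c η M).2 with hB
  have hgη : g.eval η = B - κ * A := tP_eval c κ η M
  have hU : ∀ i ∈ T, w i (A - c * κ * B) = 1 := by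
    intro i hi
    obtain ⟨-, h1, h2⟩ := tAB_near (hc i hi) (hη1 i hi) M
    have h3 : w i (c * κ * B) < w i A := by
      rw [h1, map_mul, map_mul]
      calc w i c * w i κ * w i B ≤ 1 * w i κ * 1 :=
            mul_le_mul' (mul_le_mul' (hc i hi) le_rfl) (h2.trans (hη1 i hi).le)
        _ < 1 := by rw [one_mul, mul_one]; exact hκ1 i hi
    rw [Valuation.map_sub_eq_of_lt_left _ h3, h1]
  have hU0 : A - c * κ * B ≠ 0 := by
    intro h0
    have := hU i0 hi0
    rw [h0, map_zero] at this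
    exact zero_ne_one this
  refine ⟨η, (κ * A - B) / (A - c * κ * B), fun i hi => ⟨?_, hη1 i hi, ?_⟩, fun E _ _ ω hω => ?_⟩
  · rw [← le_div_iff₀ (hMp i hi)]
    exact (hb i hi).1
  · rw [map_div₀, hU i hi, div_one, ← Valuation.map_neg, neg_sub, ← hgη]
    exact (hb i hi).2
  · have h1 := tAB_plus (η := algebraMap L E η) hω M
    have h2 := tAB_minus (η := algebraMap L E η) hω M
    rw [tAB_map, ← hA, ← hB] at h1 h2
    simp only at h1 h2
    rw [h1, h2]
    have h3 : algebraMap L E ((κ * A - B) / (A - c * κ * B)) * algebraMap L E (A - c * κ * B) =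
        algebraMap L E (κ * A - B) := by
      rw [← map_mul, div_mul_cancel₀ _ hU0]
    set z := algebraMap L E ((κ * A - B) / (A - c * κ * B)) with hz
    simp only [map_sub, map_mul] at h3
    linear_combination (-2 * ω) * h3 + 2 * algebraMap L E κ * ω * algebraMap L E B * z * hω

end torus

end Vale.Agent.P011.Pow
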