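import Vale.Agent.P011.Pow.CentU
import Vale.Agent.P011.Pow.IsCentN
import Vale.Agent.P011.Pow.RamSplit
import Vale.Agent.P011.Pow.BaseF

/-!
The second square root: a symmetric square root of an element of `k` in the centralizer of the
first one.
-/

open Module NumberField IsDedekindDomain

set_option linter.unusedSectionVars false

namespace Vale.Agent.P011.Pow

open Vale.Agent.P011.Arith Vale.Agent.P011.Even Vale.Agent.P011.Two Vale.Agent.P011.One
open Vale.Agent.P011.W (HasNrd)

/-- The element whose square root is adjoined is not a square. -/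
theorem IsCent.not_isSquare {k K D L K' C : Type} [Field k] [Field K] [DivisionRing D]
    [StarRing D] [Algebra k K] [Algebra k D] [Algebra K D] [Field L] [Field K'] [DivisionRing C]
    [StarRing C] [Algebra k L] [Algebra K K'] [Algebra L K'] [Algebra L C] [Algebra K' C]
    {t : D} {a : kˣ} {T : L} {j : C →+* D} (h : IsCent k K D L K' C t a T j) :
    ¬ IsSquare (a : k) := by
  rintro ⟨c, hc⟩
  have h1 : (T - algebraMap k L c) * (T + algebraMap k L c) = 0 := by
    rw [sub_mul, mul_add, mul_add, h.sqT, hc, map_mul, mul_comm T (algebraMap k L c)]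
    ring
  have h2 : ∃ z : k, T = algebraMap k L z := by
    rcases mul_eq_zero.mp h1 with h2 | h2
    · exact ⟨c, sub_eq_zero.mp h2⟩
    · exact ⟨-c, by rw [map_neg]; exact eq_neg_of_add_eq_zero_left h2⟩
  obtain ⟨z, hz⟩ := h2
  have hsurj : Function.Surjective (algebraMap k L) := by
    intro l
    obtain ⟨u, v, rfl⟩ := h.repL l
    exact ⟨u + v * z, by rw [map_add, map_mul, hz]⟩
  have h3 : finrank k L = 1 := by
    have h4 := LinearEquiv.finrank_eq (LinearEquiv.ofBijective (Algebra.linearMap k L)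
      ⟨(algebraMap k L).injective, hsurj⟩)
    rw [← h4, finrank_self]
  have h5 := h.rkL
  omega

/-- (A) the second square root: `Pow/VnA.lean`. -/
theorem exists_s2 {k K D L K' C : Type}
    [Field k] [NumberField k] [Field K] [NumberField K] [StarRing K] [DivisionRing D] [StarRing D]
    [Algebra k K] [Algebra k D] [Algebra K D] [IsScalarTower k K D]
    [Field L] [NumberField L] [Algebra k L] [Field K'] [NumberField K'] [StarRing K']
    [Algebra K K'] [DivisionRing C] [StarRing C] [Algebra L K'] [Algebra L C] [Algebra K' C]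
    [IsScalarTower L K' C]
    {d : kˣ} {s : K} {t : D} {a : kˣ} {T : L} {j : C →+* D}
    (hS : Setting k K D d s) (hSC : Setting L K' C (inc k L d) (algebraMap K K' s))
    (h : IsCent k K D L K' C t a T j) {l e : ℕ} (hl : l = 2 ^ e) (hl2 : 2 ≤ l)
    (hdD : finrank K D = (2 * (2 * l)) ^ 2) (hdC : finrank K' C = (2 * l) ^ 2) :
    ∃ N0 : Set (HeightOneSpectrum (𝓞 k)), N0.Finite ∧ Disjoint N0 (Ram k K D (2 * (2 * l))) ∧
      ∀ b : kˣ, ¬ IsSquare (algebraMap k L (b : k)) →
        ¬ IsSquare (algebraMap k L ((b * d : kˣ) : k)) → (∀ φ : k →+* ℝ, 0 < φ b) →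
        (∀ v ∈ N0, b ∈ LS (v.valuation k)) →
        (∀ v ∈ Ram k K D (2 * (2 * l)), b ∉ LS (v.valuation k) ∧ a * b ∉ LS (v.valuation k)) →
        ∃ s₂, s₂ ∈ Xa C (inc k L b) := by
  have he : 1 ≤ e := by
    by_contra hcon
    have : e = 0 := by omega
    rw [this, pow_zero] at hl
    omega
  have h2l : 2 * l = 2 ^ (e + 1) := by rw [hl, pow_succ, mul_comm]
  obtain ⟨S, hSf, hs⟩ := exists_sym_sqrt hSC (e := e + 1) (by omega) (by rw [hdC, h2l])
  refine ⟨{v : HeightOneSpectrum (𝓞 k) | ∃ w ∈ S,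
      w.asIdeal.comap (algebraMap (𝓞 k) (𝓞 L)) = v.asIdeal} \ Ram k K D (2 * (2 * l)),
    (below_finite hSf).subset Set.sdiff_subset, Set.disjoint_sdiff_left, ?_⟩
  intro b hb hbd hre hN hR
  refine hs (inc k L b) hb ?_ ?_ ?_ ?_
  · have h1 : ((inc k L b * inc k L d : Lˣ) : L) = algebraMap k L ((b * d : kˣ) : k) := by
      rw [← map_mul]
      rfl
    rw [h1]
    exact hbd
  · intro φ _
    exact hre (φ.comp (algebraMap k L))
  · intro w hw hdw
    obtain ⟨v, hv⟩ := Arith.exists_below (F := k) w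
    by_cases hvR : v ∈ Ram k K D (2 * (2 * l))
    · exact absurd (LS_map hv (ram_split hS (by omega) hdD hvR)) hdw
    · have h1 : inc k L b ∈ LS (w.valuation L) := LS_map hv (hN v ⟨⟨w, hw, hv⟩, hvR⟩)
      exact fun h2 => hdw ((Subgroup.mul_mem_cancel_left _ h1).mp h2)
  · intro w hw
    obtain ⟨v, hv, hwv, -⟩ := h.tdiv_over hS hSC (m := 2 * l) (by omega) hdC hw
    obtain ⟨h1, h2⟩ := hR v hv
    exact ls_desc h.rkL h.not_isSquare (by rw [sq]; exact h.sqT) hwv h1 h2

end Vale.Agent.P011.Pow
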