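import Vale.Agent.P011.Pow.VnAlg

/-!
Closeness to one of elements of the torus with a small parameter.
-/

open Module NumberField IsDedekindDomain

set_option linter.unusedSectionVars false

namespace Vale.Agent.P011.Pow

open Vale.Agent.P011.Arith Vale.Agent.P011.Even Vale.Agent.P011.Two Vale.Agent.P011.One
open Vale.Agent.P011.W (HasNrd)

/-- A lower bound for finitely many nonzero values. -/
theorem exists_lower_bd {ι : Type} {U : Set ι} (hU : U.Finite) (g : ι → Z0)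
    (hg : ∀ w ∈ U, g w ≠ 0) : ∃ γ : Z0, γ ≠ 0 ∧ γ ≤ 1 ∧ ∀ w ∈ U, γ ≤ g w := by
  induction U, hU using Set.Finite.induction_on with
  | empty => exact ⟨1, one_ne_zero, le_rfl, fun w hw => absurd hw (Set.notMem_empty w)⟩
  | insert _ _ ih =>
    rename_i i T hi hT
    obtain ⟨γ, h0, h1, h2⟩ := ih fun w hw => hg w (Set.mem_insert_of_mem _ hw)
    refine ⟨min γ (g i), ?_, (min_le_left _ _).trans h1, ?_⟩
    · rcases min_choice γ (g i) with h | h <;> rw [h]
      · exact h0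
      · exact hg i (Set.mem_insert _ _)
    · rintro w (rfl | hw)
      · exact min_le_right _ _
      · exact (min_le_left _ _).trans (h2 w hw)

/-- The valuation of a Cayley transform. -/
theorem val_cay_sub_one {E : Type} [Field E] (w : Valuation E Z0) (h2 : w 2 ≤ 1) {x y : E}
    {δ : Z0} (hx : w x < 1) (hδ : w x < δ) (hy : y * (1 - x) = 1 + x) : w (y - 1) < δ := by
  have h1 : w (1 - x) = 1 := by
    have := w.map_one_sub_of_lt hx
    exact this
  have h3 : (y - 1) * (1 - x) = 2 * x := by linear_combination hy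
  have h4 := congrArg w h3
  rw [map_mul, map_mul, h1, mul_one] at h4
  rw [h4]
  exact lt_of_le_of_lt (mul_le_of_le_one_left' h2) hδ

/-- Elements of the torus with a small parameter are close to one. -/
theorem small_y2 {k K D L K' C F L₂ K₂ C₂ : Type}
    [Field k] [NumberField k] [Field K] [NumberField K] [StarRing K] [DivisionRing D] [StarRing D]
    [Algebra k K] [Algebra k D] [Algebra K D] [IsScalarTower k K D]
    [Field L] [NumberField L] [Algebra k L] [Field K'] [NumberField K'] [StarRing K']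
    [Algebra K K'] [DivisionRing C] [StarRing C] [Algebra L K'] [Algebra L C] [Algebra K' C]
    [IsScalarTower L K' C]
    [Field F] [NumberField F] [Algebra k F]
    [Field L₂] [NumberField L₂] [Algebra L L₂] [Field K₂] [NumberField K₂] [StarRing K₂]
    [Algebra K' K₂] [DivisionRing C₂] [StarRing C₂] [Algebra L₂ K₂] [Algebra L₂ C₂]
    [Algebra K₂ C₂] [IsScalarTower L₂ K₂ C₂] [Algebra F L₂]
    {d : kˣ} {s : K} {t : D} {a : kˣ} {T : L} {j : C →+* D} {b : kˣ} {s₂ : C} {S₂ : L₂}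
    {j₂ : C₂ →+* C} (hS : Setting k K D d s)
    (hS₂ : Setting L₂ K₂ C₂ (inc L L₂ (inc k L d)) (algebraMap K' K₂ (algebraMap K K' s)))
    (h : IsCent k K D L K' C t a T j) (h₂ : IsCent L K' C L₂ K₂ C₂ s₂ (inc k L b) S₂ j₂)
    (hk : ∀ c : k, algebraMap F L₂ (algebraMap k F c) = algebraMap L L₂ (algebraMap k L c))
    {U : Set (HeightOneSpectrum (𝓞 K₂))} (hU : U.Finite) (δ : HeightOneSpectrum (𝓞 K₂) → Z0)
    (hδ : ∀ w, δ w ≠ 0) :
    ∃ ε : HeightOneSpectrum (𝓞 F) → Z0, (∀ w, ε w ≠ 0) ∧ ∀ κ₁ : F,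
      (∀ w ∈ U, ∃ (u : HeightOneSpectrum (𝓞 L₂)) (wF : HeightOneSpectrum (𝓞 F)), Ab w u ∧
        Ab u wF ∧ wF.valuation F κ₁ < ε wF) →
      ∀ y : K₂, y * (1 - fk F L₂ K₂ κ₁ * om2 K' K₂ s T) = 1 + fk F L₂ K₂ κ₁ * om2 K' K₂ s T →
        ∀ w ∈ U, w.valuation K₂ (y - 1) < δ w ∧ w.valuation K₂ (star y - 1) < δ w := by
  have h0 : om2 K' K₂ s T ≠ 0 := by
    intro h0
    have h1 := om2_sq hS h h₂ hk
    rw [h0, mul_zero] at h1
    exact (_root_.map_ne_zero (fk F L₂ K₂)).mpr ((_root_.map_ne_zero (algebraMap k F)).mpr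
      (mul_ne_zero a.ne_zero d.ne_zero)) h1.symm
  have hω : ∀ w : HeightOneSpectrum (𝓞 K₂), w.valuation K₂ (om2 K' K₂ s T) ≠ 0 := fun w =>
    (Valuation.ne_zero_iff _).mpr h0
  obtain ⟨γ, hγ0, hγ1, hγ⟩ := exists_lower_bd hU
    (fun w => min 1 (δ w) * (w.valuation K₂ (om2 K' K₂ s T))⁻¹) (fun w _ => by
      refine mul_ne_zero ?_ (inv_ne_zero (hω w))
      rcases min_choice 1 (δ w) with h | h <;> rw [h]
      · exact one_ne_zero
      · exact hδ w)
  refine ⟨fun _ => γ, fun _ => hγ0, fun κ₁ hκ y hy w hw => ?_⟩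
  obtain ⟨u, wF, hwu, huF, hlt⟩ := hκ w hw
  obtain ⟨e₁, he₁, h₁⟩ := val_above hwu
  obtain ⟨e₂, he₂, h₂'⟩ := val_above huF
  have hx : w.valuation K₂ (fk F L₂ K₂ κ₁ * om2 K' K₂ s T) < min 1 (δ w) := by
    have h3 : w.valuation K₂ (fk F L₂ K₂ κ₁) ≤ wF.valuation F κ₁ := by
      change w.valuation K₂ (algebraMap L₂ K₂ (algebraMap F L₂ κ₁)) ≤ _
      rw [h₁, h₂', ← pow_mul]
      exact pow_le_of_le_one zero_le (hlt.le.trans hγ1) (mul_ne_zero he₂ he₁)
    rw [map_mul]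
    have h4 : wF.valuation F κ₁ * w.valuation K₂ (om2 K' K₂ s T) < min 1 (δ w) := by
      have h5 := lt_of_lt_of_le hlt (hγ w hw)
      exact (lt_mul_inv_iff₀ (zero_lt_iff.mpr (hω w))).mp h5
    exact lt_of_le_of_lt (mul_le_mul_left h3 _) h4
  have h2 : w.valuation K₂ (2 : K₂) ≤ 1 := by
    have h3 : (2 : K₂) = algebraMap (𝓞 K₂) K₂ 2 := by rw [map_ofNat]
    rw [h3]
    exact w.valuation_le_one 2
  refine ⟨val_cay_sub_one _ h2 (lt_of_lt_of_le hx (min_le_left _ _))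
    (lt_of_lt_of_le hx (min_le_right _ _)) hy, ?_⟩
  have h3 := congrArg star hy
  rw [star_mul, star_sub, star_add, star_mul, star_one, star_om2 hS₂ h₂, star_fk hS₂] at h3
  refine val_cay_sub_one (x := -(fk F L₂ K₂ κ₁ * om2 K' K₂ s T)) _ h2 ?_ ?_ ?_
  · rw [Valuation.map_neg]
    exact lt_of_lt_of_le hx (min_le_left _ _)
  · rw [Valuation.map_neg]
    exact lt_of_lt_of_le hx (min_le_right _ _)
  · linear_combination h3

end Vale.Agent.P011.Pow
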