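import Vale.Agent.P011.Pow.MP
import Vale.Agent.P011.Pow.CentU
import Vale.Agent.P011.Pow.AvDiv
import Vale.Agent.P011.Pow.NS
import Vale.Agent.P011.Pow.IsCentN

/-!
The unitary elements of the double centralizer with given reduced norm.
-/

open Module NumberField IsDedekindDomain

set_option linter.unusedSectionVars false

namespace Vale.Agent.P011.Pow

open Vale.Agent.P011.Arith Vale.Agent.P011.Even Vale.Agent.P011.Two Vale.Agent.P011.One
open Vale.Agent.P011.W (HasNrd Spl)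

/-- The ramified places of the centralizer are above the ramified places. -/
theorem IsCent.ram_over {k K D L K' C : Type} [Field k] [NumberField k] [Field K] [NumberField K]
    [StarRing K] [DivisionRing D] [StarRing D] [Algebra k K] [Algebra k D] [Algebra K D]
    [IsScalarTower k K D] [Field L] [NumberField L] [Algebra k L] [Field K'] [StarRing K']
    [NumberField K'] [Algebra K K'] [DivisionRing C] [StarRing C] [Algebra L K'] [Algebra L C]
    [Algebra K' C] [IsScalarTower L K' C] {t : D} {a : kˣ} {T : L} {j : C →+* D} {d : kˣ} {s : K}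
    (h : IsCent k K D L K' C t a T j) (hS : Setting k K D d s) {m : ℕ}
    {w' : HeightOneSpectrum (𝓞 L)} (hw' : w' ∈ Ram L K' C m)
    {v : HeightOneSpectrum (𝓞 k)} (hv : Ab w' v) : v ∈ Ram k K D (2 * m) := by
  have := hS.cen
  obtain ⟨W, hW, hns⟩ := hw'
  obtain ⟨w, hw⟩ := exists_below (F := K) W
  have hwv : w.asIdeal.comap (algebraMap (𝓞 k) (𝓞 K)) = v.asIdeal := by
    rw [← hw, ← hv, ← hW, Ideal.comap_comap, Ideal.comap_comap]
    congr 1
    ext x
    exact h.comp x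
  by_contra hcon
  apply hns
  have h1 := spl_of_not_ram hcon hwv
    ((algebraMap K' (W.adicCompletion K')).comp (algebraMap K K'))
    (fun y hy => by
      rw [RingHom.comp_apply, norm_le_one_iff, valued_alg]
      exact (val_le_one_iff hw y).mpr hy)
    (fun y hy => by
      rw [RingHom.comp_apply, norm_lt_one_iff, valued_alg]
      exact (val_lt_one_iff hw y).mpr hy)
  have hT' : j (algebraMap K' C (algebraMap L K' T)) = t := by
    rw [← IsScalarTower.algebraMap_apply L K' C, h.jT]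
  have htt : t * t = algebraMap K D (algebraMap k K a) := by
    rw [h.sq, IsScalarTower.algebraMap_apply k K D]
  -- `t` is not central
  obtain ⟨y, hy⟩ : ∃ y : D, y * t ≠ t * y := by
    by_contra hcen
    push Not at hcen
    have h2 : t ∈ Subalgebra.center K D := by
      rw [Subalgebra.mem_center_iff]
      exact hcen
    rw [Algebra.IsCentral.center_eq_bot, Algebra.mem_bot] at h2
    obtain ⟨c, hc⟩ := h2
    have h3 : algebraMap K K' c = algebraMap L K' T := by
      apply (algebraMap K' C).injective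
      apply j.injective
      rw [h.jK, hT', hc]
    have h4 : (⊥ : Subalgebra K K') = ⊤ := by
      rw [eq_top_iff]
      intro l _
      obtain ⟨u, v', rfl⟩ := h.repK l
      rw [← h3, Algebra.mem_bot]
      exact ⟨u + v' * c, by rw [map_add, map_mul]⟩
    have h5 := Subalgebra.bot_eq_top_iff_finrank_eq_one.mp h4
    have h6 := h.rkK
    omega
  exact spl_cent htt ((_root_.map_ne_zero _).mpr a.ne_zero) hy h.repK j h.comm hT'
    (by rw [← map_mul, h.sqT, h.comp]) h.jK _ h1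

/-- The unitary elements of the double centralizer with given reduced norm close to one. -/
theorem exists_x2 {k K D L K' C F F' E L₂ K₂ C₂ : Type}
    [Field k] [NumberField k] [Field K] [NumberField K] [StarRing K] [DivisionRing D] [StarRing D]
    [Algebra k K] [Algebra k D] [Algebra K D] [IsScalarTower k K D]
    [Field L] [NumberField L] [Algebra k L] [Field K'] [NumberField K'] [StarRing K']
    [Algebra K K'] [DivisionRing C] [StarRing C] [Algebra L K'] [Algebra L C] [Algebra K' C]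
    [IsScalarTower L K' C]
    [Field F] [NumberField F] [Algebra k F] [Field F'] [NumberField F'] [StarRing F']
    [Algebra K F'] [DivisionRing E] [StarRing E] [Algebra F F'] [Algebra F E] [Algebra F' E]
    [IsScalarTower F F' E]
    [Field L₂] [NumberField L₂] [Algebra L L₂] [Field K₂] [NumberField K₂] [StarRing K₂]
    [Algebra K' K₂] [DivisionRing C₂] [StarRing C₂] [Algebra L₂ K₂] [Algebra L₂ C₂]
    [Algebra K₂ C₂] [IsScalarTower L₂ K₂ C₂] [Algebra F L₂] [Algebra F' K₂]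
    {d : kˣ} {s : K} {t : D} {a : kˣ} {T : L} {j : C →+* D} {s₁ : D} {b : kˣ} {S : F}
    {jE : E →+* D} {s₂ : C} {S₂ : L₂} {j₂ : C₂ →+* C} {tE : E} {i : C₂ →+* E}
    {l e : ℕ} (hl : l = 2 ^ e) (hl2 : 2 ≤ l) (hMP : MP (2 * l))
    (hS : Setting k K D d s) (hSC : Setting L K' C (inc k L d) (algebraMap K K' s))
    (hSE : Setting F F' E (inc k F d) (algebraMap K F' s))
    (hS₂ : Setting L₂ K₂ C₂ (inc L L₂ (inc k L d)) (algebraMap K' K₂ (algebraMap K K' s)))
    (hre : IsEmpty (K₂ →+* ℝ))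
    (h : IsCent k K D L K' C t a T j) (hE : IsCent k K D F F' E s₁ b S jE)
    (h₂ : IsCent L K' C L₂ K₂ C₂ s₂ (inc k L b) S₂ j₂)
    (h₃ : IsCent F F' E L₂ K₂ C₂ tE (inc k F a) (algebraMap L L₂ T) i)
    (hij : ∀ x, jE (i x) = j (j₂ x))
    (hk : ∀ c : k, algebraMap F L₂ (algebraMap k F c) = algebraMap L L₂ (algebraMap k L c))
    (hK : ∀ c : K, algebraMap F' K₂ (algebraMap K F' c) = algebraMap K' K₂ (algebraMap K K' c))
    (hdD : finrank K D = (2 * (2 * l)) ^ 2) (hdC : finrank K' C = (2 * l) ^ 2)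
    (hdE : finrank F' E = (2 * l) ^ 2) (hdC₂ : finrank K₂ C₂ = l ^ 2)
    {Ω : Type} [Field Ω] [Algebra K Ω]
    (f : D →ₐ[K] Matrix (Fin (2 * (2 * l))) (Fin (2 * (2 * l))) Ω)
    (N : Subgroup (SUD f)) [N.Normal] (hi : N.index ≠ 0)
    {M : ℕ} (B' : Basis (Fin M) L C) {ε : ℝ} (hε : 0 < ε) :
    ∃ (U : Set (HeightOneSpectrum (𝓞 K₂))) (δ : HeightOneSpectrum (𝓞 K₂) → Z0), U.Finite ∧
      (∀ w, δ w ≠ 0) ∧
      (∀ w ∈ U, ∃ (u : HeightOneSpectrum (𝓞 L₂)) (wF : HeightOneSpectrum (𝓞 F))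
        (v : HeightOneSpectrum (𝓞 k)), v ∈ Ram k K D (2 * (2 * l)) ∧ Ab w u ∧ Ab u wF ∧
          Ab wF v) ∧
      ∀ ν : K₂, ν * star ν = 1 → Algebra.norm F' ν = 1 →
        (∀ w ∈ U, w.valuation K₂ (ν - 1) < δ w ∧ w.valuation K₂ (star ν - 1) < δ w) →
        ∃ u : C₂, u * star u = 1 ∧ HasNrd K₂ l u ν ∧ j (j₂ u) ∈ Im N ∧
          ∀ w' : HeightOneSpectrum (𝓞 L), (Sum.inl w' : Pl L) ∈ Tdiv L K' C →
            nm B' (.inl w') (j₂ u - 1) < ε := by
  classical
  -- the setting over `F`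
  have hd₂ : inc F L₂ (inc k F d) = inc L L₂ (inc k L d) := Units.ext (hk d)
  have hS₃ : Setting L₂ K₂ C₂ (inc F L₂ (inc k F d)) (algebraMap F' K₂ (algebraMap K F' s)) := by
    rw [hd₂, hK]
    exact hS₂
  have i1 := hS.fin
  have i2 := hS.cen
  have i3 := hSE.fin
  have i4 := hSE.cen
  have i5 := hS₂.fin
  have i6 := hS₂.cen
  have i7 := hSE.fin_k
  have i8 := hS₂.fin_k
  -- the places
  let T₂ : Set (HeightOneSpectrum (𝓞 L₂)) := {u | (Sum.inl u : Pl L₂) ∈ Tdiv L₂ K₂ C₂}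
  have hT₂ : T₂.Finite := (tdiv_finite hl2 hdC₂).preimage Sum.inl_injective.injOn
  let U : Set (HeightOneSpectrum (𝓞 K₂)) := ⋃ u ∈ T₂, {w | Ab w u}
  have hU : U.Finite := hT₂.biUnion fun u _ => above_finite u
  have hmU : ∀ w, w ∈ U ↔ ∃ u ∈ T₂, Ab w u := by
    intro w
    simp only [U, Set.mem_iUnion, Set.mem_ofPred_eq, exists_prop]
  -- the trace of `N` on `E`
  obtain ⟨g⟩ := P011S.exists_split (K := F') (D := E) hdE (AlgebraicClosure F')
  obtain ⟨NE, hNEn, hNEi, hNE⟩ := hE.exists_trace f g rfl hdD hdE N hi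
  let BE := finBasis F E
  let B₂ := finBasis L₂ C₂
  obtain ⟨η, hη, hPF⟩ := hMP.tdiv hSE (by omega) hdE g BE NE hNEi
  choose η₁ hη₁ hη₁' using fun v : HeightOneSpectrum (𝓞 F) => h₃.near_up BE B₂ v (hη (Sum.inl v))
  choose ε₁ hε₁ hε₁' using fun v : HeightOneSpectrum (𝓞 L) => h₂.near_up B' B₂ v hε
  choose bF hbF using fun u : HeightOneSpectrum (𝓞 L₂) => exists_below (F := F) u
  choose bL hbL using fun u : HeightOneSpectrum (𝓞 L₂) => exists_below (F := L) u
  choose bU hbU using fun w : HeightOneSpectrum (𝓞 K₂) => exists_below (F := L₂) w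
  have hdn : ∀ u : HeightOneSpectrum (𝓞 L₂), ∃ γ : Z0, γ ≠ 0 ∧ (u ∈ T₂ →
      ∀ w : HeightOneSpectrum (𝓞 K₂), Ab w u → ∀ x : C₂, x * star x = 1 → ∀ ρ : K₂,
        HasNrd K₂ l (x - 1) ρ → w.valuation K₂ ρ < γ →
          nm B₂ (.inl u) (x - 1) < min (η₁ (bF u)) (ε₁ (bL u))) := by
    intro u
    by_cases hu : u ∈ T₂
    · obtain ⟨γ, h1, h2⟩ := dn_tdiv hS₂ hdC₂ hu B₂ (lt_min (hη₁ (bF u)) (hε₁ (bL u)))
      exact ⟨γ, h1, fun _ => h2⟩
    · exact ⟨1, one_ne_zero, fun h => absurd h hu⟩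
  choose γ hγ hγ' using hdn
  obtain ⟨δ, hδ, hnrd⟩ := nrd_near hS₂ (e := e) (by rw [hdC₂, hl]) U hU (fun w hw => by
    obtain ⟨u, hu, hwu⟩ := (hmU w).mp hw
    rw [← hl]
    exact ult_of_tdiv hS₂ hdC₂ hu hwu) (fun w => γ (bU w)) (fun w => hγ _)
  refine ⟨U, δ, hU, hδ, ?_, ?_⟩
  · intro w hw
    obtain ⟨u, hu, hwu⟩ := (hmU w).mp hw
    have h1 : (Sum.inl u : Pl L₂) ∈ Tdiv L₂ K₂ C₂ := hu
    obtain ⟨wF, hwF, hab, -⟩ := h₃.tdiv_over hSE hS₃ hl2 hdC₂ h1
    obtain ⟨v, hv⟩ := exists_below (F := k) wF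
    exact ⟨u, wF, v, hE.ram_over hS hwF hv, hwu, hab, hv⟩
  · intro ν hν hν1 hνU
    obtain ⟨u, z, hu, huν, huz, hz⟩ := hnrd ν hν (fun φ => (hre.false φ).elim) hνU
    rw [← hl] at huν huz
    have hnear : ∀ u' ∈ T₂, nm B₂ (.inl u') (u - 1) < min (η₁ (bF u')) (ε₁ (bL u')) := by
      intro u' hu'
      obtain ⟨w, hw⟩ := exists_above (E := K₂) u'
      have hwU : w ∈ U := (hmU w).mpr ⟨u', hu', hw⟩
      have h1 := hz w hwU
      have h2 : bU w = u' := Arith.below_unique (hbU w) hw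
      rw [h2] at h1
      exact hγ' u' hu' w hw u hu z huz h1
    refine ⟨u, hu, huν, ?_, ?_⟩
    · -- the element of `E`
      have h1 : i u ∈ GU g := by
        refine ⟨?_, ?_⟩
        · rw [← h₃.star, ← map_mul, hu, map_one]
        · have h2 := h₃.hasNrd rfl hdE hdC₂ huν
          rw [hν1] at h2
          rw [h2 _ g, map_one]
      have h2 : i u ∈ Im NE := by
        refine hPF _ h1 ?_
        rintro p ⟨v, rfl, hv⟩
        have hv' : (Sum.inl v : Pl F) ∈ Tdiv F F' E := ⟨v, rfl, hv⟩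
        have h3 : i u - 1 = i (u - 1) := by rw [map_sub, map_one]
        rw [h3]
        refine hη₁' v _ fun w hw => ?_
        have h4 := hnear w (h₃.tdiv_up hSE hS₃ hv' hw)
        have h5 : bF w = v := Arith.below_unique (hbF w) hw
        rw [h5] at h4
        exact h4.trans_le (min_le_left _ _)
      have h3 := ((hNE _).mp h2).2
      rwa [hij] at h3
    · intro w' hw'
      have h3 : j₂ u - 1 = j₂ (u - 1) := by rw [map_sub, map_one]
      rw [h3]
      refine hε₁' w' _ fun w hw => ?_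
      have h4 := hnear w (h₂.tdiv_up hSC hS₂ hw' hw)
      have h5 : bL w = w' := Arith.below_unique (hbL w) hw
      rw [h5] at h4
      exact h4.trans_le (min_le_right _ _)

end Vale.Agent.P011.Pow
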