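import Vale.Agent.P011.Pow.VnCore
import Vale.Agent.P011.Pow.X2
import Vale.Agent.P011.Pow.NearH
import Vale.Agent.P011.Pow.Numb
import Vale.Agent.P011.Pow.VnA
import Vale.Agent.P011.Pow.VnB

/-!
The elements of the centralizer of a symmetric square root, in the induction step.
-/

open Module NumberField IsDedekindDomain

set_option linter.unusedSectionVars false

namespace Vale.Agent.P011.Pow

open Vale.Agent.P011.Arith Vale.Agent.P011.Even Vale.Agent.P011.Two Vale.Agent.P011.One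
open Vale.Agent.P011.W (HasNrd)

section aux

variable {k K D L K' C : Type}
    [Field k] [NumberField k] [Field K] [NumberField K] [StarRing K] [DivisionRing D] [StarRing D]
    [Algebra k K] [Algebra k D] [Algebra K D] [IsScalarTower k K D]
    [Field L] [NumberField L] [Algebra k L] [Field K'] [NumberField K'] [StarRing K']
    [Algebra K K'] [DivisionRing C] [StarRing C] [Algebra L K'] [Algebra L C] [Algebra K' C]
    [IsScalarTower L K' C]
    {d : kˣ} {s : K} {t : D} {a : kˣ} {T : L} {j : C →+* D}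

/-- Two unitary elements with the same reduced norm differ by an element of the special unitary
group. -/
theorem mem_GU_of_nrd (hS : Setting k K D d s)
    (h : IsCent k K D L K' C t a T j) {m : ℕ} {Ω : Type} [Field Ω] [Algebra K' Ω]
    (g : C →ₐ[K'] Matrix (Fin m) (Fin m) Ω) {x X : C} {p u : k} (hx : x * star x = 1)
    (hX : X * star X = 1) (hxn : HasNrd K' m x (kk k K K' p + kk k K K' u * om K' s T))
    (hXn : HasNrd K' m X (kk k K K' p + kk k K K' u * om K' s T))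
    (hpu : p ^ 2 - (a * d : k) * u ^ 2 = 1) : x * X⁻¹ ∈ GU g := by
  have hX0 : X ≠ 0 := left_ne_zero_of_mul_eq_one hX
  have hXi : X⁻¹ = star X := (eq_inv_of_mul_eq_one_right hX).symm
  have hsX : star X * X = 1 := by rw [← hXi, inv_mul_cancel₀ hX0]
  have hν : kk k K K' p + kk k K K' u * om K' s T ≠ 0 := by
    intro h0
    have e1 := om_sq hS h
    have e2 : (kk k K K' p + kk k K K' u * om K' s T) *
        (kk k K K' p - kk k K K' u * om K' s T) = 1 := by
      have e3 : kk k K K' (p ^ 2 - (a * d : k) * u ^ 2) = 1 := by rw [hpu, map_one]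
      rw [map_sub, map_mul, map_pow, map_pow] at e3
      linear_combination e3 - (kk k K K' u) ^ 2 * e1
    rw [h0, zero_mul] at e2
    exact zero_ne_one e2
  refine ⟨?_, ?_⟩
  · rw [hXi, star_mul, star_star, mul_assoc, ← mul_assoc (star X), hsX, one_mul, hx]
  · have h1 := (hxn.mul (hXn.inv hX0)) Ω g
    rw [mul_inv_cancel₀ hν, map_one] at h1
    exact h1

end aux

/-- **The elements of the centralizer close to one.** -/
theorem ab_pow {k K D : Type}
    [Field k] [NumberField k] [Field K] [NumberField K] [StarRing K] [DivisionRing D] [StarRing D]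
    [Algebra k K] [Algebra k D] [Algebra K D] [IsScalarTower k K D] {d : kˣ} {s : K}
    {l e : ℕ} (hl : l = 2 ^ e) (hl2 : 2 ≤ l) (hMP : MP (2 * l)) (hS : Setting k K D d s)
    (hdeg : finrank K D = (2 * (2 * l)) ^ 2) {a : kˣ} {t : D} (ht : t ∈ Xa D a)
    (ha : ¬ IsSquare (a : k)) (had : ¬ IsSquare ((a * d : kˣ) : k))
    (_haR : ∀ v ∈ Ram k K D (2 * (2 * l)), a ∉ LS (v.valuation k))
    (hre : ∀ φ : k →+* ℝ, 0 < φ d → φ a < 0) {Ω : Type} [Field Ω] [Algebra K Ω]
    (f : D →ₐ[K] Matrix (Fin (2 * (2 * l))) (Fin (2 * (2 * l))) Ω) {M : ℕ}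
    (B : Basis (Fin M) k D) (N : Subgroup (SUD f)) [N.Normal] (hi : N.index ≠ 0) :
    AbAt B f (Im N) t := by
  classical
  have i1 := hS.fin
  have i2 := hS.cen
  have hKc : CharZero K := charZero_of_injective_algebraMap (algebraMap k K).injective
  -- the centralizer of `t`
  obtain ⟨L, _, _, _, K', _, _, _, _, C, _, _, _, _, _, _, T, j, hSC, hdC, h⟩ :=
    exists_isCent hS ha had (m := 2 * l) hdeg ht
  have i3 := hSC.fin
  have i4 := hSC.cen
  have i5 := hSC.fin_k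
  have hK'c : CharZero K' := charZero_of_injective_algebraMap (algebraMap K K').injective
  obtain ⟨g⟩ := Vale.Agent.P011S.exists_split (K := K') (D := C) hdC (AlgebraicClosure K')
  obtain ⟨N', hN'n, hN'i, hN'⟩ := h.exists_trace f g rfl hdeg hdC N hi
  obtain ⟨B', -⟩ : ∃ B' : Basis (Fin (finrank L C)) L C, B' = B' := ⟨finBasis L C, rfl⟩
  obtain ⟨η', hη', hPF⟩ := hMP.tdiv hSC (by omega) hdC g B' N' hN'i
  have hTf : {w' : HeightOneSpectrum (𝓞 L) | (Sum.inl w' : Pl L) ∈ Tdiv L K' C}.Finite :=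
    (tdiv_finite (by omega) hdC).preimage Sum.inl_injective.injOn
  choose ε₁ hε₁ hprod using fun w' : HeightOneSpectrum (𝓞 L) =>
    near_prod B' (.inl w' : Pl L) N.index (hη' (.inl w'))
  obtain ⟨ε, hε, hεle⟩ := exists_le_all hTf.toFinset ε₁ hε₁
  have hεle' : ∀ w' : HeightOneSpectrum (𝓞 L), (Sum.inl w' : Pl L) ∈ Tdiv L K' C →
      ε ≤ ε₁ w' := fun w' hw' => hεle w' (hTf.mem_toFinset.mpr hw')
  -- the places
  obtain ⟨N0, hN0f, hN0R, hs₂⟩ := exists_s2 hS hSC h hl hl2 hdeg hdC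
  have hRam : (Ram k K D (2 * (2 * l))).Finite := ram_finite (by omega) hdeg
  obtain ⟨v₀, hv₀⟩ := exists_out (hRam.union hN0f)
  rw [Set.mem_union, not_or] at hv₀
  obtain ⟨R, hR⟩ : ∃ R, R = Ram k K D (2 * (2 * l)) ∪ {v₀} := ⟨_, rfl⟩
  have hRR : ∀ v ∈ Ram k K D (2 * (2 * l)), v ∈ R := fun v hv => by
    rw [hR]
    exact Or.inl hv
  have hv₀R : v₀ ∈ R := by
    rw [hR]
    exact Or.inr rfl
  have hRf : R.Finite := by
    rw [hR]
    exact hRam.union (Set.finite_singleton v₀)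
  have hRN : Disjoint R N0 := by
    rw [Set.disjoint_left]
    intro v hv hvN
    rw [hR] at hv
    rcases hv with hv | hv
    · exact Set.disjoint_left.mp hN0R hvN hv
    · rw [Set.mem_singleton_iff] at hv
      exact hv₀.2 (hv ▸ hvN)
  obtain ⟨S1, lv, hS1f, hRS1, hnum⟩ := exists_numbers a d ha hRf hN0f hRN
  -- the constants for the first factor
  have hγ1 : ∀ (w' : HeightOneSpectrum (𝓞 L)) (v : HeightOneSpectrum (𝓞 k)), ∃ γ : Z0, γ ≠ 0 ∧
      ((Sum.inl w' : Pl L) ∈ Tdiv L K' C → Ab w' v →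
      ∀ (F : Type) [Field F] [NumberField F] [Algebra k F] (ψ : F →+* C), finrank k F = 2 →
      (∀ c : k, ψ (algebraMap k F c) = algebraMap L C (algebraMap k L c)) →
      ∀ r : F, (∀ w : HeightOneSpectrum (𝓞 F), Ab w v → w.valuation F r < γ) →
      ∀ z : C, z * star z = 1 →
        z * (1 - ψ r * algebraMap K' C (om K' s T)) = 1 + ψ r * algebraMap K' C (om K' s T) →
        nm B' (.inl w') (z - 1) < ε) := by
    intro w' v
    by_cases hw' : (Sum.inl w' : Pl L) ∈ Tdiv L K' C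
    · by_cases hv : Ab w' v
      · obtain ⟨γ, h1, h2⟩ := near_h hSC hdC hw' hv B' (om K' s T) hε
        exact ⟨γ, h1, fun _ _ => h2⟩
      · exact ⟨1, one_ne_zero, fun _ h => absurd h hv⟩
    · exact ⟨1, one_ne_zero, fun h => absurd h hw'⟩
  choose γ₁ hγ₁ hγ₁' using hγ1
  choose γ hγ0 hγle using fun v => exists_min hTf (fun w' => γ₁ w' v) (fun w' => hγ₁ w' v)
  -- the thresholds
  have hM0 : 0 < N.index * l := Nat.mul_pos (Nat.pos_of_ne_zero hi) (by omega)
  choose εκ hεκ hthr using fun v => thr v (a * d) (lv v) hM0 (hγ0 v)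
  have hβ : ∀ v : HeightOneSpectrum (𝓞 k), ∃ β : Z0, β ≠ 0 ∧ β ≤ v.valuation k 2 ∧
      β ≤ v.valuation k 2 * εκ v := by
    intro v
    have h2 : v.valuation k (2 : k) ≠ 0 := (Valuation.ne_zero_iff _).mpr two_ne_zero
    refine ⟨min (v.valuation k 2) (v.valuation k 2 * εκ v), ?_, min_le_left _ _, min_le_right _ _⟩
    rcases min_choice (v.valuation k 2) (v.valuation k 2 * εκ v) with h | h <;> rw [h]
    · exact h2
    · exact mul_ne_zero h2 (hεκ v)
  choose β hβ0 hβ1 hβ2 using hβ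
  choose η₁ hη₁ hpu using fun v => pu_near hS hSC h hdC B v (hβ0 v)
  choose η₂ hη₂ hdown using fun v => h.near_down B B' v (ε := fun _ => ε) (fun _ => hε)
  refine ⟨S1, hS1f, fun v => min (η₁ v) (η₂ v), fun v => lt_min (hη₁ v) (hη₂ v), ?_⟩
  intro e₁ het hestar hedet hnear
  obtain ⟨x, rfl⟩ := (h.range e₁).mp het
  have hx1 : x * star x = 1 := by
    apply h.inj
    rw [map_mul, h.star, map_one]
    exact mul_eq_one_comm.mp hestar
  obtain ⟨p, u, hpux, hpu1⟩ := exists_pu hS hSC h rfl hdeg hdC f hx1 hedet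
  have hv1 : ∀ v ∈ S1, 1 + p ≠ 0 ∧ v.valuation k (u / (1 + p)) < εκ v := fun v hv => by
    obtain ⟨h1, h2⟩ := hpu v x p u hpux ((hnear v hv).trans_le (min_le_left _ _))
    exact kappa_small v (h1.trans_le (hβ1 v)) (h2.trans_le (hβ2 v))
  have hp0 : 1 + p ≠ 0 := (hv1 v₀ (hRS1 hv₀R)).1
  obtain ⟨κ, hκ⟩ : ∃ κ, κ = u / (1 + p) := ⟨_, rfl⟩
  rw [← hκ] at hv1
  obtain ⟨y, b, hy, hb, hbR, hbN, hbre, hbL, hbF⟩ := hnum κ fun v hv =>
    (hthr v κ (hv1 v hv).2).1
  -- the second square root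
  obtain ⟨hbns, hbdns⟩ := hbL L T h.rkL h.sqT
  obtain ⟨s₂, hs₂⟩ := hs₂ b hbns hbdns (fun φ => (hbre φ).1) hbN fun v hv => hbR v (hRR v hv)
  obtain ⟨L₂, _, _, _, K₂, _, _, _, _, C₂, _, _, _, _, _, _, S₂, j₂, hS₂, hdC₂, h₂⟩ :=
    exists_isCent hSC (a := inc k L b) hbns (by
      rw [← map_mul]
      exact hbdns) (m := l) hdC hs₂
  have hs₁ : j s₂ ∈ Xa D b := by
    refine ⟨by rw [← h.star, hs₂.1], ?_⟩
    rw [← map_mul, hs₂.2]
    exact h.jk b
  have hbk : ¬ IsSquare (b : k) := fun h0 => hbns (h0.map (algebraMap k L))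
  have hbdk : ¬ IsSquare ((b * d : kˣ) : k) := fun h0 => hbdns (h0.map (algebraMap k L))
  obtain ⟨F, _, _, _, F', _, _, _, _, E, _, _, _, _, _, _, S, jE, hSE, hdE, hE⟩ :=
    exists_isCent hS hbk hbdk (m := 2 * l) hdeg hs₁
  obtain ⟨_, _, tE, i, htE, hij, hk, hK, hSS, h₃⟩ := h.lift hE rfl h₂
  have hre' : IsEmpty (K₂ →+* ℝ) := by
    refine ⟨fun φ => ?_⟩
    have h1 : 0 < (φ.comp ((algebraMap K' K₂).comp ((algebraMap K K').comp (algebraMap k K))))
        d := by
      have h2 : (φ.comp ((algebraMap K' K₂).comp ((algebraMap K K').comp (algebraMap k K)))) d =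
          φ (algebraMap K' K₂ (algebraMap K K' s)) ^ 2 := by
        simp only [RingHom.comp_apply]
        rw [← hS.sq, map_pow, map_pow, map_pow]
      rw [h2]
      refine lt_of_le_of_ne (sq_nonneg _) (Ne.symm (pow_ne_zero 2 ?_))
      exact (_root_.map_ne_zero φ).mpr ((_root_.map_ne_zero _).mpr
        ((_root_.map_ne_zero _).mpr hS.s_ne))
    have h3 := hre _ h1
    have h4 : (φ.comp ((algebraMap K' K₂).comp ((algebraMap K K').comp (algebraMap k K)))) a =
        φ (algebraMap K' K₂ (algebraMap L K' T)) ^ 2 := by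
      simp only [RingHom.comp_apply]
      rw [h.comp, ← h.sqT, map_mul, map_mul, map_mul, sq]
    rw [h4] at h3
    exact absurd h3 (not_lt.mpr (sq_nonneg _))
  -- the element of the same reduced norm
  obtain ⟨z, u₂, hz, hu₂, hX, hXN, hXn⟩ := vn_core (by omega) hS hSC hSE hS₂ h hE h₂ h₃ hij hk hK
    hSS hdeg hdC hdE hdC₂ f N hi B' (ε := ε) hRf ⟨v₀, hv₀R⟩ (γ := γ)
    (by
      intro w' hw'
      obtain ⟨v, hv, hwv, -⟩ := h.tdiv_over hS hSC (by omega) hdC hw'
      refine ⟨v, hRR v hv, fun r hr z hz1 hz2 => ?_⟩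
      exact hγ₁' w' v hw' hwv F ((j₂.comp (algebraMap L₂ C₂)).comp (algebraMap F L₂)) hE.rkL
        (fun c => by
          change j₂ (algebraMap L₂ C₂ (algebraMap F L₂ (algebraMap k F c))) = _
          rw [hk, h₂.jk]) r (fun w hw => (hr w hw).trans_le (hγle v w' hw')) z hz1 hz2)
    (by
      obtain ⟨U, δ, hU, hδ, hUR, hx2⟩ := exists_x2 hl hl2 hMP hS hSC hSE hS₂ hre' h hE h₂ h₃ hij
        hk hK hdeg hdC hdE hdC₂ f N hi B' hε
      obtain ⟨εF, hεF, hy2⟩ := small_y2 (F := F) hS hS₂ h h₂ hk hU δ hδ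
      refine ⟨εF, hεF, fun κ₁ hκ₁ y hy1 hy2' hy3 => hx2 y hy1 hy2' (hy2 κ₁ (fun w hw => ?_) y
        hy3)⟩
      obtain ⟨u, wF, v, hv, g1, g2, g3⟩ := hUR w hw
      exact ⟨u, wF, g1, g2, hκ₁ v (hRR v hv) wF g3⟩)
    hy hb hp0 hκ hpu1
    (by
      obtain ⟨w, hw⟩ := Arith.exists_above (E := F) v₀
      exact (hbF v₀ hv₀R F S hE.sqT w hw).1)
    (fun v hv w hw => (hthr v κ (hv1 v (hRS1 hv)).2).2 F w hw _
      (hbF v hv F S hE.sqT w hw).2)
  have hXX : (z ^ N.index * u₂) * star (z ^ N.index * u₂) = 1 := by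
    have h1 : ∀ n : ℕ, z ^ n * star (z ^ n) = 1 := by
      intro n
      induction n with
      | zero => rw [pow_zero, star_one, mul_one]
      | succ n ih =>
        rw [pow_succ, star_mul, mul_assoc, ← mul_assoc z, hz, one_mul, ih]
    rw [star_mul, mul_assoc, ← mul_assoc u₂, hu₂, one_mul, h1]
  have hX0 : z ^ N.index * u₂ ≠ 0 := left_ne_zero_of_mul_eq_one hXX
  have hQ := mem_GU_of_nrd hS h g hx1 hXX hpux hX hpu1
  have hQN : x * (z ^ N.index * u₂)⁻¹ ∈ Im N' := by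
    refine hPF _ hQ fun q hq => ?_
    obtain ⟨w', rfl, -⟩ := id hq
    obtain ⟨h1, h2⟩ := hXn w' hq
    refine hprod w' x z u₂ ?_ (h1.trans_le (hεle' w' hq)) (h2.trans_le (hεle' w' hq))
    obtain ⟨v, hv, hwv, -⟩ := h.tdiv_over hS hSC (by omega) hdC hq
    refine (hdown v (x - 1) ?_ w' hwv).trans_le (hεle' w' hq)
    rw [map_sub, map_one]
    exact (hnear v (hRS1 (hRR v hv))).trans_le (min_le_right _ _)
  have h1 := ((hN' _).mp hQN).2
  have h2 : j x = j (x * (z ^ N.index * u₂)⁻¹) * j (z ^ N.index * u₂) := by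
    rw [← map_mul, inv_mul_cancel_right₀ hX0]
  rw [h2]
  exact mul_im h1 hXN

end Vale.Agent.P011.Pow
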