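import Vale.Agent.P011.Pow.Kappa
import Vale.Agent.P011.Pow.Root
import Vale.Agent.P011.W.Nrd

/-!
The identities in the biquadratic field.
-/

open Module NumberField IsDedekindDomain

set_option linter.unusedSectionVars false

namespace Vale.Agent.P011.Pow

open Vale.Agent.P011.Arith Vale.Agent.P011.Even Vale.Agent.P011.Two Vale.Agent.P011.One
open Vale.Agent.P011.W (HasNrd)

variable {k K D L K' C F F' E L₂ K₂ C₂ : Type}
    [Field k] [NumberField k] [Field K] [NumberField K] [StarRing K] [DivisionRing D] [StarRing D]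
    [Algebra k K] [Algebra k D] [Algebra K D] [IsScalarTower k K D]
    [Field L] [NumberField L] [Algebra k L] [Field K'] [NumberField K'] [StarRing K']
    [Algebra K K'] [DivisionRing C] [StarRing C] [Algebra L K'] [Algebra L C] [Algebra K' C]
    [IsScalarTower L K' C]
    [Field F] [NumberField F] [Algebra k F] [Field F'] [NumberField F'] [StarRing F']
    [Algebra K F'] [DivisionRing E] [StarRing E] [Algebra F F'] [Algebra F E] [Algebra F' E]
    [IsScalarTower F F' E]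
    [Field L₂] [NumberField L₂] [Algebra L L₂] [Field K₂] [NumberField K₂] [StarRing K₂]
    [Algebra K' K₂] [DivisionRing C₂] [StarRing C₂] [Algebra L₂ K₂] [Algebra L₂ C₂]
    [Algebra K₂ C₂] [IsScalarTower L₂ K₂ C₂] [Algebra F L₂] [Algebra F' K₂]
    {d : kˣ} {s : K} {t : D} {a : kˣ} {T : L} {j : C →+* D} {s₁ : D} {b : kˣ} {S : F}
    {jE : E →+* D} {s₂ : C} {S₂ : L₂} {j₂ : C₂ →+* C} {tE : E} {i : C₂ →+* E}

/-- The inclusion of `k(s')` in the biquadratic extension. -/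
def fk (F L₂ K₂ : Type) [Field F] [Field L₂] [Field K₂] [Algebra F L₂] [Algebra L₂ K₂] :
    F →+* K₂ := (algebraMap L₂ K₂).comp (algebraMap F L₂)

/-- The element `ω` of the biquadratic extension. -/
def om2 (K' K₂ : Type) [Field K'] [Field K₂] [Algebra K K'] [Algebra L K'] [Algebra K' K₂]
    (s : K) (T : L) : K₂ := algebraMap K' K₂ (om K' s T)

theorem om2_sq (hS : Setting k K D d s) (h : IsCent k K D L K' C t a T j)
    (h₂ : IsCent L K' C L₂ K₂ C₂ s₂ (inc k L b) S₂ j₂)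
    (hk : ∀ c : k, algebraMap F L₂ (algebraMap k F c) = algebraMap L L₂ (algebraMap k L c)) :
    om2 K' K₂ s T * om2 K' K₂ s T = fk F L₂ K₂ (algebraMap k F (a * d)) := by
  rw [om2, ← map_mul, om_sq hS h]
  change algebraMap K' K₂ (algebraMap K K' (algebraMap k K _)) = algebraMap L₂ K₂ _
  rw [h.comp, h₂.comp, hk]

theorem star_om2 (hS₂ : Setting L₂ K₂ C₂ (inc L L₂ (inc k L d)) (algebraMap K' K₂ (algebraMap K K' s)))
    (h₂ : IsCent L K' C L₂ K₂ C₂ s₂ (inc k L b) S₂ j₂) :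
    star (om2 K' K₂ s T) = -om2 K' K₂ s T := by
  have h1 : om2 K' K₂ s T = algebraMap K' K₂ (algebraMap K K' s) *
      algebraMap L₂ K₂ (algebraMap L L₂ T) := by
    rw [om2, om, map_mul, ← h₂.comp]
  rw [h1, star_mul, hS₂.star_s, (hS₂.fix _).mpr ⟨_, rfl⟩]
  ring

theorem star_fk (hS₂ : Setting L₂ K₂ C₂ (inc L L₂ (inc k L d)) (algebraMap K' K₂ (algebraMap K K' s)))
    (x : F) : star (fk F L₂ K₂ x) = fk F L₂ K₂ x := (hS₂.fix _).mpr ⟨_, rfl⟩

/-- Norms to `K(s')`. -/
theorem norm_one_sub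
    (h₂ : IsCent L K' C L₂ K₂ C₂ s₂ (inc k L b) S₂ j₂)
    (h₃ : IsCent F F' E L₂ K₂ C₂ tE (inc k F a) (algebraMap L L₂ T) i)
    (hS : Setting k K D d s) (hE : IsCent k K D F F' E s₁ b S jE)
    (hK : ∀ c : K, algebraMap F' K₂ (algebraMap K F' c) = algebraMap K' K₂ (algebraMap K K' c))
    (x : F) :
    Algebra.norm F' (1 + fk F L₂ K₂ x * om2 K' K₂ s T) =
      algebraMap F F' (1 - algebraMap k F (a * d) * x ^ 2) := by
  have hT : algebraMap L₂ K₂ (algebraMap L L₂ T) * algebraMap L₂ K₂ (algebraMap L L₂ T) =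
      algebraMap F' K₂ (algebraMap F F' (algebraMap k F a)) := by
    rw [← map_mul, h₃.sqT, h₃.comp]
    rfl
  have hs : algebraMap K F' s * algebraMap K F' s = algebraMap F F' (algebraMap k F d) := by
    rw [← map_mul, ← pow_two, hS.sq, hE.comp]
  have e1 : (1 : K₂) + fk F L₂ K₂ x * om2 K' K₂ s T = algebraMap F' K₂ 1 +
      algebraMap F' K₂ (algebraMap F F' x * algebraMap K F' s) *
        algebraMap L₂ K₂ (algebraMap L L₂ T) := by
    rw [map_one, map_mul, om2, om, map_mul, hK, h₃.comp, h₂.comp, fk, RingHom.comp_apply]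
    ring
  rw [e1, norm_quad h₃.rkK hT h₃.repK, map_sub, map_one, map_mul, map_pow, map_mul, map_mul, ← hs]
  ring

/-- Norms to `K(t)`. -/
theorem norm_key (hS : Setting k K D d s) (h : IsCent k K D L K' C t a T j)
    (h₂ : IsCent L K' C L₂ K₂ C₂ s₂ (inc k L b) S₂ j₂) {y κ : k}
    (hb : (b : k) = 1 - 2 * y + a * d * y ^ 2 * κ ^ 2) :
    Algebra.norm K' (algebraMap K' K₂ (1 + kk k K K' (y * κ) * om K' s T) +
      algebraMap L₂ K₂ S₂) = kk k K K' (2 * y) * (1 + kk k K K' κ * om K' s T) := by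
  have hT : algebraMap L₂ K₂ S₂ * algebraMap L₂ K₂ S₂ =
      algebraMap K' K₂ (kk k K K' b) := by
    rw [← map_mul, h₂.sqT]
    change _ = algebraMap K' K₂ (algebraMap K K' (algebraMap k K b))
    rw [h.comp, h₂.comp]
    rfl
  have e1 : algebraMap K' K₂ (1 + kk k K K' (y * κ) * om K' s T) + algebraMap L₂ K₂ S₂ =
      algebraMap K' K₂ (1 + kk k K K' (y * κ) * om K' s T) + algebraMap K' K₂ 1 *
        algebraMap L₂ K₂ S₂ := by
    rw [map_one, one_mul]
  have e2 := om_sq hS h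
  rw [e1, norm_quad h₂.rkK hT h₂.repK, hb]
  simp only [map_add, map_sub, map_mul, map_pow, map_one, map_ofNat] at e2 ⊢
  linear_combination (kk k K K' y) ^ 2 * (kk k K K' κ) ^ 2 * e2

section cayley

variable (hS : Setting k K D d s)
    (hS₂ : Setting L₂ K₂ C₂ (inc L L₂ (inc k L d)) (algebraMap K' K₂ (algebraMap K K' s)))
    (h : IsCent k K D L K' C t a T j) (hE : IsCent k K D F F' E s₁ b S jE)
    (h₂ : IsCent L K' C L₂ K₂ C₂ s₂ (inc k L b) S₂ j₂)
    (h₃ : IsCent F F' E L₂ K₂ C₂ tE (inc k F a) (algebraMap L L₂ T) i)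
    (hk : ∀ c : k, algebraMap F L₂ (algebraMap k F c) = algebraMap L L₂ (algebraMap k L c))
    (hK : ∀ c : K, algebraMap F' K₂ (algebraMap K F' c) = algebraMap K' K₂ (algebraMap K K' c))

include hS h h₂ hk in
theorem cay_den {x : F} (hx : 1 - algebraMap k F (a * d) * x ^ 2 ≠ 0) :
    1 - fk F L₂ K₂ x * om2 K' K₂ s T ≠ 0 ∧ 1 + fk F L₂ K₂ x * om2 K' K₂ s T ≠ 0 := by
  have h1 : (1 - fk F L₂ K₂ x * om2 K' K₂ s T) * (1 + fk F L₂ K₂ x * om2 K' K₂ s T) =
      fk F L₂ K₂ (1 - algebraMap k F (a * d) * x ^ 2) := by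
    have e2 := om2_sq (F := F) hS h h₂ hk
    rw [map_sub, map_one, map_mul, map_pow]
    linear_combination -(fk F L₂ K₂ x) ^ 2 * e2
  have h2 : fk F L₂ K₂ (1 - algebraMap k F (a * d) * x ^ 2) ≠ 0 := (_root_.map_ne_zero _).mpr hx
  rw [← h1] at h2
  exact ⟨left_ne_zero_of_mul h2, right_ne_zero_of_mul h2⟩

include hS hS₂ h h₂ hk in
/-- Elements of the torus are unitary. -/
theorem cay_star {x : F} (hx : 1 - algebraMap k F (a * d) * x ^ 2 ≠ 0) {z : K₂}
    (hz : z * (1 - fk F L₂ K₂ x * om2 K' K₂ s T) = 1 + fk F L₂ K₂ x * om2 K' K₂ s T) :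
    z * star z = 1 := by
  obtain ⟨h1, h2⟩ := cay_den (F := F) hS h h₂ hk hx
  have h3 := congrArg star hz
  rw [star_mul, star_sub, star_add, star_mul, star_one, star_om2 hS₂ h₂, star_fk hS₂] at h3
  apply mul_left_cancel₀ (mul_ne_zero h1 h2)
  linear_combination (1 + fk F L₂ K₂ x * om2 K' K₂ s T) * star z * hz +
    (1 + fk F L₂ K₂ x * om2 K' K₂ s T) * h3

include hS h hE h₂ h₃ hk hK in
/-- Elements of the torus have norm one over `K(s')`. -/
theorem cay_norm {x : F} (hx : 1 - algebraMap k F (a * d) * x ^ 2 ≠ 0) {z : K₂}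
    (hz : z * (1 - fk F L₂ K₂ x * om2 K' K₂ s T) = 1 + fk F L₂ K₂ x * om2 K' K₂ s T) :
    Algebra.norm F' z = 1 := by
  have e1 := norm_one_sub (K' := K') h₂ h₃ hS hE hK x
  have e2 := norm_one_sub (K' := K') h₂ h₃ hS hE hK (-x)
  rw [map_neg, neg_mul, ← sub_eq_add_neg, neg_sq] at e2
  have h3 := congrArg (Algebra.norm F') hz
  rw [map_mul, e1, e2] at h3
  have h4 : algebraMap F F' (1 - algebraMap k F (a * d) * x ^ 2) ≠ 0 :=
    (_root_.map_ne_zero _).mpr hx
  exact mul_right_cancel₀ h4 (h3.trans (one_mul _).symm)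

include hS h h₂ in
/-- The norm over `K(t)` of the base element. -/
theorem norm_base {y κ : k} (hy : y ≠ 0)
    (hb : (b : k) = 1 - 2 * y + a * d * y ^ 2 * κ ^ 2) (hS' : algebraMap F L₂ S = S₂)
    (hk : ∀ c : k, algebraMap F L₂ (algebraMap k F c) = algebraMap L L₂ (algebraMap k L c))
    (hS1 : 1 + S ≠ 0) {x0 : K₂}
    (hx0 : x0 * (1 - fk F L₂ K₂ (algebraMap k F (y * κ) / (1 + S)) * om2 K' K₂ s T) =
      1 + fk F L₂ K₂ (algebraMap k F (y * κ) / (1 + S)) * om2 K' K₂ s T) {p u : k}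
    (hp : 1 + p ≠ 0) (hκ : κ = u / (1 + p)) (hpu : p ^ 2 - (a * d : k) * u ^ 2 = 1) :
    Algebra.norm K' x0 = kk k K K' p + kk k K K' u * om K' s T := by
  have hf : fk F L₂ K₂ (1 + S) ≠ 0 := (_root_.map_ne_zero _).mpr hS1
  have e1 : fk F L₂ K₂ (algebraMap k F (y * κ)) = algebraMap K' K₂ (kk k K K' (y * κ)) := by
    change algebraMap L₂ K₂ (algebraMap F L₂ (algebraMap k F (y * κ))) =
      algebraMap K' K₂ (algebraMap K K' (algebraMap k K (y * κ)))
    rw [h.comp, h₂.comp, hk]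
  have e2 : fk F L₂ K₂ (1 + S) = 1 + algebraMap L₂ K₂ S₂ := by
    rw [map_add, map_one, ← hS']
    rfl
  have h1 : x0 * (algebraMap K' K₂ (1 + kk k K K' (y * -κ) * om K' s T) + algebraMap L₂ K₂ S₂) =
      algebraMap K' K₂ (1 + kk k K K' (y * κ) * om K' s T) + algebraMap L₂ K₂ S₂ := by
    rw [map_div₀] at hx0
    have h2 : x0 * (fk F L₂ K₂ (1 + S) - fk F L₂ K₂ (algebraMap k F (y * κ)) * om2 K' K₂ s T) =
        fk F L₂ K₂ (1 + S) + fk F L₂ K₂ (algebraMap k F (y * κ)) * om2 K' K₂ s T := by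
      field_simp at hx0
      linear_combination hx0
    rw [e1, e2, om2, ← map_mul] at h2
    rw [map_add, map_add, map_one, mul_neg, map_neg, neg_mul, map_neg]
    linear_combination h2
  have h2 := congrArg (Algebra.norm K') h1
  rw [map_mul, norm_key hS h h₂ hb, norm_key hS h h₂ (y := y) (κ := -κ) (by rw [hb]; ring)] at h2
  have hy' : kk k K K' (2 * y) ≠ 0 := (_root_.map_ne_zero _).mpr (mul_ne_zero two_ne_zero hy)
  have h3 : Algebra.norm K' x0 * (1 + kk k K K' (-κ) * om K' s T) =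
      1 + kk k K K' κ * om K' s T := by
    apply mul_left_cancel₀ hy'
    linear_combination h2
  -- the Cayley form of the reduced norm
  have e3 := om_sq hS h
  have h4 : kk k K K' κ * (1 + kk k K K' p) = kk k K K' u := by
    rw [hκ, ← map_one (kk k K K'), ← map_add, ← map_mul, div_mul_cancel₀ _ hp]
  have h5 : (kk k K K' p) ^ 2 - kk k K K' (a * d) * (kk k K K' u) ^ 2 = 1 := by
    rw [← map_pow, ← map_pow, ← map_mul, ← map_sub, ← map_one (kk k K K'), hpu]
  have hp' : 1 + kk k K K' p ≠ 0 := by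
    rw [← map_one (kk k K K'), ← map_add]
    exact (_root_.map_ne_zero _).mpr hp
  have h6 : (kk k K K' p + kk k K K' u * om K' s T) * (1 + kk k K K' (-κ) * om K' s T) =
      1 + kk k K K' κ * om K' s T := by
    apply mul_left_cancel₀ hp'
    rw [map_neg]
    linear_combination (-(kk k K K' p + kk k K K' u * om K' s T) * om K' s T - om K' s T) * h4 -
      (kk k K K' u) ^ 2 * e3 + h5
  have h7 : 1 + kk k K K' (-κ) * om K' s T ≠ 0 := by
    intro h0
    rw [h0, mul_zero] at h6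
    have h8 : kk k K K' κ * om K' s T = -1 := by linear_combination -h6
    rw [map_neg, neg_mul, h8, neg_neg] at h0
    have h9 : (2 : K') = 0 := by linear_combination h0
    exact two_ne_zero h9
  exact mul_right_cancel₀ h7 (h3.trans h6.symm)

end cayley

end Vale.Agent.P011.Pow
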