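import Vale.Agent.P011.Pow.Root
import Vale.Agent.P011.Pow.Ec
import Vale.Agent.P011.Pow.AvDiv
import Vale.Agent.P011.One.Near

/-!
Local constants for the induction step.
-/

open Module NumberField IsDedekindDomain

set_option linter.unusedSectionVars false

namespace Vale.Agent.P011.Pow

open Vale.Agent.P011.Arith Vale.Agent.P011.Even Vale.Agent.P011.Two Vale.Agent.P011.One

section val

variable {k : Type} [Field k] [NumberField k]

/-- The integers are integral. -/
theorem val_nat_le (v : HeightOneSpectrum (𝓞 k)) (m : ℕ) : v.valuation k (m : k) ≤ 1 := by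
  have h1 : v.valuation k (algebraMap (𝓞 k) k (m : 𝓞 k)) ≤ 1 := v.valuation_le_one _
  rwa [map_natCast] at h1

/-- Comparison of valuations above and below. -/
theorem val_lt_above {F : Type} [Field F] [NumberField F] [Algebra k F]
    {w : HeightOneSpectrum (𝓞 F)} {v : HeightOneSpectrum (𝓞 k)} (hw : Ab w v) {x y : k}
    (h : v.valuation k x < v.valuation k y) :
    w.valuation F (algebraMap k F x) < w.valuation F (algebraMap k F y) := by
  obtain ⟨e, he, h1⟩ := val_above hw
  rw [h1, h1]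
  exact pow_lt_pow_left₀ h zero_le he

/-- The valuation above of a small element. -/
theorem val_le_above {F : Type} [Field F] [NumberField F] [Algebra k F]
    {w : HeightOneSpectrum (𝓞 F)} {v : HeightOneSpectrum (𝓞 k)} (hw : Ab w v) {x : k}
    (h : v.valuation k x ≤ 1) : w.valuation F (algebraMap k F x) ≤ v.valuation k x := by
  obtain ⟨e, he, h1⟩ := val_above hw
  rw [h1]
  exact pow_le_of_le_one zero_le h he

/-- **The thresholds.** -/
theorem thr (v : HeightOneSpectrum (𝓞 k)) (c l : kˣ) {M : ℕ} (hM : 0 < M) {γ : Z0}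
    (hγ : γ ≠ 0) : ∃ ε : Z0, ε ≠ 0 ∧ ∀ κ : k, v.valuation k κ < ε →
      v.valuation k κ < v.valuation k (l : k) ∧
      ∀ (F : Type) [Field F] [NumberField F] [Algebra k F] (w : HeightOneSpectrum (𝓞 F)),
        Ab w v → ∀ l₀ : F, w.valuation F l₀ * w.valuation F 2 ≤ w.valuation F (algebraMap k F κ) →
        w.valuation F (algebraMap k F c * l₀ ^ 2) < w.valuation F ((M : F) ^ 3) ∧
        ∀ r : F, w.valuation F r * w.valuation F (M : F) ≤ w.valuation F l₀ →
          w.valuation F r < γ := by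
  have hM0 : (M : k) ≠ 0 := Nat.cast_ne_zero.mpr hM.ne'
  -- the first threshold
  obtain ⟨x, hx0, hx⟩ := exists_small v (γ := min 1 (v.valuation k (4 * (M : k) ^ 3 / c))) (by
    rcases min_choice (1 : Z0) (v.valuation k (4 * (M : k) ^ 3 / c)) with h | h <;> rw [h]
    · exact one_ne_zero
    · exact (Valuation.ne_zero_iff _).mpr (div_ne_zero (mul_ne_zero (by norm_num)
        (pow_ne_zero _ hM0)) c.ne_zero))
  rw [lt_min_iff] at hx
  have hx2 : v.valuation k (c * x ^ 2) < v.valuation k (4 * (M : k) ^ 3) := by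
    have h1 : v.valuation k (c * x ^ 2) ≤ v.valuation k (c * x) := by
      rw [map_mul, map_mul, map_pow]
      exact mul_le_mul' le_rfl (pow_le_of_le_one zero_le hx.1.le two_ne_zero)
    refine lt_of_le_of_lt h1 ?_
    have h2 : 4 * (M : k) ^ 3 = c * (4 * (M : k) ^ 3 / c) := by
      field_simp
    rw [h2, map_mul, map_mul]
    exact mul_lt_mul_of_pos_left hx.2 (zero_lt_iff.mpr ((Valuation.ne_zero_iff _).mpr c.ne_zero))
  -- the second threshold
  obtain ⟨b, hb0, hb⟩ := exists_small v (γ := min 1 γ) (by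
    rcases min_choice (1 : Z0) γ with h | h <;> rw [h]
    · exact one_ne_zero
    · exact hγ)
  rw [lt_min_iff] at hb
  obtain ⟨ε, hε0, hε⟩ := exists_min (ι := Fin 3) (S := Set.univ) Set.finite_univ
    ![v.valuation k (l : k), v.valuation k x, v.valuation k (b * (2 * M))] (by
      intro i
      fin_cases i
      · exact (Valuation.ne_zero_iff _).mpr l.ne_zero
      · exact (Valuation.ne_zero_iff _).mpr hx0
      · exact (Valuation.ne_zero_iff _).mpr (mul_ne_zero hb0 (mul_ne_zero two_ne_zero hM0)))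
  have e1 := hε 0 trivial
  have e2 := hε 1 trivial
  have e3 := hε 2 trivial
  simp only [Matrix.cons_val_zero, Matrix.cons_val_one, Matrix.cons_val] at e1 e2 e3
  refine ⟨ε, hε0, fun κ hκ => ⟨hκ.trans_le e1, ?_⟩⟩
  intro F _ _ _ w hw l₀ hl₀
  have h2 : w.valuation F (2 : F) ≠ 0 := (Valuation.ne_zero_iff _).mpr two_ne_zero
  have hMF : w.valuation F (M : F) ≠ 0 :=
    (Valuation.ne_zero_iff _).mpr (Nat.cast_ne_zero.mpr hM.ne')
  refine ⟨?_, fun r hr => ?_⟩
  · have h3 : w.valuation F (algebraMap k F c * l₀ ^ 2) * w.valuation F 4 ≤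
        w.valuation F (algebraMap k F (c * κ ^ 2)) := by
      have h4 : w.valuation F (4 : F) = w.valuation F 2 ^ 2 := by
        rw [← map_pow]
        norm_num
      rw [h4, map_mul, map_pow, mul_assoc, ← mul_pow, map_mul, map_mul, map_pow, map_pow]
      exact mul_le_mul' le_rfl (pow_le_pow_left' hl₀ 2)
    have h4 : w.valuation F (algebraMap k F (c * κ ^ 2)) <
        w.valuation F (algebraMap k F (4 * (M : k) ^ 3)) := by
      apply val_lt_above hw
      refine lt_of_le_of_lt ?_ hx2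
      rw [map_mul, map_mul, map_pow, map_pow]
      exact mul_le_mul' le_rfl (pow_le_pow_left' (hκ.trans_le e2).le 2)
    have h5 := lt_of_le_of_lt h3 h4
    have e4 : algebraMap k F (4 * (M : k) ^ 3) = (M : F) ^ 3 * 4 := by
      rw [map_mul, map_pow, map_natCast, map_ofNat, mul_comm]
    rw [e4, map_mul (w.valuation F) ((M : F) ^ 3) 4] at h5
    exact lt_of_mul_lt_mul_right' h5
  · have h3 : w.valuation F r * (w.valuation F (M : F) * w.valuation F 2) ≤
        w.valuation F (algebraMap k F κ) := by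
      rw [← mul_assoc]
      exact (mul_le_mul' hr le_rfl).trans hl₀
    have h4 := lt_of_le_of_lt h3 (val_lt_above hw (hκ.trans_le e3))
    have e4 : algebraMap k F (b * (2 * (M : k))) = algebraMap k F b * ((M : F) * 2) := by
      rw [map_mul, map_mul, map_natCast, map_ofNat, mul_comm (2 : F)]
    rw [e4, map_mul (w.valuation F) (algebraMap k F b), map_mul (w.valuation F) (M : F) 2] at h4
    have h5 := lt_of_mul_lt_mul_right' h4
    exact h5.trans_le ((val_le_above hw hb.1.le).trans hb.2.le)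

/-- The quotient. -/
theorem kappa_small (v : HeightOneSpectrum (𝓞 k)) {ε : Z0} {p u : k}
    (hp : v.valuation k (p - 1) < v.valuation k 2)
    (hu : v.valuation k u < v.valuation k 2 * ε) :
    1 + p ≠ 0 ∧ v.valuation k (u / (1 + p)) < ε := by
  have h2 : v.valuation k (2 : k) ≠ 0 := (Valuation.ne_zero_iff _).mpr two_ne_zero
  have h1 : v.valuation k (1 + p) = v.valuation k 2 := by
    have e : 1 + p = 2 + (p - 1) := by ring
    rw [e]
    exact (v.valuation k).map_add_eq_of_lt_left hp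
  refine ⟨fun h0 => h2 ?_, ?_⟩
  · rw [← h1, h0, map_zero]
  · rw [map_div₀, h1]
    rw [mul_comm] at hu
    exact (div_lt_iff₀ (zero_lt_iff.mpr h2)).mpr hu

end val

section near

variable {k D : Type} [Field k] [NumberField k] [DivisionRing D] [Algebra k D] {n : ℕ}
  (B : Basis (Fin n) k D) (p : Pl k)

theorem near_pow' (e : ℕ) {ε : ℝ} (hε : 0 < ε) : ∃ δ : ℝ, 0 < δ ∧ ∀ z : D,
    nm B p (z - 1) < δ → nm B p (z ^ e - 1) < ε := by
  induction e generalizing ε with
  | zero => exact ⟨1, one_pos, fun z _ => by rw [pow_zero, sub_self, nm_zero]; exact hε⟩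
  | succ e ih =>
    obtain ⟨δ, hδ, h⟩ := near_mul B p hε
    obtain ⟨δ', hδ', h'⟩ := ih hδ
    exact ⟨min δ δ', lt_min hδ hδ', fun z hz => by
      rw [pow_succ]
      exact h _ _ (h' _ (hz.trans_le (min_le_right _ _))) (hz.trans_le (min_le_left _ _))⟩

/-- Products. -/
theorem near_prod (e : ℕ) {ε : ℝ} (hε : 0 < ε) : ∃ δ : ℝ, 0 < δ ∧ ∀ x h u : D,
    nm B p (x - 1) < δ → nm B p (h - 1) < δ → nm B p (u - 1) < δ →
    nm B p (x * (h ^ e * u)⁻¹ - 1) < ε := by
  obtain ⟨δ₁, hδ₁, h1⟩ := near_mul B p hε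
  obtain ⟨δ₂, hδ₂, h2⟩ := near_inv B p hδ₁
  obtain ⟨δ₃, hδ₃, h3⟩ := near_mul B p hδ₂
  obtain ⟨δ₄, hδ₄, h4⟩ := near_pow' B p e hδ₃
  refine ⟨min δ₁ (min δ₃ δ₄), by positivity, fun x h u hx hh hu => ?_⟩
  refine h1 _ _ (hx.trans_le (min_le_left _ _)) (h2 _ (h3 _ _ (h4 _ ?_) ?_))
  · exact hh.trans_le ((min_le_right _ _).trans (min_le_right _ _))
  · exact hu.trans_le ((min_le_right _ _).trans (min_le_left _ _))

end near

end Vale.Agent.P011.Pow
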