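import Vale.Agent.P011.Pow.VnAlg
import Vale.Agent.P011.Pow.VnLem
import Vale.Agent.P011.Pow.MP
import Vale.Agent.P011.Pow.IsCentN

/-!
The construction of an element with a given reduced norm in the induction step.
-/

open Module NumberField IsDedekindDomain

set_option linter.unusedSectionVars false

namespace Vale.Agent.P011.Pow

open Vale.Agent.P011.Arith Vale.Agent.P011.Even Vale.Agent.P011.Two Vale.Agent.P011.One
open Vale.Agent.P011.W (HasNrd)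

theorem hasNrd_pow {K C : Type} [Field K] [DivisionRing C] [Algebra K C] {m : ℕ} {x : C} {ν : K}
    (h : HasNrd K m x ν) (e : ℕ) : HasNrd K m (x ^ e) (ν ^ e) := fun Ω _ _ f => by
  rw [map_pow, Matrix.det_pow, h, map_pow]

theorem hasNrd_alg {K C : Type} [Field K] [DivisionRing C] [Algebra K C] {m : ℕ} (x : K) :
    HasNrd K m (algebraMap K C x) (x ^ m) := fun Ω _ _ f => by
  rw [AlgHom.commutes, Matrix.algebraMap_eq_diagonal, Matrix.det_diagonal]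
  simp

variable {k K D L K' C F F' E L₂ K₂ C₂ : Type}
    [Field k] [NumberField k] [Field K] [NumberField K] [StarRing K] [DivisionRing D] [StarRing D]
    [Algebra k K] [Algebra k D] [Algebra K D] [IsScalarTower k K D]
    [Field L] [NumberField L] [Algebra k L] [Field K'] [NumberField K'] [StarRing K']
    [Algebra K K'] [DivisionRing C] [StarRing C] [Algebra L K'] [Algebra L C] [Algebra K' C]
    [IsScalarTower L K' C]
    [Field F] [NumberField F] [Algebra k F] [Field F'] [NumberField F'] [StarRing F']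
    [Algebra K F'] [DivisionRing E] [StarRing E] [Algebra F F'] [Algebra F E] [Algebra F' E]
    [IsScalarTower F F' E]
    [Field L₂] [NumberField L₂] [Algebra L L₂] [Field K₂] [NumberField K₂] [StarRing K₂]
    [Algebra K' K₂] [DivisionRing C₂] [StarRing C₂] [Algebra L₂ K₂] [Algebra L₂ C₂]
    [Algebra K₂ C₂] [IsScalarTower L₂ K₂ C₂] [Algebra F L₂] [Algebra F' K₂]
    {d : kˣ} {s : K} {t : D} {a : kˣ} {T : L} {j : C →+* D} {s₁ : D} {b : kˣ} {S : F}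
    {jE : E →+* D} {s₂ : C} {S₂ : L₂} {j₂ : C₂ →+* C} {tE : E} {i : C₂ →+* E}

/-- The elements of the torus in `D` are in the special unitary group. -/
theorem torus_GU {l : ℕ} (hS : Setting k K D d s)
    (hSE : Setting F F' E (inc k F d) (algebraMap K F' s))
    (hS₂ : Setting L₂ K₂ C₂ (inc L L₂ (inc k L d)) (algebraMap K' K₂ (algebraMap K K' s)))
    (h : IsCent k K D L K' C t a T j) (hE : IsCent k K D F F' E s₁ b S jE)
    (h₂ : IsCent L K' C L₂ K₂ C₂ s₂ (inc k L b) S₂ j₂)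
    (h₃ : IsCent F F' E L₂ K₂ C₂ tE (inc k F a) (algebraMap L L₂ T) i)
    (hij : ∀ x, jE (i x) = j (j₂ x))
    (hdD : finrank K D = (2 * (2 * l)) ^ 2)
    (hdE : finrank F' E = (2 * l) ^ 2) (hdC₂ : finrank K₂ C₂ = l ^ 2)
    {Ω : Type} [Field Ω] [Algebra K Ω]
    (f : D →ₐ[K] Matrix (Fin (2 * (2 * l))) (Fin (2 * (2 * l))) Ω) {z : K₂}
    (hz : z * star z = 1) (hz1 : Algebra.norm F' z = 1) :
    j (j₂ (algebraMap K₂ C₂ z)) ∈ GU f := by
  have hKc : CharZero K := charZero_of_injective_algebraMap (algebraMap k K).injective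
  have hF'c : CharZero F' := charZero_of_injective_algebraMap (algebraMap F F').injective
  have := hS.fin
  have := hS.cen
  have := hSE.fin
  have := hSE.cen
  have := hS₂.fin
  have := hS₂.cen
  refine ⟨?_, ?_⟩
  · rw [← h.star, ← h₂.star, ← map_mul, ← map_mul, hS₂.star_alg, ← map_mul, hz, map_one, map_one,
      map_one]
  · have e1 : HasNrd K₂ l (algebraMap K₂ C₂ z) (z ^ l) := hasNrd_alg z
    have e2 := h₃.hasNrd rfl hdE hdC₂ e1
    have e3 := hE.hasNrd rfl hdD hdE e2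
    rw [map_pow, hz1, one_pow, map_one, hij] at e3
    rw [e3, map_one]

/-- **The construction of an element with a given reduced norm.** -/
theorem vn_core {l : ℕ} (hl0 : 0 < l) (hS : Setting k K D d s)
    (hSC : Setting L K' C (inc k L d) (algebraMap K K' s))
    (hSE : Setting F F' E (inc k F d) (algebraMap K F' s))
    (hS₂ : Setting L₂ K₂ C₂ (inc L L₂ (inc k L d)) (algebraMap K' K₂ (algebraMap K K' s)))
    (h : IsCent k K D L K' C t a T j) (hE : IsCent k K D F F' E s₁ b S jE)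
    (h₂ : IsCent L K' C L₂ K₂ C₂ s₂ (inc k L b) S₂ j₂)
    (h₃ : IsCent F F' E L₂ K₂ C₂ tE (inc k F a) (algebraMap L L₂ T) i)
    (hij : ∀ x, jE (i x) = j (j₂ x))
    (hk : ∀ c : k, algebraMap F L₂ (algebraMap k F c) = algebraMap L L₂ (algebraMap k L c))
    (hK : ∀ c : K, algebraMap F' K₂ (algebraMap K F' c) = algebraMap K' K₂ (algebraMap K K' c))
    (hS' : algebraMap F L₂ S = S₂)
    (hdD : finrank K D = (2 * (2 * l)) ^ 2) (hdC : finrank K' C = (2 * l) ^ 2)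
    (hdE : finrank F' E = (2 * l) ^ 2) (hdC₂ : finrank K₂ C₂ = l ^ 2)
    {Ω : Type} [Field Ω] [Algebra K Ω]
    (f : D →ₐ[K] Matrix (Fin (2 * (2 * l))) (Fin (2 * (2 * l))) Ω)
    (N : Subgroup (SUD f)) [N.Normal] (hi : N.index ≠ 0)
    {M : ℕ} (B' : Basis (Fin M) L C) {ε : ℝ}
    {R : Set (HeightOneSpectrum (𝓞 k))} (hRf : R.Finite) (hRne : R.Nonempty)
    {γ : HeightOneSpectrum (𝓞 k) → Z0}
    (hγ : ∀ w' : HeightOneSpectrum (𝓞 L), (Sum.inl w' : Pl L) ∈ Tdiv L K' C → ∃ v ∈ R, ∀ r : F,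
      (∀ w : HeightOneSpectrum (𝓞 F), Ab w v → w.valuation F r < γ v) → ∀ z : C,
      z * star z = 1 → z * (1 - j₂ (algebraMap L₂ C₂ (algebraMap F L₂ r)) *
        algebraMap K' C (om K' s T)) = 1 + j₂ (algebraMap L₂ C₂ (algebraMap F L₂ r)) *
          algebraMap K' C (om K' s T) → nm B' (.inl w') (z - 1) < ε)
    (hx2 : ∃ εF : HeightOneSpectrum (𝓞 F) → Z0, (∀ w, εF w ≠ 0) ∧ ∀ κ₁ : F,
      (∀ v ∈ R, ∀ w : HeightOneSpectrum (𝓞 F), Ab w v → w.valuation F κ₁ < εF w) →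
      ∀ y : K₂, y * star y = 1 → Algebra.norm F' y = 1 →
      y * (1 - fk F L₂ K₂ κ₁ * om2 K' K₂ s T) = 1 + fk F L₂ K₂ κ₁ * om2 K' K₂ s T →
      ∃ u : C₂, u * star u = 1 ∧ HasNrd K₂ l u y ∧ j (j₂ u) ∈ Im N ∧
        ∀ w' : HeightOneSpectrum (𝓞 L), (Sum.inl w' : Pl L) ∈ Tdiv L K' C →
          nm B' (.inl w') (j₂ u - 1) < ε)
    {y κ p u : k} (hy : y ≠ 0) (hb : (b : k) = 1 - 2 * y + a * d * y ^ 2 * κ ^ 2)
    (hp : 1 + p ≠ 0) (hκ : κ = u / (1 + p)) (hpu : p ^ 2 - (a * d : k) * u ^ 2 = 1)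
    (hS1 : 1 + S ≠ 0)
    (hl : ∀ v ∈ R, ∀ w : HeightOneSpectrum (𝓞 F), Ab w v →
      w.valuation F (algebraMap k F (a * d) * (algebraMap k F (y * κ) / (1 + S)) ^ 2) <
        w.valuation F (((N.index * l : ℕ) : F) ^ 3) ∧
      ∀ r : F, w.valuation F r * w.valuation F ((N.index * l : ℕ) : F) ≤
        w.valuation F (algebraMap k F (y * κ) / (1 + S)) → w.valuation F r < γ v) :
    ∃ z u₂ : C, z * star z = 1 ∧ u₂ * star u₂ = 1 ∧
      HasNrd K' (2 * l) (z ^ N.index * u₂) (kk k K K' p + kk k K K' u * om K' s T) ∧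
      j (z ^ N.index * u₂) ∈ Im N ∧
      ∀ w' : HeightOneSpectrum (𝓞 L), (Sum.inl w' : Pl L) ∈ Tdiv L K' C →
        nm B' (.inl w') (z - 1) < ε ∧ nm B' (.inl w') (u₂ - 1) < ε := by
  have hK'c : CharZero K' := charZero_of_injective_algebraMap (algebraMap K K').injective
  have := hSC.fin
  have := hSC.cen
  have := hS₂.fin
  have := hS₂.cen
  obtain ⟨εF, hεF, hx2⟩ := hx2
  obtain ⟨M0, hM0⟩ : ∃ M0, M0 = N.index * l := ⟨_, rfl⟩
  have hM0' : 0 < M0 := by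
    rw [hM0]
    exact Nat.mul_pos (Nat.pos_of_ne_zero hi) hl0
  obtain ⟨c, hc⟩ : ∃ c : F, c = algebraMap k F (a * d) := ⟨_, rfl⟩
  obtain ⟨l₀, hl₀⟩ : ∃ l₀ : F, l₀ = algebraMap k F (y * κ) / (1 + S) := ⟨_, rfl⟩
  rw [← hl₀, ← hc, ← hM0] at hl
  -- the places
  have hfin : {w : HeightOneSpectrum (𝓞 F) | ∃ v ∈ R, Ab w v}.Finite := by
    have : {w : HeightOneSpectrum (𝓞 F) | ∃ v ∈ R, Ab w v} = ⋃ v ∈ R, {w | Ab w v} := by
      ext w
      simp
    rw [this]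
    exact hRf.biUnion fun v _ => above_finite v
  have hfin' : Finite {w : HeightOneSpectrum (𝓞 F) | ∃ v ∈ R, Ab w v} := hfin
  obtain ⟨v₀, hv₀⟩ := hRne
  obtain ⟨w₀, hw₀⟩ := Arith.exists_above (E := F) v₀
  obtain ⟨r, κ₁, hroot, hrκ⟩ := root_torus (c := c)
    (fun w : {w : HeightOneSpectrum (𝓞 F) | ∃ v ∈ R, Ab w v} => w.1.valuation F) hM0' l₀
    (fun w => by
      obtain ⟨v, hv, hw⟩ := w.2
      exact (hl v hv w.1 hw).1) (fun w => εF w.1) (fun w => hεF w.1)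
  have hrκ' : ∀ v ∈ R, ∀ w : HeightOneSpectrum (𝓞 F), Ab w v →
      w.valuation F r * w.valuation F (M0 : F) ≤ w.valuation F l₀ ∧
      w.valuation F κ₁ ≤ w.valuation F l₀ ∧ w.valuation F κ₁ < εF w := fun v hv w hw =>
    hrκ ⟨w, v, hv, hw⟩
  -- the denominators
  obtain ⟨W, hW⟩ : ∃ W, W = w₀.valuation F := ⟨_, rfl⟩
  have g1 := (hl v₀ hv₀ w₀ hw₀).1
  obtain ⟨g2, g3, -⟩ := hrκ' v₀ hv₀ w₀ hw₀
  rw [← hW] at g1 g2 g3
  have hWM : W (M0 : F) ≤ 1 := by rw [hW]; exact val_nat_le w₀ M0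
  have hWM0 : W (M0 : F) ≠ 0 := by
    rw [hW]
    exact (Valuation.ne_zero_iff _).mpr (Nat.cast_ne_zero.mpr hM0'.ne')
  have g4 : W (c * l₀ ^ 2) < 1 := by
    refine g1.trans_le ?_
    rw [map_pow]
    exact pow_le_one' hWM 3
  have g5 : W (c * κ₁ ^ 2) < 1 := by
    refine lt_of_le_of_lt ?_ g4
    rw [map_mul, map_mul, map_pow, map_pow]
    exact mul_le_mul' le_rfl (pow_le_pow_left' g3 2)
  have g6 : W (c * r ^ 2) < 1 := by
    have h5 : W (c * r ^ 2) * W (M0 : F) ^ 2 ≤ W (c * l₀ ^ 2) := by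
      rw [map_mul, map_pow, mul_assoc, ← mul_pow, map_mul, map_pow]
      exact mul_le_mul' le_rfl (pow_le_pow_left' g2 2)
    have h6 : W (c * r ^ 2) * W (M0 : F) ^ 2 < 1 * W (M0 : F) ^ 2 := by
      refine lt_of_le_of_lt h5 (lt_of_lt_of_le g1 ?_)
      rw [map_pow, pow_succ' (W (M0 : F)) 2]
      exact mul_le_mul' hWM le_rfl
    exact lt_of_mul_lt_mul_right' h6
  have n1 : 1 - c * l₀ ^ 2 ≠ 0 := one_sub_ne W g4
  have n2 : 1 - c * κ₁ ^ 2 ≠ 0 := one_sub_ne W g5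
  have n3 : 1 - c * r ^ 2 ≠ 0 := one_sub_ne W g6
  -- the torus
  have hom : om2 K' K₂ s T * om2 K' K₂ s T = fk F L₂ K₂ c := by
    rw [hc]
    exact om2_sq hS h h₂ hk
  obtain ⟨φ, hφ⟩ := exists_lift (c := c) (fk F L₂ K₂) hom (fun x => mul_comm _ _)
  obtain ⟨z, hz⟩ : ∃ z, z = φ (cay c r) := ⟨_, rfl⟩
  obtain ⟨y₂, hy₂⟩ : ∃ y₂, y₂ = φ (cay c κ₁) := ⟨_, rfl⟩
  obtain ⟨x₀, hx₀⟩ : ∃ x₀, x₀ = φ (cay c l₀) := ⟨_, rfl⟩
  have hprod : z ^ M0 * y₂ = x₀ := by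
    rw [hz, hy₂, hx₀, ← map_pow, ← map_mul, hroot]
  have cz := lift_cay (fk F L₂ K₂) hφ n3
  have cy := lift_cay (fk F L₂ K₂) hφ n2
  have cx := lift_cay (fk F L₂ K₂) hφ n1
  rw [← hz] at cz
  rw [← hy₂] at cy
  rw [← hx₀] at cx
  rw [hc] at n1 n2 n3
  have sz := cay_star hS hS₂ h h₂ hk n3 cz
  have sy := cay_star hS hS₂ h h₂ hk n2 cy
  have nz := cay_norm hS h hE h₂ h₃ hk hK n3 cz
  have ny := cay_norm hS h hE h₂ h₃ hk hK n2 cy
  rw [hl₀] at cx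
  have nx := norm_base hS h h₂ hy hb hS' hk hS1 cx hp hκ hpu
  -- the second factor
  obtain ⟨u₂, su, nu, iu, cu⟩ := hx2 κ₁ (fun v hv w hw => (hrκ' v hv w hw).2.2) y₂ sy ny cy
  -- the first factor
  have sz' : j₂ (algebraMap K₂ C₂ z) * star (j₂ (algebraMap K₂ C₂ z)) = 1 := by
    rw [← h₂.star, ← map_mul, hS₂.star_alg, ← map_mul, sz, map_one, map_one]
  have su' : j₂ u₂ * star (j₂ u₂) = 1 := by
    rw [← h₂.star, ← map_mul, su, map_one]
  refine ⟨j₂ (algebraMap K₂ C₂ z), j₂ u₂, sz', su', ?_, ?_, fun w' hw' => ⟨?_, cu w' hw'⟩⟩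
  · have e1 : HasNrd K₂ l (algebraMap K₂ C₂ z) (z ^ l) := hasNrd_alg z
    have e2 := (hasNrd_pow e1 N.index).mul nu
    have e3 := h₂.hasNrd rfl hdC hdC₂ e2
    have e4 : (z ^ l) ^ N.index * y₂ = x₀ := by
      rw [← pow_mul, mul_comm l, ← hM0, hprod]
    rw [e4, nx, map_mul, map_pow] at e3
    exact e3
  · rw [map_mul, map_pow]
    exact mul_im (pow_im (fun g => Subgroup.pow_index_mem _ g)
      (torus_GU hS hSE hS₂ h hE h₂ h₃ hij hdD hdE hdC₂ f sz nz)) iu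
  · obtain ⟨v, hv, hγ'⟩ := hγ w' hw'
    refine hγ' r (fun w hw => ?_) _ sz' ?_
    · exact (hl v hv w hw).2 r (hrκ' v hv w hw).1
    · have e1 : j₂ (algebraMap L₂ C₂ (algebraMap F L₂ r)) =
          j₂ (algebraMap K₂ C₂ (fk F L₂ K₂ r)) := by
        rw [IsScalarTower.algebraMap_apply L₂ K₂ C₂]
        rfl
      have e2 : algebraMap K' C (om K' s T) = j₂ (algebraMap K₂ C₂ (om2 K' K₂ s T)) :=
        (h₂.jK _).symm
      rw [e1, e2, ← map_mul, ← map_mul, ← map_one j₂, ← map_one (algebraMap K₂ C₂), ← map_sub,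
        ← map_sub, ← map_add, ← map_add, ← map_mul, ← map_mul, cz]

end Vale.Agent.P011.Pow
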